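import Vale.Agent.P050.MathlibUsed
import Vale.Agent.P050.TDefs

set_option linter.all false

section

section

/-!
Basic definitions for the uniform local form of the Sidorenko inequality.
Edge sets of a graph on `V` are finite sets of unordered pairs.
-/

open Finset

namespace Vale.Agent.P050

variable {V : Type*} [Fintype V] [DecidableEq V]

/-- number of edges of `F` containing the vertex `v` -/
def dg (F : Finset (Sym2 V)) (v : V) : ℕ := (F.filter (fun e => v ∈ e)).card

/-- the graph of the edge set `F` -/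
abbrev gr (F : Finset (Sym2 V)) : SimpleGraph V := SimpleGraph.fromEdgeSet (F : Set (Sym2 V))

/-- the vertices touched by the edge set `F` -/
def supp (F : Finset (Sym2 V)) : Finset V := Finset.univ.filter (fun v => ∃ e ∈ F, v ∈ e)

/-- `F` is nonempty and connected -/
def Conn (F : Finset (Sym2 V)) : Prop :=
  F.Nonempty ∧ ∀ u ∈ supp F, ∀ v ∈ supp F, (gr F).Reachable u v

/-- every vertex touched by `F` can be reached inside `F` from some vertex of `R` -/
def Rooted (R : Finset V) (F : Finset (Sym2 V)) : Prop :=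
  ∀ v ∈ supp F, ∃ r ∈ R, (gr F).Reachable r v

/-- the edges of `E` that touch no vertex of `T` -/
def avoid (E : Finset (Sym2 V)) (T : Finset V) : Finset (Sym2 V) :=
  E.filter (fun e => ∀ v ∈ e, v ∉ T)

/-- the edges of the path from `a` through the list `p` to `b` -/
def pathEdges {V : Type*} : V → List V → V → List (Sym2 V)
  | a, [], b => [s(a, b)]
  | a, v :: p, b => s(a, v) :: pathEdges v p b

lemma pathEdges_nil {V : Type*} (a b : V) : pathEdges a [] b = [s(a, b)] := by
  simp only [pathEdges]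

lemma pathEdges_cons {V : Type*} (a v b : V) (p : List V) :
    pathEdges a (v :: p) b = s(a, v) :: pathEdges v p b := by
  simp only [pathEdges]

/-- `a, p, b, q` is a cyclic enumeration (without repetition) of a cycle of length `2 k`
contained in `F`, with `b` opposite to `a`, and the cycle has no chord in `F` -/
structure CycPres (F : Finset (Sym2 V)) (k : ℕ) (a b : V) (p q : List V) : Prop where
  hk : 2 ≤ k
  hp : p.length + 1 = k
  hq : q.length + 1 = k
  nodup : (a :: p ++ b :: q).Nodup
  sub : ∀ e ∈ pathEdges a p b ++ pathEdges b q a, e ∈ F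
  chordless : ∀ u ∈ a :: p ++ b :: q, ∀ v ∈ a :: p ++ b :: q, s(u, v) ∈ F →
    s(u, v) ∈ pathEdges a p b ++ pathEdges b q a

/-- the edge set of the cycle `a, p, b, q` -/
def cycEdges (a b : V) (p q : List V) : Finset (Sym2 V) :=
  (pathEdges a p b ++ pathEdges b q a).toFinset

end Vale.Agent.P050
end
end

section

section

open Finset

namespace Vale.Agent.P050

set_option linter.unusedSectionVars false

variable {V : Type*} [Fintype V] [DecidableEq V]

lemma mem_supp {F : Finset (Sym2 V)} {v : V} : v ∈ supp F ↔ ∃ e ∈ F, v ∈ e := by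
  simp only [supp, mem_filter, mem_univ, true_and]

lemma supp_mono {F G : Finset (Sym2 V)} (h : F ⊆ G) : supp F ⊆ supp G := by
  intro v hv
  rw [mem_supp] at hv ⊢
  obtain ⟨e, he, hve⟩ := hv
  exact ⟨e, h he, hve⟩

lemma dg_mono {F G : Finset (Sym2 V)} (h : F ⊆ G) (v : V) : dg F v ≤ dg G v :=
  card_le_card (filter_subset_filter _ h)

lemma Rooted.mono {R R' : Finset V} {F : Finset (Sym2 V)} (h : Rooted R F) (hR : R ⊆ R') :
    Rooted R' F := by
  intro v hv
  obtain ⟨r, hr, hrv⟩ := h v hv
  exact ⟨r, hR hr, hrv⟩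

lemma reach_sdiff {R : Finset V} {F G : Finset (Sym2 V)}
    (hG : ∀ e ∈ G, ∀ v ∈ e, v ∈ R) {r v : V} (hr : r ∈ R) (h : (gr F).Reachable r v) :
    ∃ r' ∈ R, (gr (F \ G)).Reachable r' v := by
  rw [SimpleGraph.reachable_iff_reflTransGen] at h
  induction h with
  | refl => exact ⟨r, hr, SimpleGraph.Reachable.refl _⟩
  | tail hab hbc ih =>
    rename_i b c
    obtain ⟨r', hr', hb⟩ := ih
    rw [SimpleGraph.fromEdgeSet_adj] at hbc
    obtain ⟨hbc, hne⟩ := hbc
    by_cases hg : s(b, c) ∈ G
    · exact ⟨c, hG _ hg c (by simp), SimpleGraph.Reachable.refl _⟩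
    · refine ⟨r', hr', hb.trans ?_⟩
      apply SimpleGraph.Adj.reachable
      rw [SimpleGraph.fromEdgeSet_adj]
      refine ⟨?_, hne⟩
      simp only [coe_sdiff, Set.mem_sdiff, mem_coe]
      exact ⟨hbc, hg⟩

lemma Rooted.sdiff {R : Finset V} {F G : Finset (Sym2 V)} (hF : Rooted R F)
    (hG : ∀ e ∈ G, ∀ v ∈ e, v ∈ R) : Rooted R (F \ G) := by
  intro v hv
  obtain ⟨r, hr, hrv⟩ := hF v (supp_mono sdiff_subset hv)
  exact reach_sdiff hG hr hrv

open scoped Classical in
/-- weighted count of the edge sets all of whose components touch `R` -/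
theorem rooted_count (Δ : ℕ) (x y : ℝ) (hx : 0 ≤ x) (hy : 0 ≤ y)
    (hxy : x * (1 + y) ^ Δ ≤ y) :
    ∀ (n : ℕ) (E : Finset (Sym2 V)), E.card = n → (∀ e ∈ E, ¬ e.IsDiag) →
      (∀ v, dg E v ≤ Δ) → ∀ R : Finset V,
      ∑ F ∈ E.powerset, (if Rooted R F then x ^ F.card else 0) ≤
        (1 + y) ^ (∑ r ∈ R, dg E r) := by
  intro n
  induction n with
  | zero =>
    intro E hE _ _ R
    rw [card_eq_zero] at hE
    subst hE
    simp only [powerset_empty, sum_singleton, card_empty, pow_zero]
    split_ifs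
    · exact one_le_pow₀ (by linarith only [hy])
    · positivity
  | succ n ih =>
    intro E hE hloop hΔ R
    by_cases htouch : ∃ e ∈ E, ∃ r ∈ R, r ∈ e
    · obtain ⟨e, he, r, hr, hre⟩ := htouch
      obtain ⟨v, rfl⟩ := hre
      have hrv : r ≠ v := by
        have := hloop _ he
        simpa using this
      set E' := E.erase s(r, v) with hE'
      have hcard : E'.card = n := by rw [hE', card_erase_of_mem he, hE]; rfl
      have hsub : E' ⊆ E := erase_subset _ _
      have hins : insert s(r, v) E' = E := insert_erase he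
      have hnot : s(r, v) ∉ E' := notMem_erase _ _
      have hloop' : ∀ e ∈ E', ¬ e.IsDiag := fun e h => hloop e (hsub h)
      have hΔ' : ∀ v, dg E' v ≤ Δ := fun v => (dg_mono hsub v).trans (hΔ v)
      have h1 := ih E' hcard hloop' hΔ' R
      have h2 := ih E' hcard hloop' hΔ' (insert v R)
      rw [← hins, sum_powerset_insert hnot]
      set m := ∑ r ∈ R, dg E' r with hm
      have h3 : ∑ F ∈ E'.powerset,
          (if Rooted R (insert s(r, v) F) then x ^ (insert s(r, v) F).card else 0) ≤
          x * ∑ F ∈ E'.powerset, (if Rooted (insert v R) F then x ^ F.card else 0) := by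
        rw [mul_sum]
        apply sum_le_sum
        intro F hF
        have hFE : F ⊆ E' := mem_powerset.mp hF
        have hnF : s(r, v) ∉ F := fun h => hnot (hFE h)
        split_ifs with hR1 hR2
        · rw [card_insert_of_notMem hnF, pow_succ, mul_comm]
        · exfalso
          apply hR2
          have h4 : Rooted (insert v R) (insert s(r, v) F) := hR1.mono (subset_insert _ _)
          have h5 := h4.sdiff (G := {s(r, v)}) (by
            intro e he' w hw
            rw [mem_singleton] at he'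
            subst he'
            rw [Sym2.mem_iff] at hw
            rcases hw with rfl | rfl
            · exact mem_insert_of_mem hr
            · exact mem_insert_self _ _)
          have h6 : insert s(r, v) F \ {s(r, v)} = F := by
            rw [sdiff_singleton_eq_erase, erase_insert hnF]
          rwa [h6] at h5
        · (clear * - hx; positivity)
        · simp
      have h4 : (∑ r ∈ insert v R, dg E' r) ≤ m + Δ := by
        by_cases hvR : v ∈ R
        · rw [insert_eq_of_mem hvR]; omega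
        · rw [sum_insert hvR]
          have := hΔ' v
          omega
      have h5 : m + 1 ≤ ∑ r' ∈ R, dg (insert s(r, v) E') r' := by
        have hlt : ∑ r' ∈ R, dg E' r' < ∑ r' ∈ R, dg (insert s(r, v) E') r' := by
          apply sum_lt_sum
          · intro i _
            exact dg_mono (subset_insert _ _) i
          · refine ⟨r, hr, ?_⟩
            unfold dg
            apply card_lt_card
            rw [ssubset_iff_of_subset (filter_subset_filter _ (subset_insert _ _))]
            refine ⟨s(r, v), ?_, ?_⟩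
            · simp
            · simp [hnot]
        omega
      have hpos : (0:ℝ) ≤ (1 + y) ^ m := by (clear * - hy; positivity)
      have hone : (1:ℝ) ≤ 1 + y := by linarith only [hy]
      calc _ ≤ (1 + y) ^ m + x * (1 + y) ^ (∑ r ∈ insert v R, dg E' r) := by
            refine add_le_add h1 (h3.trans ?_)
            exact mul_le_mul_of_nonneg_left h2 hx
        _ ≤ (1 + y) ^ m + x * (1 + y) ^ (m + Δ) := by
            (clear * - hone h4 hx; gcongr)
        _ = (1 + y) ^ m * (1 + x * (1 + y) ^ Δ) := by rw [pow_add]; ring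
        _ ≤ (1 + y) ^ m * (1 + y) := by (clear * - hxy hy; gcongr)
        _ = (1 + y) ^ (m + 1) := by rw [pow_succ]
        _ ≤ _ := pow_le_pow_right₀ hone h5
    · push Not at htouch
      have hzero : ∀ F ∈ E.powerset, F ≠ ∅ → (if Rooted R F then x ^ F.card else 0) = 0 := by
        intro F hF hne
        rw [if_neg]
        intro hroot
        obtain ⟨e, he⟩ := nonempty_iff_ne_empty.mpr hne
        induction e with
        | h a b =>
          have ha : a ∈ supp F := mem_supp.mpr ⟨_, he, by simp⟩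
          obtain ⟨r, hr, hra⟩ := hroot a ha
          rw [SimpleGraph.reachable_iff_reflTransGen] at hra
          rcases Relation.ReflTransGen.cases_head hra with h | ⟨c, hc, _⟩
          · subst h
            exact htouch _ (mem_powerset.mp hF he) r hr (by simp)
          · rw [SimpleGraph.fromEdgeSet_adj] at hc
            exact htouch _ (mem_powerset.mp hF hc.1) r hr (by simp)
      rw [sum_eq_single ∅ hzero (by intro h; exact absurd (empty_mem_powerset E) h)]
      simp only [card_empty, pow_zero]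
      split_ifs <;> first | exact one_le_pow₀ (by linarith only [hy]) | positivity

end Vale.Agent.P050
end
end

section

section

open Finset

namespace Vale.Agent.P050

set_option linter.unusedSectionVars false

variable {V : Type*} [Fintype V] [DecidableEq V]

open scoped Classical in
/-- the edges of `F` in the component of `a` -/
noncomputable def comp (F : Finset (Sym2 V)) (a : V) : Finset (Sym2 V) :=
  F.filter (fun e => ∃ v ∈ e, (gr F).Reachable a v)

lemma mem_comp {F : Finset (Sym2 V)} {a : V} {e : Sym2 V} :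
    e ∈ comp F a ↔ e ∈ F ∧ ∃ v ∈ e, (gr F).Reachable a v := by
  simp only [comp, mem_filter]

lemma comp_subset (F : Finset (Sym2 V)) (a : V) : comp F a ⊆ F := by
  intro e he; exact (mem_comp.mp he).1

lemma reach_of_mem {F : Finset (Sym2 V)} {e : Sym2 V} (he : e ∈ F) {u v : V} (hu : u ∈ e)
    (hv : v ∈ e) : (gr F).Reachable u v := by
  by_cases h : u = v
  · subst h; exact SimpleGraph.Reachable.refl _
  · apply SimpleGraph.Adj.reachable
    rw [SimpleGraph.fromEdgeSet_adj]
    refine ⟨?_, h⟩
    have : e = s(u, v) := ((Sym2.mem_and_mem_iff h).mp ⟨hu, hv⟩)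
    rw [← this]; exact he

lemma reach_mono {F G : Finset (Sym2 V)} (h : F ⊆ G) {u v : V} (huv : (gr F).Reachable u v) :
    (gr G).Reachable u v := by
  apply huv.mono
  exact SimpleGraph.fromEdgeSet_mono (by exact_mod_cast h)

lemma reach_of_mem_supp_comp {F : Finset (Sym2 V)} {a u : V} (hu : u ∈ supp (comp F a)) :
    (gr F).Reachable a u := by
  rw [mem_supp] at hu
  obtain ⟨e, he, hue⟩ := hu
  obtain ⟨heF, v, hve, hav⟩ := mem_comp.mp he
  exact hav.trans (reach_of_mem heF hve hue)

lemma reach_comp {F : Finset (Sym2 V)} {a u : V} (h : (gr F).Reachable a u) :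
    (gr (comp F a)).Reachable a u := by
  rw [SimpleGraph.reachable_iff_reflTransGen] at h
  induction h with
  | refl => exact SimpleGraph.Reachable.refl _
  | tail hab hbc ih =>
    rename_i b c
    refine ih.trans ?_
    apply SimpleGraph.Adj.reachable
    rw [SimpleGraph.fromEdgeSet_adj] at hbc ⊢
    refine ⟨?_, hbc.2⟩
    rw [mem_coe, mem_comp]
    refine ⟨hbc.1, b, by simp, ?_⟩
    rw [SimpleGraph.reachable_iff_reflTransGen]
    exact hab

lemma conn_comp {F : Finset (Sym2 V)} {a : V} {e₀ : Sym2 V} (he₀ : e₀ ∈ F) (ha : a ∈ e₀) :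
    e₀ ∈ comp F a ∧ Conn (comp F a) := by
  have h1 : e₀ ∈ comp F a := mem_comp.mpr ⟨he₀, a, ha, SimpleGraph.Reachable.refl _⟩
  refine ⟨h1, ⟨_, h1⟩, ?_⟩
  intro u hu v hv
  exact (reach_comp (reach_of_mem_supp_comp hu)).symm.trans
    (reach_comp (reach_of_mem_supp_comp hv))

lemma mem_avoid {E : Finset (Sym2 V)} {T : Finset V} {e : Sym2 V} :
    e ∈ avoid E T ↔ e ∈ E ∧ ∀ v ∈ e, v ∉ T := by
  simp only [avoid, mem_filter]

lemma sdiff_comp_subset {E F : Finset (Sym2 V)} (hFE : F ⊆ E) (a : V) :
    F \ comp F a ⊆ avoid E (supp (comp F a)) := by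
  intro e he
  rw [mem_sdiff] at he
  rw [mem_avoid]
  refine ⟨hFE he.1, ?_⟩
  intro v hv hvs
  apply he.2
  exact mem_comp.mpr ⟨he.1, v, hv, reach_of_mem_supp_comp hvs⟩

lemma exists_mem_sym2 (e : Sym2 V) : ∃ v, v ∈ e := by
  induction e with
  | h a b => exact ⟨a, by simp⟩

lemma comp_union {E γ F' : Finset (Sym2 V)} {a : V} {e₀ : Sym2 V} (he₀ : e₀ ∈ γ) (ha : a ∈ e₀)
    (hγ : Conn γ) (hF' : F' ⊆ avoid E (supp γ)) : comp (γ ∪ F') a = γ := by
  have hasupp : a ∈ supp γ := mem_supp.mpr ⟨e₀, he₀, ha⟩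
  have hclosed : ∀ v, (gr (γ ∪ F')).Reachable a v → v ∈ supp γ := by
    intro v hv
    rw [SimpleGraph.reachable_iff_reflTransGen] at hv
    induction hv with
    | refl => exact hasupp
    | tail hab hbc ih =>
      rename_i b c
      rw [SimpleGraph.fromEdgeSet_adj, mem_coe, mem_union] at hbc
      rcases hbc.1 with h | h
      · exact mem_supp.mpr ⟨_, h, by simp⟩
      · exfalso
        exact (mem_avoid.mp (hF' h)).2 b (by simp) ih
  ext e
  rw [mem_comp]
  constructor
  · rintro ⟨he, v, hv, hav⟩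
    rw [mem_union] at he
    rcases he with h | h
    · exact h
    · exfalso
      exact (mem_avoid.mp (hF' h)).2 v hv (hclosed v hav)
  · intro he
    obtain ⟨v, hv⟩ := exists_mem_sym2 e
    refine ⟨mem_union_left _ he, v, hv, ?_⟩
    exact reach_mono subset_union_left (hγ.2 a hasupp v (mem_supp.mpr ⟨e, he, hv⟩))

lemma disjoint_avoid {E γ F' : Finset (Sym2 V)} (hF' : F' ⊆ avoid E (supp γ)) :
    Disjoint γ F' := by
  rw [disjoint_left]
  intro e he he'
  obtain ⟨v, hv⟩ := exists_mem_sym2 e
  exact (mem_avoid.mp (hF' he')).2 v hv (mem_supp.mpr ⟨e, he, hv⟩)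

open scoped Classical in
/-- Splitting off the component of a fixed edge. -/
theorem sum_component (E : Finset (Sym2 V)) (e₀ : Sym2 V) (f : Finset (Sym2 V) → ℝ) :
    ∑ F ∈ E.powerset.filter (fun F => e₀ ∈ F), f F =
      ∑ γ ∈ E.powerset.filter (fun γ => e₀ ∈ γ ∧ Conn γ),
        ∑ F' ∈ (avoid E (supp γ)).powerset, f (γ ∪ F') := by
  obtain ⟨a, ha⟩ := exists_mem_sym2 e₀
  rw [sum_sigma']
  refine sum_bij' (fun F _ => ⟨comp F a, F \ comp F a⟩) (fun p _ => p.1 ∪ p.2) ?_ ?_ ?_ ?_ ?_
  · intro F hF
    rw [mem_filter, mem_powerset] at hF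
    simp only [mem_sigma, mem_filter, mem_powerset]
    have := conn_comp hF.2 ha
    exact ⟨⟨(comp_subset F a).trans hF.1, this.1, this.2⟩, sdiff_comp_subset hF.1 a⟩
  · rintro ⟨γ, F'⟩ hp
    simp only [mem_sigma, mem_filter, mem_powerset] at hp
    rw [mem_filter, mem_powerset]
    refine ⟨union_subset hp.1.1 (hp.2.trans (filter_subset _ _)), mem_union_left _ hp.1.2.1⟩
  · intro F hF
    exact union_sdiff_of_subset (comp_subset F a)
  · rintro ⟨γ, F'⟩ hp
    simp only [mem_sigma, mem_filter, mem_powerset] at hp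
    have h1 : comp (γ ∪ F') a = γ := comp_union hp.1.2.1 ha hp.1.2.2 hp.2
    simp only [h1]
    congr 1
    exact union_sdiff_cancel_left (disjoint_avoid hp.2)
  · intro F hF
    simp only
    rw [union_sdiff_of_subset (comp_subset F a)]

open scoped Classical in
/-- `∑ |F| f(F)` grouped by components. -/
theorem sum_card_component (E : Finset (Sym2 V)) (f : Finset (Sym2 V) → ℝ) :
    ∑ F ∈ E.powerset, (F.card : ℝ) * f F =
      ∑ γ ∈ E.powerset.filter Conn, (γ.card : ℝ) *
        ∑ F' ∈ (avoid E (supp γ)).powerset, f (γ ∪ F') := by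
  have h1 : ∀ (A : Finset (Finset (Sym2 V))) (g : Finset (Sym2 V) → ℝ), A ⊆ E.powerset →
      ∑ F ∈ A, (F.card : ℝ) * g F = ∑ e ∈ E, ∑ F ∈ A.filter (fun F => e ∈ F), g F := by
    intro A g hA
    have h2 : ∀ F ∈ A, (F.card : ℝ) * g F = ∑ e ∈ E, if e ∈ F then g F else 0 := by
      intro F hF
      rw [← sum_filter, sum_const, nsmul_eq_mul]
      congr 2
      rw [filter_mem_eq_inter, inter_eq_right.mpr (mem_powerset.mp (hA hF))]
    rw [sum_congr rfl h2, sum_comm]
    refine sum_congr rfl fun e _ => ?_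
    rw [sum_filter]
  rw [h1 _ _ (subset_refl _), h1 _ _ (filter_subset _ _)]
  refine sum_congr rfl fun e _ => ?_
  rw [sum_component E e f]
  refine sum_congr ?_ fun _ _ => rfl
  ext γ
  simp only [mem_filter]
  (clear * -; tauto)

end Vale.Agent.P050
end
end

section

section

open MeasureTheory

set_option linter.unusedSectionVars false

namespace Vale.Agent.P050

/-- bounded measurable real functions -/
structure BM {X : Type*} [MeasurableSpace X] (f : X → ℝ) : Prop where
  meas : Measurable f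
  bdd : ∃ C, ∀ x, |f x| ≤ C

namespace BM

variable {X Y : Type*} [MeasurableSpace X] [MeasurableSpace Y]

lemma integrable {f : X → ℝ} (hf : BM f) (ν : Measure X) [IsFiniteMeasure ν] :
    Integrable f ν := by
  obtain ⟨C, hC⟩ := hf.bdd
  exact Integrable.of_bound hf.meas.aestronglyMeasurable C (Filter.Eventually.of_forall hC)

lemma comp {f : X → ℝ} (hf : BM f) {g : Y → X} (hg : Measurable g) : BM (fun y => f (g y)) :=
  ⟨hf.meas.comp hg, by obtain ⟨C, hC⟩ := hf.bdd; exact ⟨C, fun y => hC _⟩⟩

lemma const (c : ℝ) : BM (fun _ : X => c) := ⟨measurable_const, |c|, fun _ => le_rfl⟩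

lemma mul {f g : X → ℝ} (hf : BM f) (hg : BM g) : BM (fun x => f x * g x) := by
  obtain ⟨C, hC⟩ := hf.bdd
  obtain ⟨C', hC'⟩ := hg.bdd
  refine ⟨hf.meas.mul hg.meas, C * C', fun x => ?_⟩
  rw [abs_mul]
  exact mul_le_mul (hC x) (hC' x) (abs_nonneg _) ((abs_nonneg _).trans (hC x))

lemma add {f g : X → ℝ} (hf : BM f) (hg : BM g) : BM (fun x => f x + g x) := by
  obtain ⟨C, hC⟩ := hf.bdd
  obtain ⟨C', hC'⟩ := hg.bdd
  refine ⟨hf.meas.add hg.meas, C + C', fun x => ?_⟩
  exact (abs_add_le _ _).trans (add_le_add (hC x) (hC' x))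

lemma neg {f : X → ℝ} (hf : BM f) : BM (fun x => - f x) := by
  obtain ⟨C, hC⟩ := hf.bdd
  exact ⟨hf.meas.neg, C, fun x => by rw [abs_neg]; exact hC x⟩

lemma sub {f g : X → ℝ} (hf : BM f) (hg : BM g) : BM (fun x => f x - g x) := by
  simpa [sub_eq_add_neg] using hf.add hg.neg

lemma abs {f : X → ℝ} (hf : BM f) : BM (fun x => |f x|) := by
  obtain ⟨C, hC⟩ := hf.bdd
  exact ⟨hf.meas.abs, C, fun x => by rw [abs_abs]; exact hC x⟩

lemma pow {f : X → ℝ} (hf : BM f) (n : ℕ) : BM (fun x => f x ^ n) := by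
  induction n with
  | zero => simpa using BM.const (X := X) 1
  | succ n ih => simpa [pow_succ] using ih.mul hf

lemma finprod {ι : Type*} (s : Finset ι) {f : ι → X → ℝ} (hf : ∀ i ∈ s, BM (f i)) :
    BM (fun x => ∏ i ∈ s, f i x) := by
  classical
  induction s using Finset.induction_on with
  | empty => simpa using BM.const (X := X) 1
  | insert a s ha ih =>
    have h1 : BM (fun x => f a x * ∏ i ∈ s, f i x) :=
      (hf a (Finset.mem_insert_self a s)).mul
        (ih fun i hi => hf i (Finset.mem_insert_of_mem hi))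
    simpa [Finset.prod_insert ha] using h1

lemma finsum {ι : Type*} (s : Finset ι) {f : ι → X → ℝ} (hf : ∀ i ∈ s, BM (f i)) :
    BM (fun x => ∑ i ∈ s, f i x) := by
  classical
  induction s using Finset.induction_on with
  | empty => simpa using BM.const (X := X) 0
  | insert a s ha ih =>
    have h1 : BM (fun x => f a x + ∑ i ∈ s, f i x) :=
      (hf a (Finset.mem_insert_self a s)).add
        (ih fun i hi => hf i (Finset.mem_insert_of_mem hi))
    simpa [Finset.sum_insert ha] using h1

/-- parameter integrals -/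
lemma integral_right {f : X × Y → ℝ} (hf : BM f) (ν : Measure Y) [IsProbabilityMeasure ν] :
    BM (fun x => ∫ y, f (x, y) ∂ν) := by
  obtain ⟨C, hC⟩ := hf.bdd
  refine ⟨?_, C, fun x => ?_⟩
  · have : StronglyMeasurable (fun x => ∫ y, f (x, y) ∂ν) :=
      (hf.meas.stronglyMeasurable).integral_prod_right'
    exact this.measurable
  · have h := norm_integral_le_of_norm_le_const (μ := ν) (f := fun y => f (x, y)) (C := C)
      (Filter.Eventually.of_forall fun y => hC _)
    simpa only [ge_iff_le, Real.norm_eq_abs, probReal_univ, mul_one] using h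

end BM

section pi

variable {V : Type*} [Fintype V] [DecidableEq V] {Ω : Type*} [MeasurableSpace Ω]
variable (μ : Measure Ω) [IsProbabilityMeasure μ]

/-- the product measure on `V → Ω` -/
noncomputable abbrev piM (V : Type*) [Fintype V] {Ω : Type*} [MeasurableSpace Ω]
    (μ : Measure Ω) : Measure (V → Ω) := Measure.pi fun _ : V => μ

lemma measurable_upd (v : V) :
    Measurable (fun p : (V → Ω) × Ω => Function.update p.1 v p.2) := by
  rw [measurable_pi_iff]
  intro i
  by_cases h : i = v
  · subst h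
    simpa using measurable_snd
  · simp only [Function.update_of_ne h]
    exact (measurable_pi_apply i).comp measurable_fst

lemma mp_update (v : V) :
    MeasurePreserving (fun p : (V → Ω) × Ω => Function.update p.1 v p.2)
      ((piM V μ).prod μ) (piM V μ) := by
  refine ⟨measurable_upd v, ?_⟩
  symm
  apply Measure.pi_eq
  intro s hs
  rw [Measure.map_apply (measurable_upd v) (MeasurableSet.univ_pi hs)]
  have h1 : (fun p : (V → Ω) × Ω => Function.update p.1 v p.2) ⁻¹' (Set.univ.pi s) =
      (Set.univ.pi (Function.update s v Set.univ)) ×ˢ (s v) := by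
    ext ⟨x, y⟩
    simp only [Set.mem_preimage, Set.mem_univ_pi, Set.mem_prod]
    constructor
    · intro h
      refine ⟨fun i => ?_, ?_⟩
      · by_cases hi : i = v
        · subst hi; simp
        · have := h i
          simpa [Function.update_of_ne hi] using this
      · have := h v
        simpa using this
    · rintro ⟨h1, h2⟩ i
      by_cases hi : i = v
      · subst hi; simpa using h2
      · have := h1 i
        simpa [Function.update_of_ne hi] using this
  rw [h1, Measure.prod_prod, Measure.pi_pi]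
  rw [← Finset.mul_prod_erase Finset.univ (fun i => μ (s i)) (Finset.mem_univ v)]
  rw [← Finset.mul_prod_erase Finset.univ (fun i => μ (Function.update s v Set.univ i))
    (Finset.mem_univ v)]
  have h2 : ∏ i ∈ Finset.univ.erase v, μ (Function.update s v Set.univ i) =
      ∏ i ∈ Finset.univ.erase v, μ (s i) := by
    apply Finset.prod_congr rfl
    intro i hi
    rw [Function.update_of_ne (Finset.ne_of_mem_erase hi)]
  rw [h2]
  simp only [Function.update_self, measure_univ, one_mul, mul_comm]

/-- integrate out the coordinate `v` first -/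
lemma integral_update (v : V) {f : (V → Ω) → ℝ} (hf : BM f) :
    ∫ x, f x ∂(piM V μ) = ∫ x, ∫ y, f (Function.update x v y) ∂μ ∂(piM V μ) := by
  have h := (mp_update (V := V) μ v)
  rw [← h.map_eq, integral_map (measurable_upd v).aemeasurable
    (hf.meas.aestronglyMeasurable)]
  rw [h.map_eq]
  rw [integral_prod]
  exact (hf.comp (measurable_upd v)).integrable _

/-- `f` does not depend on the coordinate `v` -/
def Ind (v : V) {β : Type*} (f : (V → Ω) → β) : Prop :=
  ∀ x y, f (Function.update x v y) = f x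

lemma integral_eval (v : V) {g : Ω → ℝ} (hg : BM g) :
    ∫ x, g (x v) ∂(piM V μ) = ∫ y, g y ∂μ := by
  rw [integral_update μ v (hg.comp (measurable_pi_apply v))]
  simp

lemma integral_eval2 {a b : V} (hab : a ≠ b) {g : Ω → Ω → ℝ} (hg : BM (Function.uncurry g)) :
    ∫ x, g (x a) (x b) ∂(piM V μ) = ∫ s, ∫ t, g s t ∂μ ∂μ := by
  have h1 : BM (fun x : V → Ω => g (x a) (x b)) :=
    hg.comp (f := Function.uncurry g) (g := fun x : V → Ω => (x a, x b))
      ((measurable_pi_apply a).prodMk (measurable_pi_apply b))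
  rw [integral_update μ b h1]
  simp only [Function.update_self, Function.update_of_ne hab]
  exact integral_eval μ a (g := fun s => ∫ t, g s t ∂μ) (hg.integral_right μ)

lemma Ind.const_of_forall {f : (V → Ω) → ℝ} (hf : ∀ v, Ind v f) (x x₀ : V → Ω) :
    f x = f x₀ := by
  have key : ∀ S : Finset V, f (fun i => if i ∈ S then x i else x₀ i) = f x₀ := by
    intro S
    induction S using Finset.induction_on with
    | empty => simp
    | insert a S ha ih =>
      rw [← ih]
      have h1 : (fun i => if i ∈ insert a S then x i else x₀ i) =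
          Function.update (fun i => if i ∈ S then x i else x₀ i) a (x a) := by
        ext i
        by_cases hi : i = a
        · subst hi; simp
        · simp [Finset.mem_insert, hi]
      rw [h1]
      exact hf a _ _
  have := key Finset.univ
  simpa only [Finset.mem_univ, ↓reduceIte] using this

/-- factorisation of integrals of functions of disjoint sets of coordinates -/
lemma integral_mul_of_ind :
    ∀ (T : Finset V) (f g : (V → Ω) → ℝ), BM f → BM g → (∀ v, v ∉ T → Ind v f) →
      (∀ v ∈ T, Ind v g) →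
      ∫ x, f x * g x ∂(piM V μ) = (∫ x, f x ∂(piM V μ)) * ∫ x, g x ∂(piM V μ) := by
  intro T
  induction T using Finset.induction_on with
  | empty =>
    intro f g hf hg hfi _
    by_cases hne : Nonempty (V → Ω)
    · obtain ⟨x₀⟩ := hne
      have h1 : ∀ x, f x = f x₀ := fun x => Ind.const_of_forall (fun v => hfi v (by simp)) x x₀
      simp only [h1]
      rw [integral_const_mul]
      simp
    · have : IsEmpty (V → Ω) := not_nonempty_iff.mp hne
      simp only [Measure.eq_zero_of_isEmpty, integral_zero_measure, mul_zero]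
  | insert v T hv ih =>
    intro f g hf hg hfi hgi
    set f' : (V → Ω) → ℝ := fun x => ∫ y, f (Function.update x v y) ∂μ with hf'
    have hf'bm : BM f' := (hf.comp (measurable_upd v)).integral_right μ
    have h1 : ∫ x, f x * g x ∂(piM V μ) = ∫ x, f' x * g x ∂(piM V μ) := by
      rw [integral_update μ v (hf.mul hg)]
      congr 1
      ext x
      have : ∀ y, g (Function.update x v y) = g x := fun y =>
        hgi v (Finset.mem_insert_self _ _) x y
      simp only [this, hf']
      rw [integral_mul_const]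
    have h2 : ∫ x, f x ∂(piM V μ) = ∫ x, f' x ∂(piM V μ) := integral_update μ v hf
    rw [h1, h2]
    refine ih f' g hf'bm hg ?_ (fun u hu => hgi u (Finset.mem_insert_of_mem hu))
    intro u hu x z
    simp only [hf']
    by_cases huv : u = v
    · subst huv
      simp
    · congr 1
      ext y
      rw [Function.update_comm huv]
      refine hfi u ?_ _ _
      simp [huv, hu]

end pi

end Vale.Agent.P050
end
end

section

section

open MeasureTheory

set_option linter.unusedSectionVars false

namespace Vale.Agent.P050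

/-- the kernel of the operator `U D₁ U D₂ ⋯ Dₙ U`, `Dᵢ` acting by multiplication -/
noncomputable def kern {Ω : Type*} [MeasurableSpace Ω] (μ : Measure Ω) (U : Ω → Ω → ℝ) :
    List (Ω → ℝ) → Ω → Ω → ℝ
  | [] => U
  | D :: L => fun x z => ∫ y, U x y * D y * kern μ U L y z ∂μ

section

variable {Ω : Type*} [MeasurableSpace Ω] (μ : Measure Ω) [IsProbabilityMeasure μ]
variable {U : Ω → Ω → ℝ}

lemma bm_kern0 (hU : BM (Function.uncurry U)) (L : List (Ω → ℝ)) (hL : ∀ D ∈ L, BM D) :
    BM (Function.uncurry (kern μ U L)) := by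
  induction L with
  | nil => exact hU
  | cons D L ih =>
    have h1 : BM (fun r : (Ω × Ω) × Ω => U r.1.1 r.2) :=
      hU.comp (g := fun r : (Ω × Ω) × Ω => (r.1.1, r.2)) (by fun_prop)
    have h2 : BM (fun r : (Ω × Ω) × Ω => D r.2) :=
      (hL D List.mem_cons_self).comp (g := fun r : (Ω × Ω) × Ω => r.2) (by fun_prop)
    have h3 : BM (fun r : (Ω × Ω) × Ω => kern μ U L r.2 r.1.2) :=
      (ih fun E hE => hL E (List.mem_cons_of_mem _ hE)).comp
        (g := fun r : (Ω × Ω) × Ω => (r.2, r.1.2)) (by fun_prop)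
    exact ((h1.mul h2).mul h3).integral_right μ

lemma kern_append (hU : BM (Function.uncurry U)) (L : List (Ω → ℝ)) (hL : ∀ D ∈ L, BM D)
    {D : Ω → ℝ} (hD : BM D) (x z : Ω) :
    kern μ U (L ++ [D]) x z = ∫ y, kern μ U L x y * D y * U y z ∂μ := by
  induction L generalizing x with
  | nil => simp only [List.nil_append, kern]
  | cons E L ih =>
    have hL' : ∀ D ∈ L, BM D := fun E hE => hL E (List.mem_cons_of_mem _ hE)
    have hE : BM E := hL E List.mem_cons_self
    simp only [List.cons_append, kern]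
    have h1 : ∀ y, U x y * E y * kern μ U (L ++ [D]) y z =
        ∫ y', U x y * E y * (kern μ U L y y' * D y' * U y' z) ∂μ := by
      intro y
      rw [ih hL', integral_const_mul]
    have h2 : ∀ y', (∫ y, U x y * E y * kern μ U L y y' ∂μ) * D y' * U y' z =
        ∫ y, U x y * E y * (kern μ U L y y' * D y' * U y' z) ∂μ := by
      intro y'
      rw [← integral_mul_const, ← integral_mul_const]
      congr 1
      ext y
      ring
    simp only [h1, h2]
    apply integral_integral_swap
    have hK := bm_kern0 μ hU L hL'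
    have k1 : BM (fun r : Ω × Ω => U x r.1) :=
      hU.comp (g := fun r : Ω × Ω => (x, r.1)) (by fun_prop)
    have k2 : BM (fun r : Ω × Ω => E r.1) := hE.comp (g := fun r : Ω × Ω => r.1) (by fun_prop)
    have k3 : BM (fun r : Ω × Ω => D r.2) := hD.comp (g := fun r : Ω × Ω => r.2) (by fun_prop)
    have k4 : BM (fun r : Ω × Ω => U r.2 z) :=
      hU.comp (g := fun r : Ω × Ω => (r.2, z)) (by fun_prop)
    exact ((k1.mul k2).mul (((hK).mul k3).mul k4)).integrable _

/-- reversal -/
lemma kern_reverse (hU : BM (Function.uncurry U)) (hsymm : ∀ x y, U x y = U y x)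
    (L : List (Ω → ℝ)) (hL : ∀ D ∈ L, BM D) (x z : Ω) :
    kern μ U L.reverse x z = kern μ U L z x := by
  induction L generalizing x z with
  | nil => simp only [List.reverse_nil, kern, hsymm x z]
  | cons E L ih =>
    have hL' : ∀ D ∈ L, BM D := fun E hE => hL E (List.mem_cons_of_mem _ hE)
    rw [List.reverse_cons, kern_append μ hU _ (by simpa only [List.mem_reverse] using hL') (hL E List.mem_cons_self)]
    simp only [kern]
    congr 1
    ext y
    rw [ih hL', hsymm z y]
    ring

lemma cauchy_schwarz_prod {f g : Ω × Ω → ℝ} (hf : BM f) (hg : BM g) :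
    (∫ p, f p * g p ∂(μ.prod μ)) ^ 2 ≤
      (∫ p, f p ^ 2 ∂(μ.prod μ)) * ∫ p, g p ^ 2 ∂(μ.prod μ) := by
  set A := ∫ p, f p ^ 2 ∂(μ.prod μ) with hA
  set B := ∫ p, g p ^ 2 ∂(μ.prod μ) with hB
  set C := ∫ p, f p * g p ∂(μ.prod μ) with hC
  have hA0 : 0 ≤ A := integral_nonneg fun _ => sq_nonneg _
  have hB0 : 0 ≤ B := integral_nonneg fun _ => sq_nonneg _
  have key : ∀ t : ℝ, 0 ≤ t ^ 2 * A + 2 * t * C + B := by
    intro t
    have h1 : 0 ≤ ∫ p, (t * f p + g p) ^ 2 ∂(μ.prod μ) := integral_nonneg fun _ => sq_nonneg _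
    have h2 : ∀ p, (t * f p + g p) ^ 2 = t ^ 2 * f p ^ 2 + (2 * t) * (f p * g p) + g p ^ 2 := by
      intro p; ring
    simp only [h2] at h1
    rw [integral_add, integral_add, integral_const_mul, integral_const_mul] at h1
    · exact h1
    · exact ((BM.const _).mul (hf.pow 2)).integrable _
    · exact ((BM.const _).mul (hf.mul hg)).integrable _
    · exact (((BM.const _).mul (hf.pow 2)).add ((BM.const _).mul (hf.mul hg))).integrable _
    · exact (hg.pow 2).integrable _
  by_cases hA1 : A = 0
  · rw [hA1] at key ⊢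
    have hC0 : C = 0 := by
      by_contra hne
      have h3 := key (-(B + 1) / (2 * C))
      have h4 : 2 * (-(B + 1) / (2 * C)) * C = -(B + 1) := by (clear * - hne hB0; field_simp)
      rw [h4] at h3
      linarith only [h3]
    rw [hC0]; simp
  · have hApos : 0 < A := lt_of_le_of_ne hA0 (Ne.symm hA1)
    have h3 := key (-C / A)
    have h4 : (-C / A) ^ 2 * A + 2 * (-C / A) * C + B = B - C ^ 2 / A := by
      field_simp; ring
    rw [h4] at h3
    have h5 : C ^ 2 / A ≤ B := by linarith only [h3]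
    rw [div_le_iff₀ hApos] at h5
    linarith only [h5]

/-- second moment of the kernel -/
noncomputable def nk (U : Ω → Ω → ℝ) (L : List (Ω → ℝ)) : ℝ :=
  ∫ p, (kern μ U L p.1 p.2) ^ 2 ∂(μ.prod μ)

lemma nk_nonneg (L : List (Ω → ℝ)) : 0 ≤ nk μ U L := integral_nonneg fun _ => sq_nonneg _

lemma nk_sq_le (hU : BM (Function.uncurry U)) (hsymm : ∀ x y, U x y = U y x)
    {L I T : List (Ω → ℝ)} {D E : Ω → ℝ} (h1 : L = D :: T) (h2 : L = I ++ [E])
    (hL : ∀ F ∈ L, BM F) (hD1 : ∀ y, |D y| ≤ 1) (hE1 : ∀ y, |E y| ≤ 1) :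
    nk μ U L ^ 2 ≤ nk μ U ((fun _ => 1) :: I) * nk μ U (T ++ [fun _ => 1]) := by
  have hT : ∀ F ∈ T, BM F := fun F hF => hL F (by rw [h1]; exact List.mem_cons_of_mem _ hF)
  have hI : ∀ F ∈ I, BM F := fun F hF => hL F (by rw [h2]; simp [hF])
  have hD : BM D := hL D (by rw [h1]; simp)
  have hE : BM E := hL E (by rw [h2]; simp)
  have hone : BM (fun _ : Ω => (1:ℝ)) := BM.const 1
  set A : Ω → Ω → ℝ := kern μ U ((fun _ => 1) :: I) with hA
  set B : Ω → Ω → ℝ := kern μ U (T ++ [fun _ => 1]) with hB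
  have hAbm : BM (Function.uncurry A) := bm_kern0 μ hU _ (by
    intro F hF
    rcases List.mem_cons.mp hF with rfl | hF
    · exact hone
    · exact hI F hF)
  have hBbm : BM (Function.uncurry B) := bm_kern0 μ hU _ (by
    intro F hF
    rcases List.mem_append.mp hF with hF | hF
    · exact hT F hF
    · rw [List.mem_singleton] at hF; subst hF; exact hone)
  have hIbm := bm_kern0 μ hU I hI
  have hTbm := bm_kern0 μ hU T hT
  -- the identity
  have hid : nk μ U L = ∫ q, (D q.1 * A q.1 q.2) * (E q.2 * B q.1 q.2) ∂(μ.prod μ) := by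
    unfold nk
    have e1 : ∀ p : Ω × Ω, (kern μ U L p.1 p.2) ^ 2 =
        ∫ q : Ω × Ω, (U p.1 q.1 * D q.1 * kern μ U T q.1 p.2) *
          (kern μ U I p.1 q.2 * E q.2 * U q.2 p.2) ∂(μ.prod μ) := by
      intro p
      rw [integral_prod_mul (fun y => U p.1 y * D y * kern μ U T y p.2)
        (fun y => kern μ U I p.1 y * E y * U y p.2), sq]
      congr 1
      · rw [h1]; rfl
      · rw [h2, kern_append μ hU I hI hE]
    have e2 : ∀ q : Ω × Ω, (D q.1 * A q.1 q.2) * (E q.2 * B q.1 q.2) =
        ∫ p : Ω × Ω, (U p.1 q.1 * D q.1 * kern μ U T q.1 p.2) *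
          (kern μ U I p.1 q.2 * E q.2 * U q.2 p.2) ∂(μ.prod μ) := by
      intro q
      have e3 : ∀ p : Ω × Ω, (U p.1 q.1 * D q.1 * kern μ U T q.1 p.2) *
          (kern μ U I p.1 q.2 * E q.2 * U q.2 p.2) =
          (D q.1 * E q.2) * ((U q.1 p.1 * 1 * kern μ U I p.1 q.2) *
            (kern μ U T q.1 p.2 * 1 * U p.2 q.2)) := by
        intro p
        rw [hsymm p.1 q.1, hsymm q.2 p.2]
        ring
      simp only [e3]
      rw [integral_const_mul, integral_prod_mul (fun y => U q.1 y * 1 * kern μ U I y q.2)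
        (fun y => kern μ U T q.1 y * 1 * U y q.2)]
      have e4 : A q.1 q.2 = ∫ y, U q.1 y * 1 * kern μ U I y q.2 ∂μ := rfl
      have e5 : B q.1 q.2 = ∫ y, kern μ U T q.1 y * 1 * U y q.2 ∂μ :=
        kern_append μ hU T hT hone _ _
      rw [e4, e5]
      ring
    simp only [e1, e2]
    apply integral_integral_swap
    have k1 : BM (fun r : (Ω × Ω) × (Ω × Ω) => U r.1.1 r.2.1) :=
      hU.comp (g := fun r : (Ω × Ω) × (Ω × Ω) => (r.1.1, r.2.1)) (by fun_prop)
    have k2 : BM (fun r : (Ω × Ω) × (Ω × Ω) => D r.2.1) :=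
      hD.comp (g := fun r : (Ω × Ω) × (Ω × Ω) => r.2.1) (by fun_prop)
    have k3 : BM (fun r : (Ω × Ω) × (Ω × Ω) => kern μ U T r.2.1 r.1.2) :=
      hTbm.comp (g := fun r : (Ω × Ω) × (Ω × Ω) => (r.2.1, r.1.2)) (by fun_prop)
    have k4 : BM (fun r : (Ω × Ω) × (Ω × Ω) => kern μ U I r.1.1 r.2.2) :=
      hIbm.comp (g := fun r : (Ω × Ω) × (Ω × Ω) => (r.1.1, r.2.2)) (by fun_prop)
    have k5 : BM (fun r : (Ω × Ω) × (Ω × Ω) => E r.2.2) :=
      hE.comp (g := fun r : (Ω × Ω) × (Ω × Ω) => r.2.2) (by fun_prop)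
    have k6 : BM (fun r : (Ω × Ω) × (Ω × Ω) => U r.2.2 r.1.2) :=
      hU.comp (g := fun r : (Ω × Ω) × (Ω × Ω) => (r.2.2, r.1.2)) (by fun_prop)
    exact ((((k1.mul k2).mul k3)).mul ((k4.mul k5).mul k6)).integrable _
  have hf : BM (fun q : Ω × Ω => D q.1 * A q.1 q.2) :=
    (hD.comp (g := fun q : Ω × Ω => q.1) measurable_fst).mul hAbm
  have hg : BM (fun q : Ω × Ω => E q.2 * B q.1 q.2) :=
    (hE.comp (g := fun q : Ω × Ω => q.2) measurable_snd).mul hBbm
  rw [hid]
  refine (cauchy_schwarz_prod μ hf hg).trans ?_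
  have hle1 : ∫ q, (D q.1 * A q.1 q.2) ^ 2 ∂(μ.prod μ) ≤ nk μ U ((fun _ => 1) :: I) := by
    unfold nk
    apply integral_mono ((hf.pow 2).integrable _) ((hAbm.pow 2).integrable _)
    intro q
    show (D q.1 * A q.1 q.2) ^ 2 ≤ (A q.1 q.2) ^ 2
    rw [mul_pow]
    have : D q.1 ^ 2 ≤ 1 := by
      rw [← sq_abs]; exact pow_le_one₀ (abs_nonneg _) (hD1 _)
    nlinarith only [this]
  have hle2 : ∫ q, (E q.2 * B q.1 q.2) ^ 2 ∂(μ.prod μ) ≤ nk μ U (T ++ [fun _ => 1]) := by
    unfold nk
    apply integral_mono ((hg.pow 2).integrable _) ((hBbm.pow 2).integrable _)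
    intro q
    show (E q.2 * B q.1 q.2) ^ 2 ≤ (B q.1 q.2) ^ 2
    rw [mul_pow]
    have : E q.2 ^ 2 ≤ 1 := by
      rw [← sq_abs]; exact pow_le_one₀ (abs_nonneg _) (hE1 _)
    nlinarith only [this]
  exact mul_le_mul hle1 hle2 (integral_nonneg fun _ => sq_nonneg _) (nk_nonneg μ _)

lemma kern_abs_le {B : ℝ} (hB0 : 0 ≤ B) (hB : ∀ x y, |U x y| ≤ B) (L : List (Ω → ℝ))
    (hL : ∀ D ∈ L, ∀ y, |D y| ≤ 1) (x z : Ω) : |kern μ U L x z| ≤ B ^ (L.length + 1) := by
  induction L generalizing x with
  | nil => simpa only [kern, List.length_nil, zero_add, pow_one] using hB x z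
  | cons D L ih =>
    simp only [kern, List.length_cons]
    have h := norm_integral_le_of_norm_le_const (μ := μ)
      (f := fun y => U x y * D y * kern μ U L y z) (C := B ^ (L.length + 1 + 1))
      (Filter.Eventually.of_forall fun y => by
        rw [Real.norm_eq_abs, abs_mul, abs_mul]
        have h1 := hB x y
        have h2 := hL D List.mem_cons_self y
        have h3 := ih (fun E hE => hL E (List.mem_cons_of_mem _ hE)) y
        calc |U x y| * |D y| * |kern μ U L y z| ≤ B * 1 * B ^ (L.length + 1) := by gcongr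
          _ = B ^ (L.length + 1 + 1) := by ring)
    simpa only [ge_iff_le, Real.norm_eq_abs, probReal_univ, mul_one] using h

lemma nk_bound {B : ℝ} (hU : BM (Function.uncurry U)) (hB0 : 0 ≤ B)
    (hB : ∀ x y, |U x y| ≤ B) (L : List (Ω → ℝ))
    (hL : ∀ D ∈ L, BM D) (hL1 : ∀ D ∈ L, ∀ y, |D y| ≤ 1) :
    nk μ U L ≤ (B ^ (L.length + 1)) ^ 2 := by
  unfold nk
  have h : ∫ p, (kern μ U L p.1 p.2) ^ 2 ∂(μ.prod μ) ≤
      ∫ _p, (B ^ (L.length + 1)) ^ 2 ∂(μ.prod μ) := by
    apply integral_mono (((bm_kern0 μ hU L hL).pow 2).integrable _) (integrable_const _)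
    intro p
    show (kern μ U L p.1 p.2) ^ 2 ≤ (B ^ (L.length + 1)) ^ 2
    rw [← sq_abs]
    exact pow_le_pow_left₀ (abs_nonneg _) (kern_abs_le μ hB0 hB L hL1 _ _) 2
  simpa only [ge_iff_le, integral_const, probReal_univ, smul_eq_mul, one_mul] using h

lemma nk_le (hU : BM (Function.uncurry U)) (hsymm : ∀ x y, U x y = U y x)
    (L : List (Ω → ℝ)) (hL : ∀ D ∈ L, BM D) (hL1 : ∀ D ∈ L, ∀ y, |D y| ≤ 1) :
    nk μ U L ≤ nk μ U (List.replicate L.length (fun _ => 1)) := by
  obtain ⟨B, hB⟩ := hU.bdd
  have hB' : ∀ x y, |U x y| ≤ max B 0 := fun x y => (hB (x, y)).trans (le_max_left _ _)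
  set n := L.length with hn
  set X : Set ℝ := {r | ∃ L : List (Ω → ℝ), L.length = n ∧ (∀ D ∈ L, BM D) ∧
    (∀ D ∈ L, ∀ y, |D y| ≤ 1) ∧ r = nk μ U L} with hX
  have hXb : BddAbove X := by
    refine ⟨((max B 0) ^ (n + 1)) ^ 2, ?_⟩
    rintro r ⟨M, hMn, hM, hM1, rfl⟩
    have := nk_bound μ hU (le_max_right _ _) hB' M hM hM1
    rw [hMn] at this
    exact this
  have hXn : X.Nonempty := ⟨_, L, hn.symm, hL, hL1, rfl⟩
  have hmem : ∀ M : List (Ω → ℝ), M.length = n → (∀ D ∈ M, BM D) →
      (∀ D ∈ M, ∀ y, |D y| ≤ 1) → nk μ U M ≤ sSup X := fun M h1 h2 h3 =>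
    le_csSup hXb ⟨M, h1, h2, h3, rfl⟩
  have hS0 : 0 ≤ sSup X := (nk_nonneg μ L).trans (hmem L hn.symm hL hL1)
  have hone : BM (fun _ : Ω => (1:ℝ)) := BM.const 1
  have key : ∀ j ≤ n, ∀ c : ℝ, 0 ≤ c → (∀ M : List (Ω → ℝ), M.length = n - j →
      (∀ D ∈ M, BM D) → (∀ D ∈ M, ∀ y, |D y| ≤ 1) →
      nk μ U (List.replicate j (fun _ => 1) ++ M) ≤ c) → sSup X ≤ c := by
    intro j
    induction j with
    | zero =>
      intro _ c _ h
      apply csSup_le hXn
      rintro r ⟨M, hMn, hM, hM1, rfl⟩
      simpa only [List.replicate_zero, List.nil_append] using h M (by simpa using hMn) hM hM1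
    | succ j ih =>
      intro hj c hc h
      have h1 : sSup X ≤ Real.sqrt (c * sSup X) := by
        apply ih (by omega) _ (Real.sqrt_nonneg _)
        intro M hMn hM hM1
        apply Real.le_sqrt_of_sq_le
        -- M is nonempty
        have hMne : M ≠ [] := by
          intro hh; subst hh; simp at hMn; omega
        have hMd : M = M.dropLast ++ [M.getLast hMne] := (List.dropLast_append_getLast hMne).symm
        have hLcons : ∃ D T, List.replicate j (fun _ => (1:ℝ)) ++ M = D :: T := by
          cases hh : List.replicate j (fun _ => (1:ℝ)) ++ M with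
          | nil =>
            exfalso
            rw [List.append_eq_nil_iff] at hh
            exact hMne hh.2
          | cons D T => exact ⟨D, T, rfl⟩
        obtain ⟨D, T, hDT⟩ := hLcons
        have hall : ∀ F ∈ List.replicate j (fun _ => (1:ℝ)) ++ M, BM F ∧ ∀ y, |F y| ≤ 1 := by
          intro F hF
          rcases List.mem_append.mp hF with hF | hF
          · rw [List.eq_of_mem_replicate hF]
            exact ⟨hone, fun y => by simp⟩
          · exact ⟨hM F hF, hM1 F hF⟩
        have h3 := nk_sq_le μ hU hsymm hDT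
          (show List.replicate j (fun _ => (1:ℝ)) ++ M =
            (List.replicate j (fun _ => (1:ℝ)) ++ M.dropLast) ++ [M.getLast hMne] by
            rw [List.append_assoc, ← hMd])
          (fun F hF => (hall F hF).1) (hall D (by rw [hDT]; simp)).2
          (hM1 _ (List.getLast_mem hMne))
        refine h3.trans ?_
        have h4 : nk μ U ((fun _ => 1) :: (List.replicate j (fun _ => (1:ℝ)) ++ M.dropLast)) ≤
            c := by
          have := h M.dropLast (by rw [List.length_dropLast]; omega)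
            (fun F hF => hM F (List.dropLast_subset _ hF))
            (fun F hF => hM1 F (List.dropLast_subset _ hF))
          rw [List.replicate_succ] at this
          exact this
        have hTlen : T.length + 1 = n := by
          have := congrArg List.length hDT
          simp only [List.length_append, List.length_replicate, List.length_cons] at this
          omega
        have h5 : nk μ U (T ++ [fun _ => 1]) ≤ sSup X := by
          apply hmem
          · simp [hTlen]
          · intro F hF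
            rcases List.mem_append.mp hF with hF | hF
            · exact (hall F (by rw [hDT]; exact List.mem_cons_of_mem _ hF)).1
            · rw [List.mem_singleton] at hF; subst hF; exact hone
          · intro F hF
            rcases List.mem_append.mp hF with hF | hF
            · exact (hall F (by rw [hDT]; exact List.mem_cons_of_mem _ hF)).2
            · rw [List.mem_singleton] at hF; subst hF; intro y; simp
        exact mul_le_mul h4 h5 (nk_nonneg μ _) hc
      have h2 : (sSup X) ^ 2 ≤ c * sSup X := by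
        have := pow_le_pow_left₀ hS0 h1 2
        rwa [Real.sq_sqrt (mul_nonneg hc hS0)] at this
      by_contra hlt
      push Not at hlt
      have hpos : 0 < sSup X := lt_of_le_of_lt hc hlt
      nlinarith only [h2, hc, hlt]
  refine (hmem L hn.symm hL hL1).trans ?_
  apply key n le_rfl _ (nk_nonneg μ _)
  intro M hMn _ _
  have : M = [] := List.length_eq_zero_iff.mp (by omega)
  subst this
  simp

end

/-- T1: decorated path lemma -/
theorem kern_sq_le {Ω : Type*} [MeasurableSpace Ω] (μ : Measure Ω) [IsProbabilityMeasure μ]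
    (U : Ω → Ω → ℝ) (hU : Measurable (Function.uncurry U)) (hsymm : ∀ x y, U x y = U y x)
    (B : ℝ) (hB : ∀ x y, |U x y| ≤ B)
    (L : List (Ω → ℝ)) (hL : ∀ D ∈ L, Measurable D ∧ ∀ y, |D y| ≤ 1) :
    ∫ x, ∫ z, (kern μ U L x z) ^ 2 ∂μ ∂μ ≤
      ∫ x, ∫ z, (kern μ U (List.replicate L.length (fun _ => 1)) x z) ^ 2 ∂μ ∂μ := by
  have hUb : BM (Function.uncurry U) := ⟨hU, B, fun p => hB _ _⟩
  have hLb : ∀ D ∈ L, BM D := fun D hD => ⟨(hL D hD).1, 1, (hL D hD).2⟩
  have h := nk_le μ hUb hsymm L hLb (fun D hD => (hL D hD).2)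
  unfold nk at h
  rw [integral_prod, integral_prod] at h
  · exact h
  · exact ((bm_kern0 μ hUb _ (by
      intro D hD
      rw [List.eq_of_mem_replicate hD]
      exact BM.const 1)).pow 2).integrable _
  · exact ((bm_kern0 μ hUb L hLb).pow 2).integrable _

end Vale.Agent.P050
end
end

section

section

open MeasureTheory Finset

namespace Vale.Agent.P050

set_option linter.unusedSectionVars false

variable {V : Type*} [Fintype V] [DecidableEq V] {Ω : Type*} [MeasurableSpace Ω]

/-- product of the values of `U` over the edges in `F` -/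
noncomputable def wt (U : Sym2 Ω → ℝ) (F : Finset (Sym2 V)) (x : V → Ω) : ℝ :=
  ∏ e ∈ F, U (e.map x)

/-- the kernel attached to a function of unordered pairs -/
def two (U : Sym2 Ω → ℝ) (s t : Ω) : ℝ := U s(s, t)

/-- standing assumptions on the perturbation -/
structure Good (U : Sym2 Ω → ℝ) (ε : ℝ) : Prop where
  meas : Measurable (Function.uncurry (two U))
  pos : 0 < ε
  bdd : ∀ s, |U s| ≤ ε

lemma two_symm (U : Sym2 Ω → ℝ) (s t : Ω) : two U s t = two U t s := by
  unfold two; rw [Sym2.eq_swap]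

variable {U : Sym2 Ω → ℝ} {ε : ℝ}

lemma Good.bm_two (hU : Good U ε) : BM (Function.uncurry (two U)) :=
  ⟨hU.meas, ε, fun p => hU.bdd _⟩

lemma Good.bm_edge (hU : Good U ε) (e : Sym2 V) : BM (fun x : V → Ω => U (e.map x)) := by
  induction e with
  | h a b =>
    have := hU.bm_two.comp (Y := V → Ω) (g := fun x => (x a, x b))
      ((measurable_pi_apply a).prodMk (measurable_pi_apply b))
    simpa [two] using this

lemma Good.bm_wt (hU : Good U ε) (F : Finset (Sym2 V)) : BM (wt U F : (V → Ω) → ℝ) :=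
  BM.finprod F fun e _ => hU.bm_edge e

lemma Good.abs_wt_le (hU : Good U ε) (F : Finset (Sym2 V)) (x : V → Ω) :
    |wt U F x| ≤ ε ^ F.card := by
  unfold wt
  rw [abs_prod]
  calc ∏ e ∈ F, |U (e.map x)| ≤ ∏ _e ∈ F, ε :=
        prod_le_prod (fun _ _ => abs_nonneg _) fun e _ => hU.bdd _
    _ = ε ^ F.card := by simp

lemma wt_union {F G : Finset (Sym2 V)} (h : Disjoint F G) (x : V → Ω) :
    wt U (F ∪ G) x = wt U F x * wt U G x := prod_union h

lemma map_update_of_notMem {e : Sym2 V} {v : V} (hv : v ∉ e) (x : V → Ω) (y : Ω) :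
    e.map (Function.update x v y) = e.map x := by
  induction e with
  | h a b =>
    rw [Sym2.mem_iff, not_or] at hv
    simp only [Sym2.map_mk, Function.update_of_ne (Ne.symm hv.1),
      Function.update_of_ne (Ne.symm hv.2)]

lemma wt_update {F : Finset (Sym2 V)} {v : V} (hv : v ∉ supp F) (x : V → Ω) (y : Ω) :
    wt U F (Function.update x v y) = wt U F x := by
  unfold wt
  refine prod_congr rfl fun e he => ?_
  rw [map_update_of_notMem]
  intro h
  exact hv (mem_supp.mpr ⟨e, he, h⟩)

lemma wt_ind {F : Finset (Sym2 V)} {v : V} (hv : v ∉ supp F) : Ind v (wt U F) :=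
  fun x y => wt_update hv x y

/-- the degree function -/
noncomputable def degf (μ : Measure Ω) (U : Sym2 Ω → ℝ) (s : Ω) : ℝ := ∫ t, two U s t ∂μ

variable (μ : Measure Ω) [IsProbabilityMeasure μ]

lemma Good.bm_degf (hU : Good U ε) : BM (degf μ U) := hU.bm_two.integral_right μ

/-- the homomorphism density of an edge set -/
noncomputable def w (U : Sym2 Ω → ℝ) (F : Finset (Sym2 V)) : ℝ :=
  ∫ x, wt U F x ∂(piM V μ)

lemma Good.abs_w_le (hU : Good U ε) (F : Finset (Sym2 V)) : |w μ U F| ≤ ε ^ F.card := by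
  unfold w
  have h := norm_integral_le_of_norm_le_const (μ := piM V μ) (f := wt U F) (C := ε ^ F.card)
    (Filter.Eventually.of_forall fun x => hU.abs_wt_le F x)
  simpa only [ge_iff_le, Real.norm_eq_abs, probReal_univ, mul_one] using h

/-- eliminating a leaf -/
lemma leaf_elim (hU : Good U ε) {l y : V} (hly : l ≠ y) {R : (V → Ω) → ℝ} (hR : BM R)
    (hRl : Ind l R) :
    ∫ x, U s(x l, x y) * R x ∂(piM V μ) = ∫ x, degf μ U (x y) * R x ∂(piM V μ) := by
  have h1 : BM (fun x : V → Ω => U s(x l, x y) * R x) := by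
    have := (hU.bm_edge (V := V) s(l, y)).mul hR
    simpa using this
  rw [integral_update μ l h1]
  congr 1
  ext x
  simp only [Function.update_self, Function.update_of_ne (Ne.symm hly)]
  have h2 : ∀ t, R (Function.update x l t) = R x := fun t => hRl x t
  simp only [h2]
  rw [integral_mul_const]
  congr 1
  unfold degf
  congr 1
  ext t
  rw [two_symm]; rfl

/-! ### path elimination -/

/-- product along a path with decorations -/
noncomputable def pathProd (U : Sym2 Ω → ℝ) (D : V → (V → Ω) → Ω → ℝ) :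
    V → List V → V → (V → Ω) → ℝ
  | a, [], b, x => U s(x a, x b)
  | a, v :: p, b, x => U s(x a, x v) * D v x (x v) * pathProd U D v p b x

lemma bm_pathProd (hU : Good U ε) {D : V → (V → Ω) → Ω → ℝ}
    (hD : ∀ v, BM (fun q : (V → Ω) × Ω => D v q.1 q.2)) :
    ∀ (p : List V) (a b : V), BM (pathProd U D a p b) := by
  intro p
  induction p with
  | nil =>
    intro a b
    have := hU.bm_edge (V := V) s(a, b)
    simpa only [pathProd, Sym2.map_mk] using this
  | cons v p ih =>
    intro a b
    have h1 := hU.bm_edge (V := V) s(a, v)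
    have h2 : BM (fun x : V → Ω => D v x (x v)) :=
      (hD v).comp (g := fun x : V → Ω => (x, x v)) (measurable_id.prodMk (measurable_pi_apply v))
    have := (h1.mul h2).mul (ih v b)
    simpa [pathProd] using this

lemma pathProd_ind {D : V → (V → Ω) → Ω → ℝ} {u : V} :
    ∀ (p : List V) (a b : V), (∀ v ∈ p, Ind u (D v)) → u ∉ a :: p ++ [b] →
      Ind u (pathProd U D a p b) := by
  intro p
  induction p with
  | nil =>
    intro a b _ hu x y
    simp only [List.mem_cons, List.cons_append, List.nil_append, List.not_mem_nil, or_false,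
      not_or] at hu
    simp only [pathProd, Function.update_of_ne (Ne.symm hu.1), Function.update_of_ne (Ne.symm hu.2)]
  | cons v p ih =>
    intro a b hD hu x y
    have hua : u ≠ a := by intro h; apply hu; simp [h]
    have huv : u ≠ v := by intro h; apply hu; simp [h]
    have h1 := ih v b (fun w hw => hD w (List.mem_cons_of_mem _ hw))
      (by intro h; apply hu; simp only [List.cons_append, List.mem_cons] at h ⊢; (clear * - h huv; tauto)) x y
    have h2 := hD v (List.mem_cons_self) x y
    simp only [pathProd, Function.update_of_ne (Ne.symm hua), Function.update_of_ne (Ne.symm huv),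
      h1, h2]

/-- joint measurability of the decorated kernels -/
lemma bm_kern (hU : Good U ε) {D : V → (V → Ω) → Ω → ℝ}
    (hD : ∀ v, BM (fun q : (V → Ω) × Ω => D v q.1 q.2)) :
    ∀ p : List V, BM (fun q : (V → Ω) × (Ω × Ω) =>
      kern μ (two U) (p.map (fun v => D v q.1)) q.2.1 q.2.2) := by
  intro p
  induction p with
  | nil =>
    exact hU.bm_two.comp (g := fun q : (V → Ω) × (Ω × Ω) => q.2) measurable_snd
  | cons v p ih =>
    have h1 : BM (fun r : ((V → Ω) × (Ω × Ω)) × Ω => two U r.1.2.1 r.2) :=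
      hU.bm_two.comp (g := fun r : ((V → Ω) × (Ω × Ω)) × Ω => (r.1.2.1, r.2)) (by fun_prop)
    have h2 : BM (fun r : ((V → Ω) × (Ω × Ω)) × Ω => D v r.1.1 r.2) :=
      (hD v).comp (g := fun r : ((V → Ω) × (Ω × Ω)) × Ω => (r.1.1, r.2)) (by fun_prop)
    have h3 : BM (fun r : ((V → Ω) × (Ω × Ω)) × Ω =>
        kern μ (two U) (p.map (fun v => D v r.1.1)) r.2 r.1.2.2) :=
      ih.comp (g := fun r : ((V → Ω) × (Ω × Ω)) × Ω => (r.1.1, (r.2, r.1.2.2))) (by fun_prop)
    have := ((h1.mul h2).mul h3).integral_right μ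
    simpa only [List.map_cons, kern] using this

/-- path elimination -/
lemma path_elim (hU : Good U ε) {D : V → (V → Ω) → Ω → ℝ}
    (hD : ∀ v, BM (fun q : (V → Ω) × Ω => D v q.1 q.2)) :
    ∀ (p : List V) (a b : V) (R : (V → Ω) → ℝ), BM R → (a :: p ++ [b]).Nodup →
      (∀ v ∈ p, Ind v R) → (∀ v ∈ p, ∀ u ∈ p, Ind u (D v)) →
      ∫ x, pathProd U D a p b x * R x ∂(piM V μ) =
        ∫ x, kern μ (two U) (p.map (fun v => D v x)) (x a) (x b) * R x ∂(piM V μ) := by
  intro p
  induction p with
  | nil =>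
    intro a b R _ _ _ _
    rfl
  | cons v p ih =>
    intro a b R hR hnd hRi hDi
    have hav : a ≠ v := by
      intro h; subst h; simp at hnd
    have hbv : b ≠ v := by
      intro h; subst h; simp only [List.cons_append, List.nodup_cons, List.mem_cons, List.mem_append, List.not_mem_nil, or_false, not_or, or_true, not_true_eq_false, List.nodup_append, not_false_eq_true, List.nodup_nil, and_self, ne_eq, forall_eq, true_and, false_and, and_false] at hnd
    have hnd' : (v :: p ++ [b]).Nodup := by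
      have : (a :: (v :: p ++ [b])).Nodup := hnd
      exact (List.nodup_cons.mp this).2
    have hap : a ∉ v :: p ++ [b] := by
      have : (a :: (v :: p ++ [b])).Nodup := hnd
      exact (List.nodup_cons.mp this).1
    have hvp : v ∉ p ++ [b] := (List.nodup_cons.mp hnd').1
    set R' : (V → Ω) → ℝ := fun x => U s(x a, x v) * D v x (x v) * R x with hR'
    have hbm1 : BM (fun x : V → Ω => U s(x a, x v)) := by
      have := hU.bm_edge (V := V) s(a, v)
      simpa using this
    have hbm2 : BM (fun x : V → Ω => D v x (x v)) :=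
      (hD v).comp (g := fun x : V → Ω => (x, x v)) (measurable_id.prodMk (measurable_pi_apply v))
    have hR'bm : BM R' := (hbm1.mul hbm2).mul hR
    have hR'ind : ∀ u ∈ p, Ind u R' := by
      intro u hu x y
      have hua : a ≠ u := by
        intro h; subst h; apply hap; simp [hu]
      have huv : v ≠ u := by
        intro h; subst h; apply hvp; simp [hu]
      have h1 := hRi u (List.mem_cons_of_mem _ hu) x y
      have h2 := hDi v List.mem_cons_self u (List.mem_cons_of_mem _ hu) x y
      simp only [hR', Function.update_of_ne hua, Function.update_of_ne huv, h1, h2]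
    have key := ih v b R' hR'bm hnd' hR'ind
      (fun w hw u hu => hDi w (List.mem_cons_of_mem _ hw) u (List.mem_cons_of_mem _ hu))
    have e1 : ∫ x, pathProd U D a (v :: p) b x * R x ∂(piM V μ) =
        ∫ x, pathProd U D v p b x * R' x ∂(piM V μ) := by
      congr 1; ext x; simp only [pathProd, hR']; ring
    rw [e1, key]
    have hbm3 : BM (fun x : V → Ω =>
        kern μ (two U) (p.map (fun v => D v x)) (x v) (x b)) :=
      (bm_kern μ hU hD p).comp (g := fun x : V → Ω => (x, (x v, x b)))
        (by fun_prop)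
    rw [integral_update μ v (hbm3.mul hR'bm)]
    congr 1
    ext x
    have h4 : ∀ y, p.map (fun w => D w (Function.update x v y)) = p.map (fun w => D w x) := by
      intro y
      apply List.map_congr_left
      intro w hw
      exact hDi w (List.mem_cons_of_mem _ hw) v List.mem_cons_self x y
    have h5 : ∀ y, D v (Function.update x v y) = D v x := fun y =>
      hDi v List.mem_cons_self v List.mem_cons_self x y
    have h6 : ∀ y, R (Function.update x v y) = R x := fun y => hRi v List.mem_cons_self x y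
    simp only [h4, h5, h6, hR', Function.update_self, Function.update_of_ne hav,
      Function.update_of_ne hbv, List.map_cons, kern]
    rw [← integral_mul_const]
    congr 1
    ext y
    simp only [two]
    ring

end Vale.Agent.P050
end
end

section

section

open MeasureTheory Finset

namespace Vale.Agent.P050

set_option linter.unusedSectionVars false

variable {V : Type*} [Fintype V] [DecidableEq V] {Ω : Type*} [MeasurableSpace Ω]
variable {U : Sym2 Ω → ℝ} {ε : ℝ}

section paths

variable {W : Type*} [DecidableEq W]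

lemma mem_pathEdges_vertices {p : List W} {a b : W} {e : Sym2 W} (he : e ∈ pathEdges a p b) :
    ∀ u ∈ e, u ∈ a :: p ++ [b] := by
  induction p generalizing a with
  | nil =>
    simp only [pathEdges, List.mem_singleton] at he
    subst he
    intro u hu
    rw [Sym2.mem_iff] at hu
    rcases hu with rfl | rfl <;> simp
  | cons v p ih =>
    simp only [pathEdges, List.mem_cons] at he
    rcases he with rfl | he
    · intro u hu
      rw [Sym2.mem_iff] at hu
      rcases hu with rfl | rfl <;> simp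
    · intro u hu
      have := ih he u hu
      simp only [List.cons_append, List.mem_cons] at this ⊢
      (clear * - this; tauto)

lemma pathEdges_length (p : List W) (a b : W) : (pathEdges a p b).length = p.length + 1 := by
  induction p generalizing a with
  | nil => simp [pathEdges]
  | cons v p ih => simp [pathEdges, ih]

lemma pathEdges_nodup {p : List W} {a b : W} (h : (a :: p ++ [b]).Nodup) :
    (pathEdges a p b).Nodup := by
  induction p generalizing a with
  | nil => simp [pathEdges]
  | cons v p ih =>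
    have h' : (a :: (v :: p ++ [b])).Nodup := h
    rw [List.nodup_cons] at h'
    simp only [pathEdges, List.nodup_cons]
    refine ⟨fun hmem => ?_, ih h'.2⟩
    exact h'.1 (mem_pathEdges_vertices hmem a (by simp))

lemma exists_mem_pathEdges {p : List W} {a b : W} (hp : p ≠ []) {e : Sym2 W}
    (he : e ∈ pathEdges a p b) : ∃ v ∈ p, v ∈ e := by
  induction p generalizing a with
  | nil => exact absurd rfl hp
  | cons v p ih =>
    simp only [pathEdges, List.mem_cons] at he
    rcases he with rfl | he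
    · exact ⟨v, by simp, by simp⟩
    · by_cases hp' : p = []
      · subst hp'
        simp only [pathEdges, List.mem_singleton] at he
        subst he
        exact ⟨v, by simp, by simp⟩
      · obtain ⟨u, hu, hue⟩ := ih hp' he
        exact ⟨u, List.mem_cons_of_mem _ hu, hue⟩

end paths

lemma pathProd_eq (D : V → (V → Ω) → Ω → ℝ) (p : List V) (a b : V) (x : V → Ω) :
    pathProd U D a p b x = ((pathEdges a p b).map (fun e => U (e.map x))).prod *
      (p.map (fun v => D v x (x v))).prod := by
  induction p generalizing a with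
  | nil => simp [pathProd, pathEdges]
  | cons v p ih =>
    simp only [pathProd, pathEdges, List.map_cons, List.prod_cons, ih, Sym2.map_mk]
    ring

variable (μ : Measure Ω) [IsProbabilityMeasure μ]

/-- the density of the cycle of length `2 k` -/
noncomputable def ck (U : Sym2 Ω → ℝ) (k : ℕ) : ℝ :=
  ∫ s, ∫ t, (kern μ (two U) (List.replicate (k - 1) (fun _ => (1:ℝ))) s t) ^ 2 ∂μ ∂μ

lemma ck_nonneg (k : ℕ) : 0 ≤ ck μ U k :=
  integral_nonneg fun _ => integral_nonneg fun _ => sq_nonneg _

lemma kern_scale (p : List V) (D : V → Ω → ℝ) (β : V → ℝ) (hβ : ∀ v ∈ p, 0 < β v) (s t : Ω) :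
    kern μ (two U) (p.map D) s t =
      (p.map β).prod * kern μ (two U) (p.map (fun v y => D v y / β v)) s t := by
  induction p generalizing s with
  | nil => simp [kern]
  | cons v p ih =>
    have hv : β v ≠ 0 := (hβ v List.mem_cons_self).ne'
    simp only [List.map_cons, kern, List.prod_cons]
    rw [← integral_const_mul]
    congr 1
    ext y
    rw [ih (fun w hw => hβ w (List.mem_cons_of_mem _ hw))]
    field_simp

lemma kern_sq_bound (hU : Good U ε) (p : List V) (D : V → Ω → ℝ) (β : V → ℝ)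
    (hβ : ∀ v ∈ p, 0 < β v) (hD : ∀ v ∈ p, Measurable (D v)) (hDb : ∀ v ∈ p, ∀ y, |D v y| ≤ β v) :
    ∫ s, ∫ t, (kern μ (two U) (p.map D) s t) ^ 2 ∂μ ∂μ ≤
      ((p.map β).prod) ^ 2 * ck μ U (p.length + 1) := by
  have h1 : ∫ s, ∫ t, (kern μ (two U) (p.map D) s t) ^ 2 ∂μ ∂μ =
      ((p.map β).prod) ^ 2 *
        ∫ s, ∫ t, (kern μ (two U) (p.map (fun v y => D v y / β v)) s t) ^ 2 ∂μ ∂μ := by
    rw [← integral_const_mul]
    congr 1
    ext s
    rw [← integral_const_mul]
    congr 1
    ext t
    rw [kern_scale μ p D β hβ, mul_pow]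
  rw [h1]
  apply mul_le_mul_of_nonneg_left _ (sq_nonneg _)
  have h2 := kern_sq_le μ (two U) hU.meas (two_symm U) ε (fun x y => hU.bdd _)
    (p.map (fun v y => D v y / β v)) (by
      intro D' hD'
      rw [List.mem_map] at hD'
      obtain ⟨v, hv, rfl⟩ := hD'
      refine ⟨(hD v hv).div_const _, fun y => ?_⟩
      rw [abs_div, abs_of_pos (hβ v hv)]
      rw [div_le_one (hβ v hv)]
      exact hDb v hv y)
  rw [List.length_map] at h2
  unfold ck
  simpa only [add_tsub_cancel_right, ge_iff_le] using h2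

/-- second moment of a decorated kernel evaluated at two coordinates -/
lemma int_kern_sq_le (hU : Good U ε) {D : V → (V → Ω) → Ω → ℝ}
    (hD : ∀ v, BM (fun q : (V → Ω) × Ω => D v q.1 q.2)) (p : List V) {a b : V} (hab : a ≠ b)
    (ha : ∀ v ∈ p, Ind a (D v)) (hb : ∀ v ∈ p, Ind b (D v)) (β : V → ℝ)
    (hβ : ∀ v ∈ p, 0 < β v) (hDb : ∀ v ∈ p, ∀ x y, |D v x y| ≤ β v) :
    ∫ x, (kern μ (two U) (p.map (fun v => D v x)) (x a) (x b)) ^ 2 ∂(piM V μ) ≤
      ((p.map β).prod) ^ 2 * ck μ U (p.length + 1) := by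
  have hbm : BM (fun x : V → Ω =>
      (kern μ (two U) (p.map (fun v => D v x)) (x a) (x b)) ^ 2) :=
    ((bm_kern μ hU hD p).comp (g := fun x : V → Ω => (x, (x a, x b))) (by fun_prop)).pow 2
  rw [integral_update μ b hbm]
  have e1 : ∀ x : V → Ω, ∀ t, p.map (fun v => D v (Function.update x b t)) =
      p.map (fun v => D v x) := by
    intro x t
    apply List.map_congr_left
    intro v hv
    exact hb v hv x t
  have e2 : ∀ x : V → Ω, ∀ t, p.map (fun v => D v (Function.update x a t)) =
      p.map (fun v => D v x) := by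
    intro x t
    apply List.map_congr_left
    intro v hv
    exact ha v hv x t
  simp only [e1, Function.update_self, Function.update_of_ne hab]
  have hbm2 : BM (fun x : V → Ω =>
      ∫ t, (kern μ (two U) (p.map (fun v => D v x)) (x a) t) ^ 2 ∂μ) := by
    have := ((bm_kern μ hU hD p).comp (g := fun q : (V → Ω) × Ω => (q.1, (q.1 a, q.2)))
      (by fun_prop)).pow 2
    exact this.integral_right μ
  rw [integral_update μ a hbm2]
  simp only [e2, Function.update_self]
  have hbm3 : BM (fun x : V → Ω =>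
      ∫ s, ∫ t, (kern μ (two U) (p.map (fun v => D v x)) s t) ^ 2 ∂μ ∂μ) := by
    have h1 := ((bm_kern μ hU hD p).comp
      (g := fun q : ((V → Ω) × Ω) × Ω => (q.1.1, (q.1.2, q.2))) (by fun_prop)).pow 2
    have h2 := h1.integral_right μ
    exact h2.integral_right μ
  calc ∫ x : V → Ω, ∫ s, ∫ t, (kern μ (two U) (p.map (fun v => D v x)) s t) ^ 2 ∂μ ∂μ ∂(piM V μ)
      ≤ ∫ _x : V → Ω, ((p.map β).prod) ^ 2 * ck μ U (p.length + 1) ∂(piM V μ) := by
        apply integral_mono (hbm3.integrable _) (integrable_const _)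
        intro x
        exact kern_sq_bound μ hU p (fun v => D v x) β hβ
          (fun v hv => (hD v).meas.comp (measurable_prodMk_left)) (fun v hv y => hDb v hv x y)
    _ = _ := by simp

/-! ### decorations coming from an edge set -/

/-- edges of `F` at `v` outside the path -/
def gam (F : Finset (Sym2 V)) (a b : V) (p : List V) (v : V) : Finset (Sym2 V) :=
  F.filter (fun e => v ∈ e ∧ e ∉ pathEdges a p b)

/-- the decoration at `v` -/
noncomputable def dec (U : Sym2 Ω → ℝ) (F : Finset (Sym2 V)) (a b : V) (p : List V)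
    (v : V) (x : V → Ω) (y : Ω) : ℝ :=
  wt U (gam F a b p v) (Function.update x v y)

lemma bm_dec (hU : Good U ε) (F : Finset (Sym2 V)) (a b : V) (p : List V) (v : V) :
    BM (fun q : (V → Ω) × Ω => dec U F a b p v q.1 q.2) :=
  (hU.bm_wt (gam F a b p v)).comp (measurable_upd v)

lemma abs_dec_le (hU : Good U ε) (F : Finset (Sym2 V)) (a b : V) (p : List V) (v : V)
    (x : V → Ω) (y : Ω) : |dec U F a b p v x y| ≤ ε ^ (gam F a b p v).card :=
  hU.abs_wt_le _ _

lemma dec_ind {F : Finset (Sym2 V)} {a b : V} {p : List V} {v u : V}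
    (h : u = v ∨ ∀ e ∈ gam F a b p v, u ∉ e) : Ind u (dec U F a b p v) := by
  intro x z
  ext y
  unfold dec
  by_cases huv : u = v
  · subst huv; simp
  · rcases h with h | h
    · exact absurd h huv
    · rw [Function.update_comm huv]
      apply wt_update
      rw [mem_supp]
      rintro ⟨e, he, hue⟩
      exact h e he hue

lemma dec_self (F : Finset (Sym2 V)) (a b : V) (p : List V) (v : V) (x : V → Ω) :
    dec U F a b p v x (x v) = wt U (gam F a b p v) x := by
  unfold dec; rw [Function.update_eq_self]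

/-- the other edges at interior vertices leave the path -/
def Outer (F : Finset (Sym2 V)) (a b : V) (p : List V) : Prop :=
  ∀ v ∈ p, ∀ e ∈ F, v ∈ e → e ∉ pathEdges a p b → ∀ u ∈ e, u ≠ v → u ∉ p

lemma gam_disjoint {F : Finset (Sym2 V)} {a b : V} {p : List V} (hout : Outer F a b p)
    {v v' : V} (hv : v ∈ p) (hv' : v' ∈ p) (hne : v ≠ v') :
    Disjoint (gam F a b p v) (gam F a b p v') := by
  rw [disjoint_left]
  intro e he he'
  simp only [gam, mem_filter] at he he'
  exact hout v hv e he.1 he.2.1 he.2.2 v' he'.2.1 (Ne.symm hne) hv'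

lemma decomp (F : Finset (Sym2 V)) {a b : V} {p : List V} (hp : p ≠ [])
    (hsub : ∀ e ∈ pathEdges a p b, e ∈ F) :
    F = ((pathEdges a p b).toFinset ∪ p.toFinset.biUnion (gam F a b p)) ∪
      avoid F p.toFinset := by
  ext e
  simp only [mem_union, List.mem_toFinset, mem_biUnion, gam, mem_filter, mem_avoid]
  constructor
  · intro he
    by_cases h1 : e ∈ pathEdges a p b
    · exact Or.inl (Or.inl h1)
    · by_cases h2 : ∃ v ∈ p, v ∈ e
      · obtain ⟨v, hv, hve⟩ := h2
        exact Or.inl (Or.inr ⟨v, hv, he, hve, h1⟩)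
      · push Not at h2
        exact Or.inr ⟨he, fun v hv hvp => h2 v hvp hv⟩
  · rintro ((h | ⟨v, _, h, _⟩) | h)
    · exact hsub e h
    · exact h
    · exact h.1

lemma decomp_disj1 (F : Finset (Sym2 V)) (a b : V) (p : List V) :
    Disjoint (pathEdges a p b).toFinset (p.toFinset.biUnion (gam F a b p)) := by
  rw [disjoint_left]
  intro e he he'
  simp only [List.mem_toFinset, mem_biUnion, gam, mem_filter] at he he'
  obtain ⟨v, _, _, _, h⟩ := he'
  exact h he

lemma decomp_disj2 (F : Finset (Sym2 V)) {a b : V} {p : List V} (hp : p ≠ []) :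
    Disjoint ((pathEdges a p b).toFinset ∪ p.toFinset.biUnion (gam F a b p))
      (avoid F p.toFinset) := by
  rw [disjoint_left]
  intro e he he'
  simp only [mem_union, List.mem_toFinset, mem_biUnion, gam, mem_filter] at he
  rw [mem_avoid] at he'
  rcases he with h | ⟨v, hv, _, hve, _⟩
  · obtain ⟨v, hv, hve⟩ := exists_mem_pathEdges hp h
    exact he'.2 v hve (List.mem_toFinset.mpr hv)
  · exact he'.2 v hve (List.mem_toFinset.mpr hv)

lemma wt_decomp (F : Finset (Sym2 V)) {a b : V} {p : List V} (hp : p ≠ [])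
    (hnd : (a :: p ++ [b]).Nodup) (hsub : ∀ e ∈ pathEdges a p b, e ∈ F)
    (hout : Outer F a b p) (x : V → Ω) :
    wt U F x = pathProd U (dec U F a b p) a p b x * wt U (avoid F p.toFinset) x := by
  have hpnd : p.Nodup := by
    have h1 : (a :: (p ++ [b])).Nodup := hnd
    exact (List.nodup_append.mp (List.nodup_cons.mp h1).2).1
  conv_lhs => rw [decomp F hp hsub]
  rw [wt_union (decomp_disj2 F hp), wt_union (decomp_disj1 F a b p), pathProd_eq]
  congr 2
  · unfold wt
    rw [List.prod_toFinset _ (pathEdges_nodup hnd)]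
  · simp only [dec_self]
    unfold wt
    rw [prod_biUnion, List.prod_toFinset _ hpnd]
    intro v hv v' hv' hne
    exact gam_disjoint hout (by simpa using hv) (by simpa using hv') hne

lemma card_decomp (F : Finset (Sym2 V)) {a b : V} {p : List V} (hp : p ≠ [])
    (hnd : (a :: p ++ [b]).Nodup) (hsub : ∀ e ∈ pathEdges a p b, e ∈ F)
    (hout : Outer F a b p) :
    F.card = (p.length + 1) + (p.map (fun v => (gam F a b p v).card)).sum +
      (avoid F p.toFinset).card := by
  have hpnd : p.Nodup := by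
    have h1 : (a :: (p ++ [b])).Nodup := hnd
    exact (List.nodup_append.mp (List.nodup_cons.mp h1).2).1
  conv_lhs => rw [decomp F hp hsub]
  rw [card_union_of_disjoint (decomp_disj2 F hp), card_union_of_disjoint (decomp_disj1 F a b p)]
  congr 2
  · rw [List.toFinset_card_of_nodup (pathEdges_nodup hnd), pathEdges_length]
  · rw [card_biUnion, List.sum_toFinset _ hpnd]
    intro v hv v' hv' hne
    exact gam_disjoint hout (by simpa using hv) (by simpa using hv') hne

end Vale.Agent.P050
end
end

section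

section

open MeasureTheory Finset

namespace Vale.Agent.P050

set_option linter.unusedSectionVars false

variable {V : Type*} [Fintype V] [DecidableEq V] {Ω : Type*} [MeasurableSpace Ω]
variable {U : Sym2 Ω → ℝ} {ε : ℝ}

namespace CycPres

variable {F : Finset (Sym2 V)} {k : ℕ} {a b : V} {p q : List V}

lemma p_ne (h : CycPres F k a b p q) : p ≠ [] := by
  intro hp; have := h.hp; have := h.hk; subst hp; simp at *; omega

lemma q_ne (h : CycPres F k a b p q) : q ≠ [] := by
  intro hp; have := h.hq; have := h.hk; subst hp; simp at *; omega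

lemma a_notMem (h : CycPres F k a b p q) : a ∉ p ∧ a ≠ b ∧ a ∉ q := by
  have h1 : (a :: (p ++ b :: q)).Nodup := h.nodup
  rw [List.nodup_cons] at h1
  have := h1.1
  simp only [List.mem_append, List.mem_cons] at this
  tauto

lemma b_notMem (h : CycPres F k a b p q) : b ∉ p ∧ b ∉ q := by
  have h1 : (a :: (p ++ b :: q)).Nodup := h.nodup
  rw [List.nodup_cons, List.nodup_append, List.nodup_cons] at h1
  obtain ⟨_, _, ⟨h2, _⟩, h3⟩ := h1
  exact ⟨fun hb => h3 b hb b (by simp) rfl, h2⟩

lemma pq_disj (h : CycPres F k a b p q) {u : V} (hu : u ∈ p) : u ∉ q := by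
  have h1 : (a :: (p ++ b :: q)).Nodup := h.nodup
  rw [List.nodup_cons, List.nodup_append, List.nodup_cons] at h1
  obtain ⟨_, _, _, h3⟩ := h1
  intro hq
  exact h3 u hu u (by simp [hq]) rfl

lemma nd1 (h : CycPres F k a b p q) : (a :: p ++ [b]).Nodup := by
  have h1 : (a :: (p ++ b :: q)).Nodup := h.nodup
  have h2 := h.a_notMem
  have h3 := h.b_notMem
  rw [List.nodup_cons, List.nodup_append] at h1
  show (a :: (p ++ [b])).Nodup
  rw [List.nodup_cons, List.nodup_append]
  refine ⟨by simp only [List.mem_append, List.mem_singleton]; tauto, h1.2.1, by simp, ?_⟩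
  intro u hu v hv huv
  rw [List.mem_singleton] at hv
  subst hv; subst huv
  exact h3.1 hu

lemma nd2 (h : CycPres F k a b p q) : (b :: q ++ [a]).Nodup := by
  have h1 : (a :: (p ++ b :: q)).Nodup := h.nodup
  have h2 := h.a_notMem
  have h3 := h.b_notMem
  rw [List.nodup_cons, List.nodup_append, List.nodup_cons] at h1
  show (b :: (q ++ [a])).Nodup
  rw [List.nodup_cons, List.nodup_append]
  refine ⟨?_, h1.2.2.1.2, by simp, ?_⟩
  · simp only [List.mem_append, List.mem_singleton]
    intro hh
    rcases hh with hh | hh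
    · exact h3.2 hh
    · exact h2.2.1 hh.symm
  intro u hu v hv huv
  rw [List.mem_singleton] at hv
  subst hv; subst huv
  exact h2.2.2 hu

lemma sub1 (h : CycPres F k a b p q) : ∀ e ∈ pathEdges a p b, e ∈ F :=
  fun e he => h.sub e (by simp [he])

lemma chord_eq (h : CycPres F k a b p q) {e : Sym2 V} (he : e ∈ F) {u v : V} (hu : u ∈ e)
    (hv : v ∈ e) (huv : u ≠ v) (huL : u ∈ a :: p ++ b :: q) (hvL : v ∈ a :: p ++ b :: q) :
    e ∈ pathEdges a p b ∨ e ∈ pathEdges b q a := by
  have h1 : e = s(u, v) := (Sym2.mem_and_mem_iff huv).mp ⟨hu, hv⟩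
  have h2 := h.chordless u huL v hvL (by rw [← h1]; exact he)
  rw [← h1, List.mem_append] at h2
  exact h2

lemma gam1 (h : CycPres F k a b p q) {v : V} (hv : v ∈ p) {e : Sym2 V}
    (he : e ∈ gam F a b p v) {u : V} (hu : u ∈ e) (huL : u ∈ a :: p ++ b :: q) : u = v := by
  by_contra huv
  simp only [gam, mem_filter] at he
  obtain ⟨heF, hve, henot⟩ := he
  have hvL : v ∈ a :: p ++ b :: q := by simp [hv]
  rcases h.chord_eq heF hu hve huv huL hvL with h1 | h1
  · exact henot h1
  · have h2 := mem_pathEdges_vertices h1 v hve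
    have h3 := h.a_notMem
    have h4 := h.b_notMem
    simp only [List.cons_append, List.mem_cons, List.mem_append, List.mem_singleton,
      List.not_mem_nil, or_false] at h2
    rcases h2 with h2 | h2 | h2
    · subst h2; exact h4.1 hv
    · exact h.pq_disj hv h2
    · subst h2; exact h3.1 hv

lemma outer1 (h : CycPres F k a b p q) : Outer F a b p := by
  intro v hv e heF hve henot u hu huv hup
  apply huv
  exact h.gam1 hv (by simp only [gam, mem_filter]; exact ⟨heF, hve, henot⟩) hu (by simp [hup])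

lemma sub2 (h : CycPres F k a b p q) : ∀ e ∈ pathEdges b q a, e ∈ avoid F p.toFinset := by
  intro e he
  rw [mem_avoid]
  refine ⟨h.sub e (by simp [he]), ?_⟩
  intro v hve hvp
  rw [List.mem_toFinset] at hvp
  have h2 := mem_pathEdges_vertices he v hve
  have h3 := h.a_notMem
  have h4 := h.b_notMem
  simp only [List.cons_append, List.mem_cons, List.mem_append, List.mem_singleton,
      List.not_mem_nil, or_false] at h2
  rcases h2 with h2 | h2 | h2
  · subst h2; exact h4.1 hvp
  · exact h.pq_disj hvp h2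
  · subst h2; exact h3.1 hvp

lemma gam2 (h : CycPres F k a b p q) {v : V} (hv : v ∈ q) {e : Sym2 V}
    (he : e ∈ gam (avoid F p.toFinset) b a q v) {u : V} (hu : u ∈ e)
    (huL : u ∈ a :: p ++ b :: q) : u = v := by
  by_contra huv
  simp only [gam, mem_filter, mem_avoid] at he
  obtain ⟨⟨heF, havoid⟩, hve, henot⟩ := he
  have hvL : v ∈ a :: p ++ b :: q := by simp [hv]
  rcases h.chord_eq heF hu hve huv huL hvL with h1 | h1
  · obtain ⟨w, hw, hwe⟩ := exists_mem_pathEdges h.p_ne h1
    exact havoid w hwe (List.mem_toFinset.mpr hw)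
  · exact henot h1

lemma outer2 (h : CycPres F k a b p q) : Outer (avoid F p.toFinset) b a q := by
  intro v hv e heF hve henot u hu huv huq
  apply huv
  exact h.gam2 hv (by simp only [gam, mem_filter]; exact ⟨heF, hve, henot⟩) hu (by simp [huq])

lemma mem_cyc_symm {u : V} : u ∈ a :: p ++ b :: q ↔ u ∈ b :: q ++ a :: p := by
  simp only [List.cons_append, List.mem_cons, List.mem_append]; tauto

lemma symm (h : CycPres F k a b p q) : CycPres F k b a q p where
  hk := h.hk
  hp := h.hq
  hq := h.hp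
  nodup := by
    have : (b :: q ++ a :: p).Perm (a :: p ++ b :: q) := List.perm_append_comm
    exact this.nodup_iff.mpr h.nodup
  sub := by
    intro e he
    apply h.sub e
    simp only [List.mem_append] at he ⊢
    tauto
  chordless := by
    intro u hu v hv huv
    have := h.chordless u (mem_cyc_symm.mpr hu) v (mem_cyc_symm.mpr hv) huv
    simp only [List.mem_append] at this ⊢
    (clear * - this; tauto)

end CycPres

variable (μ : Measure Ω) [IsProbabilityMeasure μ]

lemma prod_pow_map (p : List V) (ε : ℝ) (g : V → ℕ) :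
    (p.map (fun v => ε ^ g v)).prod = ε ^ (p.map g).sum := by
  induction p with
  | nil => simp
  | cons v p ih => simp [ih, pow_add]

lemma supp_avoid {F : Finset (Sym2 V)} {T : Finset V} {v : V} (hv : v ∈ T) :
    v ∉ supp (avoid F T) := by
  rw [mem_supp]
  rintro ⟨e, he, hve⟩
  exact (mem_avoid.mp he).2 v hve hv

/-- comparison with the cycle, no extra structure -/
theorem abs_w_le_ck (hU : Good U ε) {F : Finset (Sym2 V)} {k : ℕ} {a b : V} {p q : List V}
    (h : CycPres F k a b p q) : |w μ U F| ≤ ε ^ (F.card - 2 * k) * ck μ U k ∧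
      2 * k ≤ F.card := by
  set F1 := avoid F p.toFinset with hF1
  set F2 := avoid F1 q.toFinset with hF2
  set D1 := dec U F a b p with hD1
  set D2 := dec U F1 b a q with hD2
  have hD1bm : ∀ v, BM (fun q : (V → Ω) × Ω => D1 v q.1 q.2) := fun v => bm_dec hU F a b p v
  have hD2bm : ∀ v, BM (fun q : (V → Ω) × Ω => D2 v q.1 q.2) := fun v => bm_dec hU F1 b a q v
  have hc1 := card_decomp F h.p_ne h.nd1 h.sub1 h.outer1
  have hc2 := card_decomp F1 h.q_ne h.nd2 h.sub2 h.outer2
  set K1 : (V → Ω) → ℝ := fun x => kern μ (two U) (p.map (fun v => D1 v x)) (x a) (x b) with hK1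
  set K2 : (V → Ω) → ℝ := fun x => kern μ (two U) (q.map (fun v => D2 v x)) (x b) (x a) with hK2
  have hK1bm : BM K1 := (bm_kern μ hU hD1bm p).comp
    (g := fun x : V → Ω => (x, (x a, x b))) (by fun_prop)
  have hK2bm : BM K2 := (bm_kern μ hU hD2bm q).comp
    (g := fun x : V → Ω => (x, (x b, x a))) (by fun_prop)
  have hind1 : ∀ v ∈ p, ∀ u ∈ a :: p ++ b :: q, Ind u (D1 v) := by
    intro v hv u hu
    apply dec_ind
    by_cases huv : u = v
    · exact Or.inl huv
    · right
      intro e he hue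
      exact huv (h.gam1 hv he hue hu)
  have hind2 : ∀ v ∈ q, ∀ u ∈ a :: p ++ b :: q, Ind u (D2 v) := by
    intro v hv u hu
    apply dec_ind
    by_cases huv : u = v
    · exact Or.inl huv
    · right
      intro e he hue
      exact huv (h.gam2 hv he hue hu)
  have hwt : ∀ x, wt U F x = pathProd U D1 a p b x * (pathProd U D2 b q a x * wt U F2 x) := by
    intro x
    rw [wt_decomp F h.p_ne h.nd1 h.sub1 h.outer1, ← hF1,
      wt_decomp F1 h.q_ne h.nd2 h.sub2 h.outer2]
  have hF2sub : F2 ⊆ F1 := filter_subset _ _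
  have hw : w μ U F = ∫ x, K2 x * (K1 x * wt U F2 x) ∂(piM V μ) := by
    unfold w
    simp only [hwt]
    rw [path_elim μ hU hD1bm p a b (fun x => pathProd U D2 b q a x * wt U F2 x)
      ((bm_pathProd hU hD2bm q b a).mul (hU.bm_wt F2)) h.nd1]
    · have : ∀ x, kern μ (two U) (p.map (fun v => D1 v x)) (x a) (x b) *
          (pathProd U D2 b q a x * wt U F2 x) =
          pathProd U D2 b q a x * (K1 x * wt U F2 x) := by
        intro x; simp only [hK1]; ring
      simp only [this]
      rw [path_elim μ hU hD2bm q b a (fun x => K1 x * wt U F2 x)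
        (hK1bm.mul (hU.bm_wt F2)) h.nd2]
      · intro u hu x y
        have hua : a ≠ u := by
          intro hh; subst hh; exact h.a_notMem.2.2 hu
        have hub : b ≠ u := by
          intro hh; subst hh; exact h.b_notMem.2 hu
        have e1 : p.map (fun v => D1 v (Function.update x u y)) = p.map (fun v => D1 v x) := by
          apply List.map_congr_left
          intro v hv
          exact hind1 v hv u (by simp [hu]) x y
        have e2 : wt U F2 (Function.update x u y) = wt U F2 x :=
          wt_update (supp_avoid (List.mem_toFinset.mpr hu)) x y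
        simp only [hK1, e1, e2, Function.update_of_ne hua, Function.update_of_ne hub]
      · intro v hv u hu
        exact hind2 v hv u (by simp [hu])
    · intro u hu x y
      have e1 : pathProd U D2 b q a (Function.update x u y) = pathProd U D2 b q a x := by
        apply pathProd_ind q b a (fun v hv => hind2 v hv u (by simp [hu]))
        intro hmem
        simp only [List.cons_append, List.mem_cons, List.mem_append, List.mem_singleton,
          List.not_mem_nil, or_false] at hmem
        rcases hmem with hh | hh | hh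
        · subst hh; exact h.b_notMem.1 hu
        · exact h.pq_disj hu hh
        · subst hh; exact h.a_notMem.1 hu
      have e2 : wt U F2 (Function.update x u y) = wt U F2 x := by
        apply wt_update
        intro hh
        exact supp_avoid (List.mem_toFinset.mpr hu) (supp_mono hF2sub hh)
      simp only [e1, e2]
    · intro v hv u hu
      exact hind1 v hv u (by simp [hu])
  -- bounds
  set n1 := (p.map (fun v => (gam F a b p v).card)).sum with hn1
  set n2 := (q.map (fun v => (gam F1 b a q v).card)).sum with hn2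
  have hpow : ∀ n : ℕ, 0 < ε ^ n := fun n => pow_pos hU.pos n
  have hb1 : ∫ x, K1 x ^ 2 ∂(piM V μ) ≤ (ε ^ n1) ^ 2 * ck μ U k := by
    have := int_kern_sq_le μ hU hD1bm p h.a_notMem.2.1 (fun v hv => hind1 v hv a (by simp))
      (fun v hv => hind1 v hv b (by simp)) (fun v => ε ^ (gam F a b p v).card)
      (fun v _ => hpow _) (fun v _ x y => abs_dec_le hU F a b p v x y)
    rw [prod_pow_map, h.hp] at this
    exact this
  have hb2 : ∫ x, K2 x ^ 2 ∂(piM V μ) ≤ (ε ^ n2) ^ 2 * ck μ U k := by
    have := int_kern_sq_le μ hU hD2bm q (Ne.symm h.a_notMem.2.1)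
      (fun v hv => hind2 v hv b (by simp))
      (fun v hv => hind2 v hv a (by simp)) (fun v => ε ^ (gam F1 b a q v).card)
      (fun v _ => hpow _) (fun v _ x y => abs_dec_le hU F1 b a q v x y)
    rw [prod_pow_map, h.hq] at this
    exact this
  have hcard : F.card = 2 * k + (n1 + n2 + F2.card) := by
    have e1 := h.hp
    have e2 := h.hq
    rw [← hF1] at hc1
    rw [← hF2] at hc2
    omega
  refine ⟨?_, by omega⟩
  have e3 : F.card - 2 * k = n1 + n2 + F2.card := by omega
  rw [e3, hw]
  -- pointwise AM-GM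
  have hpt : ∀ x, |K2 x * (K1 x * wt U F2 x)| ≤
      ε ^ F2.card * (1 / 2 * (ε ^ n2 / ε ^ n1 * K1 x ^ 2 + ε ^ n1 / ε ^ n2 * K2 x ^ 2)) := by
    intro x
    have h1 : |K2 x * K1 x| ≤
        1 / 2 * (ε ^ n2 / ε ^ n1 * K1 x ^ 2 + ε ^ n1 / ε ^ n2 * K2 x ^ 2) := by
      have ht : 0 < ε ^ n2 / ε ^ n1 := div_pos (hpow _) (hpow _)
      set t := ε ^ n2 / ε ^ n1 with htdef
      have ht' : ε ^ n1 / ε ^ n2 = t⁻¹ := by rw [htdef, inv_div]
      rw [ht', abs_mul]
      have h2 : 0 ≤ t * (|K1 x| - t⁻¹ * |K2 x|) ^ 2 := by (clear * - ht; positivity)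
      have h3 : t * (|K1 x| - t⁻¹ * |K2 x|) ^ 2 =
          t * |K1 x| ^ 2 + t⁻¹ * |K2 x| ^ 2 - 2 * (|K2 x| * |K1 x|) := by
        field_simp
        ring
      rw [h3, sq_abs, sq_abs] at h2
      linarith only [h2]
    calc |K2 x * (K1 x * wt U F2 x)| = |wt U F2 x| * |K2 x * K1 x| := by
          rw [← abs_mul]; congr 1; ring
      _ ≤ _ := mul_le_mul (hU.abs_wt_le F2 x) h1 (abs_nonneg _) (hpow _).le
  have hbmR : BM (fun x : V → Ω =>
      ε ^ F2.card * (1 / 2 * (ε ^ n2 / ε ^ n1 * K1 x ^ 2 + ε ^ n1 / ε ^ n2 * K2 x ^ 2))) :=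
    (BM.const _).mul ((BM.const _).mul
      (((BM.const _).mul (hK1bm.pow 2)).add ((BM.const _).mul (hK2bm.pow 2))))
  calc |∫ x, K2 x * (K1 x * wt U F2 x) ∂(piM V μ)|
      ≤ ∫ x, |K2 x * (K1 x * wt U F2 x)| ∂(piM V μ) := abs_integral_le_integral_abs
    _ ≤ ∫ x, ε ^ F2.card *
        (1 / 2 * (ε ^ n2 / ε ^ n1 * K1 x ^ 2 + ε ^ n1 / ε ^ n2 * K2 x ^ 2)) ∂(piM V μ) :=
        integral_mono (((hK2bm.mul (hK1bm.mul (hU.bm_wt F2))).abs).integrable _)
          (hbmR.integrable _) hpt
    _ = ε ^ F2.card * (1 / 2 * (ε ^ n2 / ε ^ n1 * ∫ x, K1 x ^ 2 ∂(piM V μ) +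
          ε ^ n1 / ε ^ n2 * ∫ x, K2 x ^ 2 ∂(piM V μ))) := by
        rw [integral_const_mul, integral_const_mul, integral_add, integral_const_mul,
          integral_const_mul]
        · exact ((BM.const _).mul (hK1bm.pow 2)).integrable _
        · exact ((BM.const _).mul (hK2bm.pow 2)).integrable _
    _ ≤ ε ^ F2.card * (1 / 2 * (ε ^ n2 / ε ^ n1 * ((ε ^ n1) ^ 2 * ck μ U k) +
          ε ^ n1 / ε ^ n2 * ((ε ^ n2) ^ 2 * ck μ U k))) := by
        have h1 : 0 ≤ ε ^ n2 / ε ^ n1 := (div_pos (hpow _) (hpow _)).le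
        have h2 : 0 ≤ ε ^ n1 / ε ^ n2 := (div_pos (hpow _) (hpow _)).le
        have h3 : 0 ≤ ε ^ F2.card := (hpow _).le
        (clear * - hb1 h1 hb2 h2 h3; gcongr)
    _ = ε ^ (n1 + n2 + F2.card) * ck μ U k := by
        have h1 := (hpow n1).ne'
        have h2 := (hpow n2).ne'
        rw [pow_add, pow_add]
        field_simp
        ring

end Vale.Agent.P050
end
end

section

section

open MeasureTheory Finset

namespace Vale.Agent.P050

set_option linter.unusedSectionVars false

variable {V : Type*} [Fintype V] [DecidableEq V] {Ω : Type*} [MeasurableSpace Ω]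
variable {U : Sym2 Ω → ℝ} {ε : ℝ}
variable (μ : Measure Ω) [IsProbabilityMeasure μ]

/-- the variance of the degrees -/
noncomputable def dd (U : Sym2 Ω → ℝ) : ℝ := ∫ s, degf μ U s ^ 2 ∂μ

lemma dd_nonneg : 0 ≤ dd μ U := integral_nonneg fun _ => sq_nonneg _

/-- single edges -/
lemma w_single (hU : Good U ε) (hzero : ∫ s, degf μ U s ∂μ = 0) {a b : V} (hab : a ≠ b) :
    w μ U ({s(a, b)} : Finset (Sym2 V)) = 0 := by
  unfold w
  have h1 := leaf_elim μ hU hab (R := fun _ : V → Ω => (1:ℝ)) (BM.const 1) (fun _ _ => rfl)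
  simp only [mul_one] at h1
  have h2 : ∀ x : V → Ω, wt U ({s(a, b)} : Finset (Sym2 V)) x = U s(x a, x b) := by
    intro x; simp [wt]
  simp only [h2]
  rw [h1, integral_eval μ b (hU.bm_degf μ), hzero]

/-- cherries -/
lemma w_cherry (hU : Good U ε) {a b c : V} (hab : a ≠ b) (hcb : c ≠ b) (hac : a ≠ c) :
    w μ U ({s(a, b), s(c, b)} : Finset (Sym2 V)) = dd μ U := by
  unfold w
  have hne : (s(a, b) : Sym2 V) ≠ s(c, b) := by
    intro h
    rw [Sym2.eq_iff] at h
    rcases h with ⟨h, _⟩ | ⟨h, _⟩
    · exact hac h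
    · exact hab h
  have h2 : ∀ x : V → Ω, wt U ({s(a, b), s(c, b)} : Finset (Sym2 V)) x =
      U s(x a, x b) * U s(x c, x b) := by
    intro x
    unfold wt
    rw [prod_pair hne]
    simp
  simp only [h2]
  have hbm1 : BM (fun x : V → Ω => U s(x c, x b)) := by
    have := hU.bm_edge (V := V) s(c, b)
    simpa using this
  rw [leaf_elim μ hU hab (R := fun x : V → Ω => U s(x c, x b)) hbm1 (by
    intro x y; simp only [Function.update_of_ne (Ne.symm hab), Function.update_of_ne (Ne.symm hac)])]
  have h3 : ∀ x : V → Ω, degf μ U (x b) * U s(x c, x b) = U s(x c, x b) * degf μ U (x b) :=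
    fun x => mul_comm _ _
  simp only [h3]
  rw [leaf_elim μ hU hcb (R := fun x : V → Ω => degf μ U (x b))
    ((hU.bm_degf μ).comp (measurable_pi_apply b)) (by
      intro x y; simp only [Function.update_of_ne (Ne.symm hcb)])]
  have h4 : ∀ x : V → Ω, degf μ U (x b) * degf μ U (x b) = degf μ U (x b) ^ 2 :=
    fun x => (sq _).symm
  simp only [h4]
  exact integral_eval μ b (g := fun s => degf μ U s ^ 2) ((hU.bm_degf μ).pow 2)

lemma kern_replicate_symm (hU : Good U ε) (n : ℕ) (s t : Ω) :
    kern μ (two U) (List.replicate n (fun _ => (1:ℝ))) s t =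
      kern μ (two U) (List.replicate n (fun _ => (1:ℝ))) t s := by
  have h := kern_reverse μ hU.bm_two (two_symm U) (List.replicate n (fun _ => (1:ℝ)))
    (by
      intro D hD
      rw [List.eq_of_mem_replicate hD]
      exact BM.const 1) s t
  rwa [List.reverse_replicate] at h

lemma bm_kern_replicate (hU : Good U ε) (n : ℕ) :
    BM (fun p : Ω × Ω => kern μ (two U) (List.replicate n (fun _ => (1:ℝ))) p.1 p.2) :=
  bm_kern0 μ hU.bm_two _ (by
      intro D hD
      rw [List.eq_of_mem_replicate hD]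
      exact BM.const 1)

/-- the density of a cycle -/
lemma w_cyc (hU : Good U ε) {F : Finset (Sym2 V)} {k : ℕ} {a b : V} {p q : List V}
    (h : CycPres F k a b p q) : w μ U (cycEdges a b p q) = ck μ U k := by
  set D : V → (V → Ω) → Ω → ℝ := fun _ _ _ => 1 with hD
  have hDbm : ∀ v, BM (fun q : (V → Ω) × Ω => D v q.1 q.2) := fun v => BM.const 1
  have hnd : (pathEdges a p b ++ pathEdges b q a).Nodup := by
    rw [List.nodup_append]
    refine ⟨pathEdges_nodup h.nd1, pathEdges_nodup h.nd2, ?_⟩
    intro e he e' he' hee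
    subst hee
    obtain ⟨v, hv, hve⟩ := exists_mem_pathEdges h.p_ne he
    have h1 := (mem_avoid.mp (h.sub2 e he')).2 v hve
    exact h1 (List.mem_toFinset.mpr hv)
  have hwt : ∀ x : V → Ω, wt U (cycEdges a b p q) x =
      pathProd U D a p b x * pathProd U D b q a x := by
    intro x
    unfold wt cycEdges
    rw [List.prod_toFinset _ hnd, List.map_append, List.prod_append, pathProd_eq, pathProd_eq]
    simp [hD]
  unfold w
  simp only [hwt]
  rw [path_elim μ hU hDbm p a b (fun x => pathProd U D b q a x) (bm_pathProd hU hDbm q b a) h.nd1]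
  · have h1 : ∀ x : V → Ω, kern μ (two U) (p.map (fun v => D v x)) (x a) (x b) *
        pathProd U D b q a x = pathProd U D b q a x *
          kern μ (two U) (p.map (fun v => D v x)) (x a) (x b) := fun x => mul_comm _ _
    simp only [h1]
    rw [path_elim μ hU hDbm q b a
      (fun x => kern μ (two U) (p.map (fun v => D v x)) (x a) (x b))
      ((bm_kern μ hU hDbm p).comp (g := fun x : V → Ω => (x, (x a, x b))) (by fun_prop)) h.nd2]
    · have hp' : ∀ x : V → Ω, p.map (fun v => D v x) =
          List.replicate (k - 1) (fun _ => (1:ℝ)) := by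
        intro x
        have e1 := h.hp
        rw [List.eq_replicate_iff]
        refine ⟨by simp; omega, ?_⟩
        intro g hg
        rw [List.mem_map] at hg
        obtain ⟨v, _, rfl⟩ := hg
        rfl
      have hq' : ∀ x : V → Ω, q.map (fun v => D v x) =
          List.replicate (k - 1) (fun _ => (1:ℝ)) := by
        intro x
        have e1 := h.hq
        rw [List.eq_replicate_iff]
        refine ⟨by simp; omega, ?_⟩
        intro g hg
        rw [List.mem_map] at hg
        obtain ⟨v, _, rfl⟩ := hg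
        rfl
      simp only [hp', hq']
      have hsymm : ∀ s t, kern μ (two U) (List.replicate (k - 1) (fun _ => (1:ℝ))) s t =
          kern μ (two U) (List.replicate (k - 1) (fun _ => (1:ℝ))) t s :=
        kern_replicate_symm μ hU (k - 1)
      have h2 : ∀ x : V → Ω,
          kern μ (two U) (List.replicate (k - 1) (fun _ => (1:ℝ))) (x b) (x a) *
          kern μ (two U) (List.replicate (k - 1) (fun _ => (1:ℝ))) (x a) (x b) =
          (kern μ (two U) (List.replicate (k - 1) (fun _ => (1:ℝ))) (x a) (x b)) ^ 2 := by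
        intro x; rw [hsymm (x b) (x a), sq]
      simp only [h2]
      unfold ck
      apply integral_eval2 μ h.a_notMem.2.1
        (g := fun s t => (kern μ (two U) (List.replicate (k - 1) (fun _ => (1:ℝ))) s t) ^ 2)
      exact (bm_kern_replicate μ hU (k - 1)).pow 2
    · intro u hu x y
      have hua : a ≠ u := by
        intro hh; subst hh; exact h.a_notMem.2.2 hu
      have hub : b ≠ u := by
        intro hh; subst hh; exact h.b_notMem.2 hu
      simp only [Function.update_of_ne hua, Function.update_of_ne hub, hD]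
    · intro v _ u _ x y; rfl
  · intro u hu
    apply pathProd_ind q b a (fun v _ x y => rfl)
    intro hmem
    simp only [List.cons_append, List.mem_cons, List.mem_append,
      List.not_mem_nil, or_false] at hmem
    rcases hmem with hh | hh | hh
    · subst hh; exact h.b_notMem.1 hu
    · exact h.pq_disj hu hh
    · subst hh; exact h.a_notMem.1 hu
  · intro v _ u _ x y; rfl

end Vale.Agent.P050
end
end

section

section

open MeasureTheory Finset

namespace Vale.Agent.P050

set_option linter.unusedSectionVars false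

variable {V : Type*} [Fintype V] [DecidableEq V] {Ω : Type*} [MeasurableSpace Ω]
variable {U : Sym2 Ω → ℝ} {ε : ℝ}
variable (μ : Measure Ω) [IsProbabilityMeasure μ]

lemma wt_erase (F : Finset (Sym2 V)) {e : Sym2 V} (he : e ∈ F) (x : V → Ω) :
    wt U F x = U (e.map x) * wt U (F.erase e) x := (mul_prod_erase F _ he).symm

/-- integrate out a leaf -/
lemma w_leaf (hU : Good U ε) {F : Finset (Sym2 V)} {l y : V} (hly : l ≠ y)
    (h : s(l, y) ∈ F) (hu : ∀ e ∈ F, l ∈ e → e = s(l, y)) {R : (V → Ω) → ℝ} (hR : BM R)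
    (hRl : Ind l R) :
    ∫ x, wt U F x * R x ∂(piM V μ) =
      ∫ x, degf μ U (x y) * (wt U (F.erase s(l, y)) x * R x) ∂(piM V μ) := by
  have h1 : ∀ x : V → Ω, wt U F x * R x =
      U s(x l, x y) * (wt U (F.erase s(l, y)) x * R x) := by
    intro x
    rw [wt_erase F h x, Sym2.map_mk, mul_assoc]
  simp only [h1]
  apply leaf_elim μ hU hly ((hU.bm_wt _).mul hR)
  intro x z
  have h2 : wt U (F.erase s(l, y)) (Function.update x l z) = wt U (F.erase s(l, y)) x := by
    apply wt_update
    rw [mem_supp]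
    rintro ⟨e, he, hle⟩
    rw [mem_erase] at he
    exact he.1 (hu e he.2 hle)
  have h3 := hRl x z
  simp only [h2, h3]

/-- comparison with the cherry: two leaves -/
theorem abs_w_le_dd (hU : Good U ε) {F : Finset (Sym2 V)} {l₁ l₂ y₁ y₂ : V}
    (hl₁ : l₁ ≠ y₁) (hl₂ : l₂ ≠ y₂) (h₁ : s(l₁, y₁) ∈ F) (h₂ : s(l₂, y₂) ∈ F)
    (hu₁ : ∀ e ∈ F, l₁ ∈ e → e = s(l₁, y₁)) (hu₂ : ∀ e ∈ F, l₂ ∈ e → e = s(l₂, y₂))
    (hne : s(l₁, y₁) ≠ s(l₂, y₂)) :
    |w μ U F| ≤ ε ^ (F.card - 2) * dd μ U := by
  have hbd : ∀ v : V, BM (fun x : V → Ω => degf μ U (x v)) := fun v =>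
    (hU.bm_degf μ).comp (measurable_pi_apply v)
  have hl₂y₁ : y₁ ≠ l₂ := by
    intro h
    apply hne
    apply hu₂ _ h₁
    rw [← h]; simp
  have e1 : w μ U F = ∫ x, degf μ U (x y₁) * (wt U (F.erase s(l₁, y₁)) x) ∂(piM V μ) := by
    have := w_leaf μ hU hl₁ h₁ hu₁ (R := fun _ => (1:ℝ)) (BM.const 1) (fun _ _ => rfl)
    simpa [w] using this
  have e2 : w μ U F = ∫ x, degf μ U (x y₂) *
      (wt U ((F.erase s(l₁, y₁)).erase s(l₂, y₂)) x * degf μ U (x y₁)) ∂(piM V μ) := by
    rw [e1]
    have hcomm : ∀ x : V → Ω, degf μ U (x y₁) * (wt U (F.erase s(l₁, y₁)) x) =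
        (wt U (F.erase s(l₁, y₁)) x) * degf μ U (x y₁) := fun x => mul_comm _ _
    simp only [hcomm]
    apply w_leaf μ hU hl₂ (mem_erase.mpr ⟨hne.symm, h₂⟩)
      (fun e he hle => hu₂ e (mem_erase.mp he).2 hle) (hbd y₁)
    intro x z
    simp only [Function.update_of_ne hl₂y₁]
  have hcard : ((F.erase s(l₁, y₁)).erase s(l₂, y₂)).card = F.card - 2 := by
    rw [card_erase_of_mem (mem_erase.mpr ⟨hne.symm, h₂⟩), card_erase_of_mem h₁]
    omega
  set G := (F.erase s(l₁, y₁)).erase s(l₂, y₂) with hG
  rw [e2, ← hcard]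
  have hpt : ∀ x : V → Ω, |degf μ U (x y₂) * (wt U G x * degf μ U (x y₁))| ≤
      ε ^ G.card * (1 / 2 * (degf μ U (x y₂) ^ 2 + degf μ U (x y₁) ^ 2)) := by
    intro x
    have h1 : |degf μ U (x y₂) * degf μ U (x y₁)| ≤
        1 / 2 * (degf μ U (x y₂) ^ 2 + degf μ U (x y₁) ^ 2) := by
      rw [abs_mul]
      nlinarith only [sq_nonneg (|degf μ U (x y₂)| - |degf μ U (x y₁)|), sq_abs (degf μ U (x y₂)), sq_abs (degf μ U (x y₁))]
    calc |degf μ U (x y₂) * (wt U G x * degf μ U (x y₁))|
        = |wt U G x| * |degf μ U (x y₂) * degf μ U (x y₁)| := by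
          rw [← abs_mul]; congr 1; ring
      _ ≤ _ := mul_le_mul (hU.abs_wt_le G x) h1 (abs_nonneg _) (pow_pos hU.pos _).le
  have hbmR : BM (fun x : V → Ω =>
      ε ^ G.card * (1 / 2 * (degf μ U (x y₂) ^ 2 + degf μ U (x y₁) ^ 2))) :=
    (BM.const _).mul ((BM.const _).mul (((hbd y₂).pow 2).add ((hbd y₁).pow 2)))
  calc |∫ x, degf μ U (x y₂) * (wt U G x * degf μ U (x y₁)) ∂(piM V μ)|
      ≤ ∫ x, |degf μ U (x y₂) * (wt U G x * degf μ U (x y₁))| ∂(piM V μ) :=
        abs_integral_le_integral_abs
    _ ≤ ∫ x, ε ^ G.card * (1 / 2 * (degf μ U (x y₂) ^ 2 + degf μ U (x y₁) ^ 2)) ∂(piM V μ) :=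
        integral_mono (((hbd y₂).mul ((hU.bm_wt G).mul (hbd y₁))).abs.integrable _)
          (hbmR.integrable _) hpt
    _ = ε ^ G.card * (1 / 2 * (dd μ U + dd μ U)) := by
        rw [integral_const_mul, integral_const_mul, integral_add
          (((hbd y₂).pow 2).integrable _) (((hbd y₁).pow 2).integrable _),
          integral_eval μ y₂ (g := fun s => degf μ U s ^ 2) ((hU.bm_degf μ).pow 2),
          integral_eval μ y₁ (g := fun s => degf μ U s ^ 2) ((hU.bm_degf μ).pow 2)]
        rfl
    _ = ε ^ G.card * dd μ U := by ring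

lemma CycPres.mono {F F' : Finset (Sym2 V)} {k : ℕ} {a b : V} {p q : List V}
    (h : CycPres F k a b p q) (hsub : F' ⊆ F)
    (h' : ∀ e ∈ pathEdges a p b ++ pathEdges b q a, e ∈ F') : CycPres F' k a b p q where
  hk := h.hk
  hp := h.hp
  hq := h.hq
  nodup := h.nodup
  sub := h'
  chordless := fun u hu v hv huv => h.chordless u hu v hv (hsub huv)

/-- comparison with cherry and cycle: one leaf, attached outside of `p` -/
lemma abs_w_le_leaf_aux (hU : Good U ε) {F : Finset (Sym2 V)} {k : ℕ} {a b : V} {p q : List V}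
    (h : CycPres F k a b p q) {l y : V} (hly : l ≠ y) (hF : s(l, y) ∈ F)
    (hu : ∀ e ∈ F, l ∈ e → e = s(l, y))
    (hcyc : s(l, y) ∉ pathEdges a p b ++ pathEdges b q a) (hyp : y ∉ p) {lam : ℝ}
    (hlam : 0 < lam) :
    |w μ U F| ≤ ε ^ (F.card - 1 - k) * (1 / 2 * (lam * dd μ U + lam⁻¹ * ck μ U k)) ∧
      k + 1 ≤ F.card := by
  set F' := F.erase s(l, y) with hF'
  have h' : CycPres F' k a b p q := h.mono (erase_subset _ _) (by
    intro e he
    rw [hF', mem_erase]
    exact ⟨fun hh => hcyc (hh ▸ he), h.sub e he⟩)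
  have hcF' : F'.card = F.card - 1 := card_erase_of_mem hF
  have hFpos : 0 < F.card := card_pos.mpr ⟨_, hF⟩
  set F1 := avoid F' p.toFinset with hF1
  set D1 := dec U F' a b p with hD1
  have hD1bm : ∀ v, BM (fun q : (V → Ω) × Ω => D1 v q.1 q.2) := fun v => bm_dec hU F' a b p v
  have hc1 := card_decomp F' h'.p_ne h'.nd1 h'.sub1 h'.outer1
  set K1 : (V → Ω) → ℝ := fun x => kern μ (two U) (p.map (fun v => D1 v x)) (x a) (x b) with hK1
  have hK1bm : BM K1 := (bm_kern μ hU hD1bm p).comp
    (g := fun x : V → Ω => (x, (x a, x b))) (by fun_prop)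
  have hind1 : ∀ v ∈ p, ∀ u ∈ a :: p ++ b :: q, Ind u (D1 v) := by
    intro v hv u hu
    apply dec_ind
    by_cases huv : u = v
    · exact Or.inl huv
    · right
      intro e he hue
      exact huv (h'.gam1 hv he hue hu)
  have hbd : BM (fun x : V → Ω => degf μ U (x y)) :=
    (hU.bm_degf μ).comp (measurable_pi_apply y)
  have e1 : w μ U F = ∫ x, degf μ U (x y) * (wt U F' x) ∂(piM V μ) := by
    have := w_leaf μ hU hly hF hu (R := fun _ => (1:ℝ)) (BM.const 1) (fun _ _ => rfl)
    simpa [w] using this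
  have hwt : ∀ x, degf μ U (x y) * (wt U F' x) =
      pathProd U D1 a p b x * (degf μ U (x y) * wt U F1 x) := by
    intro x
    rw [wt_decomp F' h'.p_ne h'.nd1 h'.sub1 h'.outer1, ← hF1]
    ring
  have hw : w μ U F = ∫ x, K1 x * (degf μ U (x y) * wt U F1 x) ∂(piM V μ) := by
    rw [e1]
    simp only [hwt]
    apply path_elim μ hU hD1bm p a b (fun x => degf μ U (x y) * wt U F1 x)
      (hbd.mul (hU.bm_wt F1)) h'.nd1
    · intro u hu x z
      have hyu : y ≠ u := by
        intro hh; subst hh; exact hyp hu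
      have e2 : wt U F1 (Function.update x u z) = wt U F1 x :=
        wt_update (supp_avoid (List.mem_toFinset.mpr hu)) x z
      simp only [e2, Function.update_of_ne hyu]
    · intro v hv u hu
      exact hind1 v hv u (by simp [hu])
  set n1 := (p.map (fun v => (gam F' a b p v).card)).sum with hn1
  have hpow : ∀ n : ℕ, 0 < ε ^ n := fun n => pow_pos hU.pos n
  have hb1 : ∫ x, K1 x ^ 2 ∂(piM V μ) ≤ (ε ^ n1) ^ 2 * ck μ U k := by
    have := int_kern_sq_le μ hU hD1bm p h'.a_notMem.2.1 (fun v hv => hind1 v hv a (by simp))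
      (fun v hv => hind1 v hv b (by simp)) (fun v => ε ^ (gam F' a b p v).card)
      (fun v _ => hpow _) (fun v _ x y => abs_dec_le hU F' a b p v x y)
    rw [prod_pow_map, h.hp] at this
    exact this
  have hcard : F.card = k + 1 + (n1 + F1.card) := by
    have e1 := h.hp
    rw [← hF1] at hc1
    omega
  refine ⟨?_, by omega⟩
  have e3 : F.card - 1 - k = n1 + F1.card := by omega
  rw [e3, hw]
  have hpt : ∀ x, |K1 x * (degf μ U (x y) * wt U F1 x)| ≤
      ε ^ F1.card * (1 / 2 * ((lam * ε ^ n1) * degf μ U (x y) ^ 2 +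
        (lam * ε ^ n1)⁻¹ * K1 x ^ 2)) := by
    intro x
    have h1 : |K1 x * degf μ U (x y)| ≤
        1 / 2 * ((lam * ε ^ n1) * degf μ U (x y) ^ 2 + (lam * ε ^ n1)⁻¹ * K1 x ^ 2) := by
      have ht : 0 < lam * ε ^ n1 := mul_pos hlam (hpow _)
      set t := lam * ε ^ n1 with htdef
      rw [abs_mul]
      have h2 : 0 ≤ t * (|degf μ U (x y)| - t⁻¹ * |K1 x|) ^ 2 := by (clear * - ht; positivity)
      have h3 : t * (|degf μ U (x y)| - t⁻¹ * |K1 x|) ^ 2 =
          t * |degf μ U (x y)| ^ 2 + t⁻¹ * |K1 x| ^ 2 - 2 * (|K1 x| * |degf μ U (x y)|) := by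
        field_simp
        ring
      rw [h3, sq_abs, sq_abs] at h2
      linarith only [h2]
    calc |K1 x * (degf μ U (x y) * wt U F1 x)| = |wt U F1 x| * |K1 x * degf μ U (x y)| := by
          rw [← abs_mul]; congr 1; ring
      _ ≤ _ := mul_le_mul (hU.abs_wt_le F1 x) h1 (abs_nonneg _) (hpow _).le
  have hbmR : BM (fun x : V → Ω =>
      ε ^ F1.card * (1 / 2 * ((lam * ε ^ n1) * degf μ U (x y) ^ 2 +
        (lam * ε ^ n1)⁻¹ * K1 x ^ 2))) :=
    (BM.const _).mul ((BM.const _).mul
      (((BM.const _).mul (hbd.pow 2)).add ((BM.const _).mul (hK1bm.pow 2))))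
  calc |∫ x, K1 x * (degf μ U (x y) * wt U F1 x) ∂(piM V μ)|
      ≤ ∫ x, |K1 x * (degf μ U (x y) * wt U F1 x)| ∂(piM V μ) := abs_integral_le_integral_abs
    _ ≤ ∫ x, ε ^ F1.card * (1 / 2 * ((lam * ε ^ n1) * degf μ U (x y) ^ 2 +
        (lam * ε ^ n1)⁻¹ * K1 x ^ 2)) ∂(piM V μ) :=
        integral_mono (((hK1bm.mul (hbd.mul (hU.bm_wt F1))).abs).integrable _)
          (hbmR.integrable _) hpt
    _ = ε ^ F1.card * (1 / 2 * ((lam * ε ^ n1) * dd μ U +
          (lam * ε ^ n1)⁻¹ * ∫ x, K1 x ^ 2 ∂(piM V μ))) := by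
        rw [integral_const_mul, integral_const_mul, integral_add, integral_const_mul,
          integral_const_mul,
          integral_eval μ y (g := fun s => degf μ U s ^ 2) ((hU.bm_degf μ).pow 2)]
        · rfl
        · exact ((BM.const _).mul (hbd.pow 2)).integrable _
        · exact ((BM.const _).mul (hK1bm.pow 2)).integrable _
    _ ≤ ε ^ F1.card * (1 / 2 * ((lam * ε ^ n1) * dd μ U +
          (lam * ε ^ n1)⁻¹ * ((ε ^ n1) ^ 2 * ck μ U k))) := by
        have h1 : 0 ≤ (lam * ε ^ n1)⁻¹ := by
          have := mul_pos hlam (hpow n1)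
          (clear * - this; positivity)
        have h3 : 0 ≤ ε ^ F1.card := (hpow _).le
        (clear * - hb1 h1 h3; gcongr)
    _ = ε ^ (n1 + F1.card) * (1 / 2 * (lam * dd μ U + lam⁻¹ * ck μ U k)) := by
        have h1 := (hpow n1).ne'
        have h2 := hlam.ne'
        rw [pow_add]
        (clear * - h1 h2; field_simp)

/-- comparison with cherry and cycle: one leaf -/
theorem abs_w_le_leaf (hU : Good U ε) {F : Finset (Sym2 V)} {k : ℕ} {a b : V} {p q : List V}
    (h : CycPres F k a b p q) {l y : V} (hly : l ≠ y) (hF : s(l, y) ∈ F)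
    (hu : ∀ e ∈ F, l ∈ e → e = s(l, y))
    (hcyc : s(l, y) ∉ pathEdges a p b ++ pathEdges b q a) {lam : ℝ}
    (hlam : 0 < lam) :
    |w μ U F| ≤ ε ^ (F.card - 1 - k) * (1 / 2 * (lam * dd μ U + lam⁻¹ * ck μ U k)) ∧
      k + 1 ≤ F.card := by
  by_cases hyp : y ∈ p
  · refine abs_w_le_leaf_aux μ hU h.symm hly hF hu ?_ (h.pq_disj hyp) hlam
    simp only [List.mem_append] at hcyc ⊢
    (clear * - hcyc; tauto)
  · exact abs_w_le_leaf_aux μ hU h hly hF hu hcyc hyp hlam

end Vale.Agent.P050
end
end

section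

section

open Finset

namespace Vale.Agent.P050

set_option linter.unusedSectionVars false

variable {V : Type*} [Fintype V] [DecidableEq V]

lemma gr_adj {F : Finset (Sym2 V)} {u v : V} : (gr F).Adj u v ↔ s(u, v) ∈ F ∧ u ≠ v := by
  simp [gr]

lemma gr_mono {F G : Finset (Sym2 V)} (h : F ⊆ G) : gr F ≤ gr G :=
  SimpleGraph.fromEdgeSet_mono (by exact_mod_cast h)

lemma card_sym2_vertices {e : Sym2 V} (he : ¬ e.IsDiag) :
    (univ.filter (fun v => v ∈ e)).card = 2 := by
  induction e with
  | h a b =>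
    rw [Sym2.mk_isDiag_iff] at he
    have : (univ.filter (fun v => v ∈ s(a, b))) = {a, b} := by
      ext v; simp only [Sym2.mem_iff, mem_filter, mem_univ, true_and, mem_insert, mem_singleton]
    rw [this, card_pair he]

lemma sum_dg {F : Finset (Sym2 V)} (hloop : ∀ e ∈ F, ¬ e.IsDiag) :
    ∑ v, dg F v = 2 * F.card := by
  unfold dg
  simp only [card_filter]
  rw [sum_comm]
  have : ∀ e ∈ F, ∑ v, (if v ∈ e then 1 else 0) = 2 := by
    intro e he
    rw [← card_filter]
    exact card_sym2_vertices (hloop e he)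
  rw [sum_congr rfl this]
  simp [mul_comm]

lemma dg_eq_zero {F : Finset (Sym2 V)} {v : V} (hv : v ∉ supp F) : dg F v = 0 := by
  unfold dg
  rw [card_eq_zero, filter_eq_empty_iff]
  intro e he hve
  exact hv (mem_supp.mpr ⟨e, he, hve⟩)

lemma dg_pos {F : Finset (Sym2 V)} {v : V} (hv : v ∈ supp F) : 0 < dg F v := by
  obtain ⟨e, he, hve⟩ := mem_supp.mp hv
  exact card_pos.mpr ⟨e, mem_filter.mpr ⟨he, hve⟩⟩

lemma sum_dg_supp {F : Finset (Sym2 V)} (hloop : ∀ e ∈ F, ¬ e.IsDiag) :
    ∑ v ∈ supp F, dg F v = 2 * F.card := by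
  rw [← sum_dg hloop]
  apply sum_subset (subset_univ _)
  intro v _ hv
  exact dg_eq_zero hv

/-- an acyclic edge set has a leaf -/
lemma exists_leaf {F : Finset (Sym2 V)} (hne : F.Nonempty) (hloop : ∀ e ∈ F, ¬ e.IsDiag)
    (hac : (gr F).IsAcyclic) : ∃ v, ∃ e ∈ F, v ∈ e ∧ ∀ e' ∈ F, v ∈ e' → e' = e := by
  classical
  -- lengths of paths are bounded
  have hbound : ∀ n, (∃ u v, ∃ p : (gr F).Walk u v, p.IsPath ∧ p.length = n) →
      n ≤ Fintype.card V := by
    rintro n ⟨u, v, p, hp, rfl⟩
    exact hp.length_lt.le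
  obtain ⟨e₀, he₀⟩ := hne
  have hex : ∃ u v, ∃ p : (gr F).Walk u v, p.IsPath ∧ p.length = 1 := by
    induction e₀ with
    | h a b =>
      have hab : a ≠ b := by
        intro h; exact hloop _ he₀ (by simp [h])
      have hadj : (gr F).Adj a b := gr_adj.mpr ⟨he₀, hab⟩
      exact ⟨a, b, SimpleGraph.Walk.cons hadj SimpleGraph.Walk.nil, by simp [hab], by simp⟩
  set P : ℕ → Prop := fun n => ∃ u v, ∃ p : (gr F).Walk u v, p.IsPath ∧ p.length = n with hP
  obtain ⟨u, v, p, hp, hlen⟩ : P (Nat.findGreatest P (Fintype.card V)) :=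
    Nat.findGreatest_spec (m := 1) (hbound 1 hex) hex
  have h1 : 1 ≤ Nat.findGreatest P (Fintype.card V) :=
    Nat.le_findGreatest (hbound 1 hex) hex
  have hpnil : ¬ p.Nil := by
    intro h
    have := SimpleGraph.Walk.length_eq_zero_iff.mpr h
    omega
  have hadjpen : (gr F).Adj p.penultimate v := p.adj_penultimate hpnil
  refine ⟨v, s(p.penultimate, v), (gr_adj.mp hadjpen).1, by simp, ?_⟩
  intro e' he' hve'
  obtain ⟨x, rfl⟩ := Sym2.mem_iff_exists.mp hve'
  have hvx : v ≠ x := by
    intro h; exact hloop _ he' (by simp [h])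
  have hadj : (gr F).Adj v x := gr_adj.mpr ⟨he', hvx⟩
  by_cases hx : x ∈ p.support
  · rw [hac.eq_penultimate_of_adj_end hp hadj hx, Sym2.eq_swap]
  · exfalso
    have h2 : P (p.length + 1) := ⟨u, x, p.concat hadj, hp.concat hx hadj, by simp⟩
    have h3 := Nat.le_findGreatest (hbound _ h2) h2
    omega

lemma forest_bound : ∀ (n : ℕ) (F : Finset (Sym2 V)), F.card = n → F.Nonempty →
    (∀ e ∈ F, ¬ e.IsDiag) → (gr F).IsAcyclic → F.card + 1 ≤ (supp F).card := by
  intro n
  induction n with
  | zero =>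
    intro F hn hne
    rw [card_eq_zero] at hn
    exact absurd hn hne.ne_empty
  | succ n ih =>
    intro F hn hne hloop hac
    obtain ⟨v, e, he, hve, huniq⟩ := exists_leaf hne hloop hac
    have hvs : v ∈ supp F := mem_supp.mpr ⟨e, he, hve⟩
    have hsub : supp (F.erase e) ⊆ (supp F).erase v := by
      intro u hu
      obtain ⟨e', he', hue'⟩ := mem_supp.mp hu
      rw [mem_erase] at he' ⊢
      refine ⟨?_, mem_supp.mpr ⟨e', he'.2, hue'⟩⟩
      intro huv
      subst huv
      exact he'.1 (huniq e' he'.2 hue')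
    have hcard := card_le_card hsub
    rw [card_erase_of_mem hvs] at hcard
    have hcF : (F.erase e).card = n := by rw [card_erase_of_mem he]; omega
    by_cases hne' : (F.erase e).Nonempty
    · have := ih (F.erase e) hcF hne' (fun e' he' => hloop e' (mem_erase.mp he').2)
        (hac.anti (gr_mono (erase_subset _ _)))
      omega
    · rw [not_nonempty_iff_eq_empty] at hne'
      rw [hne'] at hcF
      simp only [card_empty] at hcF
      have h2 : 2 ≤ (supp F).card := by
        rw [← card_sym2_vertices (hloop e he)]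
        apply card_le_card
        intro u hu
        rw [mem_filter] at hu
        exact mem_supp.mpr ⟨e, he, hu.2⟩
      omega

/-- an edge set with at most one vertex of degree one contains a cycle -/
lemma not_acyclic {F : Finset (Sym2 V)} (hne : F.Nonempty) (hloop : ∀ e ∈ F, ¬ e.IsDiag)
    (hcard : (supp F).card ≤ F.card) : ¬ (gr F).IsAcyclic := by
  intro hac
  have := forest_bound _ F rfl hne hloop hac
  omega

/-- a cycle of length at most `D.card` in `F` if `D ⊆ F` is not acyclic -/
lemma girth_le_card {F D : Finset (Sym2 V)} (hsub : D ⊆ F) (hac : ¬ (gr D).IsAcyclic) :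
    (gr F).girth ≤ D.card := by
  obtain ⟨a, w, hw, hlen⟩ := SimpleGraph.exists_girth_eq_length.mpr hac
  have h1 : (gr F).girth ≤ (gr D).girth := SimpleGraph.girth_anti (gr_mono hsub) hac
  have h2 : w.length ≤ D.card := by
    rw [← w.length_edges]
    have h3 : w.edges.toFinset.card = w.edges.length :=
      List.toFinset_card_of_nodup hw.isCircuit.isTrail.edges_nodup
    rw [← h3]
    apply card_le_card
    intro e he
    rw [List.mem_toFinset] at he
    have h4 := w.edges_subset_edgeSet he
    rw [SimpleGraph.edgeSet_fromEdgeSet] at h4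
    exact_mod_cast h4.1
  omega

lemma pathEdges_append {W : Type*} (p : List W) (q : List W) (a b c : W) :
    pathEdges a (p ++ b :: q) c = pathEdges a p b ++ pathEdges b q c := by
  induction p generalizing a with
  | nil => simp [pathEdges]
  | cons v p ih => simp [pathEdges, ih]

lemma walk_list {G : SimpleGraph V} {u v : V} (w : G.Walk u v) (hw : ¬ w.Nil) :
    ∃ m : List V, w.support = u :: m ++ [v] ∧ w.edges = pathEdges u m v := by
  induction w with
  | nil => exact absurd SimpleGraph.Walk.Nil.nil hw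
  | @cons a b c h p ih =>
    by_cases hp : p.Nil
    · cases p with
      | nil => exact ⟨[], by simp, by simp [pathEdges]⟩
      | cons _ _ => simp at hp
    · obtain ⟨m, hm1, hm2⟩ := ih hp
      exact ⟨b :: m, by simp [hm1], by simp [pathEdges, hm2]⟩

lemma mem_of_mem_edges {F : Finset (Sym2 V)} {u v : V} (w : (gr F).Walk u v) {e : Sym2 V}
    (he : e ∈ w.edges) : e ∈ F := by
  have h4 := w.edges_subset_edgeSet he
  rw [SimpleGraph.edgeSet_fromEdgeSet] at h4
  exact_mod_cast h4.1

/-- a shortest cycle has no chord -/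
lemma chordless_girth {F : Finset (Sym2 V)} {a : V} {w : (gr F).Walk a a} (hw : w.IsCycle)
    (hlen : w.length = (gr F).girth) {u v : V} (hu : u ∈ w.support) (hv : v ∈ w.support)
    (huv : s(u, v) ∈ F) (hne : u ≠ v) : s(u, v) ∈ w.edges := by
  by_contra hnot
  set w' := w.rotate u hu with hw'
  have hcyc : w'.IsCycle := (SimpleGraph.Walk.isCycle_rotate hu).mpr hw
  have hlen' : w'.length = (gr F).girth := by rw [hw', SimpleGraph.Walk.length_rotate, hlen]
  have hv' : v ∈ w'.support := (SimpleGraph.Walk.mem_support_rotate_iff w u hu).mpr hv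
  have hnot' : s(u, v) ∉ w'.edges := by
    intro h
    exact hnot ((SimpleGraph.Walk.rotate_edges w u hu).mem_iff.mp h)
  have hadj : (gr F).Adj v u := gr_adj.mpr ⟨by rw [Sym2.eq_swap]; exact huv, hne.symm⟩
  set w1 := w'.takeUntil v hv' with hw1
  set w2 := w'.dropUntil v hv' with hw2
  have hspec : w1.append w2 = w' := w'.take_spec hv'
  have hlen12 : w1.length + w2.length = w'.length := by
    rw [← hspec, SimpleGraph.Walk.length_append]
  have hpath : w1.IsPath := hcyc.isPath_takeUntil hv'
  have hsub1 : w1.edges ⊆ w'.edges := by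
    intro e he
    rw [← hspec, SimpleGraph.Walk.edges_append]
    exact List.mem_append_left _ he
  have hsub2 : w2.edges ⊆ w'.edges := by
    intro e he
    rw [← hspec, SimpleGraph.Walk.edges_append]
    exact List.mem_append_right _ he
  have hcyc2 : (SimpleGraph.Walk.cons hadj w1).IsCycle := by
    rw [SimpleGraph.Walk.cons_isCycle_iff]
    refine ⟨hpath, fun h => hnot' ?_⟩
    rw [Sym2.eq_swap]
    exact hsub1 h
  have hg := SimpleGraph.girth_le_length hcyc2
  rw [SimpleGraph.Walk.length_cons] at hg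
  have hw2len : w2.length ≤ 1 := by omega
  -- `w2` is a walk from `v` to `u` of length at most one
  clear_value w2
  cases w2 with
  | nil => exact hne rfl
  | cons h p =>
    have hp0 : p.length = 0 := by
      rw [SimpleGraph.Walk.length_cons] at hw2len; omega
    cases p with
    | nil =>
      apply hnot'
      rw [Sym2.eq_swap]
      apply hsub2
      simp
    | cons _ _ => simp at hp0

lemma even_dg_cycle {F : Finset (Sym2 V)} {a : V} {w : (gr F).Walk a a} (hw : w.IsCycle)
    (v : V) : Even (dg w.edges.toFinset v) := by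
  have h1 := (hw.isCircuit.isTrail.even_countP_edges_iff v).mpr (by intro h; exact absurd rfl h)
  have h2 : dg w.edges.toFinset v = w.edges.countP (fun e => v ∈ e) := by
    unfold dg
    rw [List.countP_eq_length_filter, ← List.toFinset_card_of_nodup
      (hw.isCircuit.isTrail.edges_nodup.filter _)]
    congr 1
    ext e
    simp [List.mem_toFinset]
  rw [h2]
  exact h1

lemma dg_union_inter (A B : Finset (Sym2 V)) (v : V) :
    dg (A \ B ∪ B \ A) v + 2 * dg (A ∩ B) v = dg A v + dg B v := by
  unfold dg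
  have h1 : ((A \ B ∪ B \ A).filter (fun e => v ∈ e)).card =
      ((A \ B).filter (fun e => v ∈ e)).card + ((B \ A).filter (fun e => v ∈ e)).card := by
    rw [filter_union, card_union_of_disjoint]
    apply disjoint_filter_filter
    exact disjoint_sdiff_sdiff
  have h2 : (A.filter (fun e => v ∈ e)).card =
      ((A \ B).filter (fun e => v ∈ e)).card + ((A ∩ B).filter (fun e => v ∈ e)).card := by
    rw [← card_union_of_disjoint, ← filter_union, sdiff_union_inter]
    apply disjoint_filter_filter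
    exact disjoint_sdiff_inter A B
  have h3 : (B.filter (fun e => v ∈ e)).card =
      ((B \ A).filter (fun e => v ∈ e)).card + ((A ∩ B).filter (fun e => v ∈ e)).card := by
    rw [inter_comm, ← card_union_of_disjoint, ← filter_union, sdiff_union_inter]
    apply disjoint_filter_filter
    exact disjoint_sdiff_inter B A
  omega

lemma card_symm (A B : Finset (Sym2 V)) :
    (A \ B ∪ B \ A).card + A.card + B.card = 2 * (A ∪ B).card := by
  have h1 : (A \ B ∪ B \ A).card = (A \ B).card + (B \ A).card :=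
    card_union_of_disjoint disjoint_sdiff_sdiff
  have h2 := card_sdiff_add_card_inter A B
  have h3 := card_sdiff_add_card_inter B A
  have h4 := card_union_add_card_inter A B
  rw [inter_comm B A] at h3
  omega

/-- a nonempty edge set with all degrees even has a cycle -/
lemma not_acyclic_of_even {D : Finset (Sym2 V)} (hne : D.Nonempty)
    (hloop : ∀ e ∈ D, ¬ e.IsDiag) (heven : ∀ v, Even (dg D v)) : ¬ (gr D).IsAcyclic := by
  apply not_acyclic hne hloop
  have h1 := sum_dg_supp hloop
  have h2 : ∑ _v ∈ supp D, 2 ≤ ∑ v ∈ supp D, dg D v := by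
    apply sum_le_sum
    intro v hv
    have h3 := dg_pos hv
    obtain ⟨r, hr⟩ := heven v
    omega
  simp only [sum_const, smul_eq_mul] at h2
  omega

lemma two_cycles {F : Finset (Sym2 V)} (hloop : ∀ e ∈ F, ¬ e.IsDiag) {a b : V}
    {w : (gr F).Walk a a} (hw : w.IsCycle) {w' : (gr F).Walk b b} (hw' : w'.IsCycle)
    (hne : w.edges.toFinset ≠ w'.edges.toFinset) : 3 * (gr F).girth ≤ 2 * F.card := by
  set A := w.edges.toFinset with hA
  set B := w'.edges.toFinset with hB
  have hAF : A ⊆ F := fun e he => mem_of_mem_edges w (List.mem_toFinset.mp he)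
  have hBF : B ⊆ F := fun e he => mem_of_mem_edges w' (List.mem_toFinset.mp he)
  have hAc : A.card = w.length := by
    rw [hA, List.toFinset_card_of_nodup hw.isCircuit.isTrail.edges_nodup,
      SimpleGraph.Walk.length_edges]
  have hBc : B.card = w'.length := by
    rw [hB, List.toFinset_card_of_nodup hw'.isCircuit.isTrail.edges_nodup,
      SimpleGraph.Walk.length_edges]
  have hDne : (A \ B ∪ B \ A).Nonempty := by
    rw [nonempty_iff_ne_empty]
    intro h
    rw [union_eq_empty, sdiff_eq_empty_iff_subset, sdiff_eq_empty_iff_subset] at h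
    exact hne (subset_antisymm h.1 h.2)
  have hDF : (A \ B ∪ B \ A) ⊆ F :=
    union_subset (sdiff_subset.trans hAF) (sdiff_subset.trans hBF)
  have h1 : (gr F).girth ≤ (A \ B ∪ B \ A).card := by
    apply girth_le_card hDF
    apply not_acyclic_of_even hDne (fun e he => hloop e (hDF he))
    intro v
    have h2 := dg_union_inter A B v
    have h3 := even_dg_cycle hw v
    have h4 := even_dg_cycle hw' v
    rw [← hA] at h3
    rw [← hB] at h4
    have h5 : Even (dg (A \ B ∪ B \ A) v + 2 * dg (A ∩ B) v) := by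
      rw [h2]; exact h3.add h4
    rw [Nat.even_add] at h5
    exact h5.mpr (even_two_mul _)
  have h2 := SimpleGraph.girth_le_length hw
  have h3 := SimpleGraph.girth_le_length hw'
  have h4 := card_symm A B
  have h5 := card_le_card (union_subset hAF hBF)
  omega

/-- a connected edge set properly containing a cycle has a vertex of degree at least three -/
lemma exists_deg_three {F : Finset (Sym2 V)} (hF : Conn F) {a : V} {w : (gr F).Walk a a}
    (hw : w.IsCycle) (hne : F ≠ w.edges.toFinset) : ∃ u ∈ supp F, 3 ≤ dg F u := by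
  set C := w.edges.toFinset with hC
  have hCF : C ⊆ F := fun e he => mem_of_mem_edges w (List.mem_toFinset.mp he)
  have haC : a ∈ supp C := by
    cases w with
    | nil => exact absurd hw (by simp)
    | cons h p =>
      refine mem_supp.mpr ⟨_, List.mem_toFinset.mpr (by
        rw [SimpleGraph.Walk.edges_cons]; exact List.mem_cons_self), by simp⟩
  -- some edge outside of `C` touches `supp C`
  have hex : ∃ e ∈ F, e ∉ C ∧ ∃ u ∈ supp C, u ∈ e := by
    by_contra hcon
    push Not at hcon
    have hreach : ∀ x y, (gr F).Walk x y → x ∈ supp C → y ∈ supp C := by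
      intro x y p
      induction p with
      | nil => exact id
      | @cons x z y h p ih =>
        intro hx
        apply ih
        have h1 : s(x, z) ∈ F := (gr_adj.mp h).1
        have h2 : s(x, z) ∈ C := by
          by_contra h3
          exact hcon _ h1 h3 x hx (by simp)
        exact mem_supp.mpr ⟨_, h2, by simp⟩
    apply hne
    apply subset_antisymm _ hCF
    intro e he
    by_contra heC
    obtain ⟨x, hx⟩ := exists_mem_sym2 e
    have hxF : x ∈ supp F := mem_supp.mpr ⟨e, he, hx⟩
    obtain ⟨p⟩ := hF.2 a (supp_mono hCF haC) x hxF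
    exact hcon e he heC x (hreach a x p haC) hx
  obtain ⟨e, he, heC, u, huC, hue⟩ := hex
  refine ⟨u, supp_mono hCF huC, ?_⟩
  have h1 := dg_pos huC
  have h2 : Even (dg C u) := even_dg_cycle hw u
  have h3 : dg C u + 1 ≤ dg F u := by
    unfold dg
    rw [Nat.succ_le_iff]
    apply card_lt_card
    rw [ssubset_iff_of_subset (filter_subset_filter _ hCF)]
    exact ⟨e, mem_filter.mpr ⟨he, hue⟩, fun h => heC (mem_filter.mp h).1⟩
  obtain ⟨r, hr⟩ := h2
  omega

/-- T3: a connected edge set of a bipartite graph with at most one leaf has a chordless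
cyclic presentation of a shortest cycle; moreover if it has no leaf and is not the cycle itself
it has at least `3 k` edges. -/
theorem exists_cycPres (F : Finset (Sym2 V)) (hF : Conn F) (hloop : ∀ e ∈ F, ¬ e.IsDiag)
    (c : V → Bool) (hc : ∀ u v, s(u, v) ∈ F → c u ≠ c v)
    (hleaf : ∀ u v, dg F u = 1 → dg F v = 1 → u = v) :
    ∃ k a b p q, CycPres F k a b p q ∧
      ((∀ v, dg F v ≠ 1) → F ≠ cycEdges a b p q → 3 * k ≤ F.card) := by
  have hsum := sum_dg_supp hloop
  -- there is a cycle
  have hnac : ¬ (gr F).IsAcyclic := by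
    apply not_acyclic hF.1 hloop
    by_cases hl : ∃ l, dg F l = 1
    · obtain ⟨l, hl⟩ := hl
      have hls : l ∈ supp F := by
        by_contra h; rw [dg_eq_zero h] at hl; omega
      have h2 : ∑ _v ∈ (supp F).erase l, 2 ≤ ∑ v ∈ (supp F).erase l, dg F v := by
        apply sum_le_sum
        intro v hv
        rw [mem_erase] at hv
        have h3 := dg_pos hv.2
        have h4 : dg F v ≠ 1 := fun h => hv.1 (hleaf v l h hl)
        omega
      rw [← add_sum_erase _ _ hls] at hsum
      simp only [sum_const, smul_eq_mul, card_erase_of_mem hls] at h2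
      have h5 : 0 < (supp F).card := card_pos.mpr ⟨l, hls⟩
      omega
    · push Not at hl
      have h2 : ∑ _v ∈ supp F, 2 ≤ ∑ v ∈ supp F, dg F v := by
        apply sum_le_sum
        intro v hv
        have h3 := dg_pos hv
        have h4 := hl v
        omega
      simp only [sum_const, smul_eq_mul] at h2
      omega
  obtain ⟨a, w, hw, hlen⟩ := SimpleGraph.exists_girth_eq_length.mpr hnac
  -- even length
  have hcol : Even w.length := by
    let C : (gr F).Coloring Bool := SimpleGraph.Coloring.mk c (by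
      intro u v huv
      exact hc u v (gr_adj.mp huv).1)
    rw [C.even_length_iff_congr w]
  obtain ⟨k, hk⟩ := hcol
  have h3 := hw.three_le_length
  obtain ⟨m, hm1, hm2⟩ := walk_list w hw.not_nil
  have hmlen : m.length + 1 = w.length := by
    have := congrArg List.length hm1
    rw [SimpleGraph.Walk.length_support] at this
    simp only [List.cons_append, List.length_cons, List.length_append,
      List.length_nil] at this
    omega
  -- split the list
  set p := m.take (k - 1) with hp
  have hpl : p.length = k - 1 := by rw [hp, List.length_take]; omega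
  obtain ⟨b, q, hbq⟩ : ∃ b q, m.drop (k - 1) = b :: q := by
    cases hh : m.drop (k - 1) with
    | nil =>
      have := congrArg List.length hh
      rw [List.length_drop] at this
      simp only [List.length_nil] at this
      omega
    | cons b q => exact ⟨b, q, rfl⟩
  have hql : q.length = k - 1 := by
    have := congrArg List.length hbq
    rw [List.length_drop, List.length_cons] at this
    omega
  have hm : m = p ++ b :: q := by rw [hp, ← hbq, List.take_append_drop]
  have hedges : w.edges = pathEdges a p b ++ pathEdges b q a := by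
    rw [hm2, hm, pathEdges_append]
  have hnd : (a :: p ++ b :: q).Nodup := by
    have h1 := hw.nodup_dropLast_support
    have h2 : w.support.dropLast = a :: m := by
      rw [hm1, List.dropLast_concat]
    rw [h2, hm] at h1
    exact h1
  have hsupp : ∀ u ∈ a :: p ++ b :: q, u ∈ w.support := by
    intro u hu
    rw [hm1, hm]
    exact List.mem_append_left _ hu
  refine ⟨k, a, b, p, q, ⟨by omega, by omega, by omega, hnd, ?_, ?_⟩, ?_⟩
  · intro e he
    rw [← hedges] at he
    exact mem_of_mem_edges w he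
  · intro u hu v hv huv
    rw [← hedges]
    apply chordless_girth hw hlen.symm (hsupp u hu) (hsupp v hv) huv
    intro h
    exact hloop _ huv (by simp [h])
  · intro hnoleaf hFne
    have hFC : F ≠ w.edges.toFinset := by
      rw [hedges]; exact hFne
    obtain ⟨u, hus, hu3⟩ := exists_deg_three hF hw hFC
    have h2 : ∑ _v ∈ (supp F).erase u, 2 ≤ ∑ v ∈ (supp F).erase u, dg F v := by
      apply sum_le_sum
      intro v hv
      rw [mem_erase] at hv
      have h3 := dg_pos hv.2
      have h4 := hnoleaf v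
      omega
    rw [← add_sum_erase _ _ hus] at hsum
    simp only [sum_const, smul_eq_mul, card_erase_of_mem hus] at h2
    have h5 : 0 < (supp F).card := card_pos.mpr ⟨u, hus⟩
    have h6 : (supp F).card + 1 ≤ F.card := by omega
    -- remove an edge of the cycle
    have hfex : ∃ f, f ∈ w.edges := by
      rw [← List.length_pos_iff_exists_mem, SimpleGraph.Walk.length_edges]
      omega
    obtain ⟨f, hf⟩ := hfex
    have hfF : f ∈ F := mem_of_mem_edges w hf
    have hnac' : ¬ (gr (F.erase f)).IsAcyclic := by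
      apply not_acyclic
      · rw [← card_pos, card_erase_of_mem hfF]; (clear * - h5 h6; omega)
      · exact fun e he => hloop e (mem_erase.mp he).2
      · have := card_le_card (supp_mono (erase_subset f F))
        rw [card_erase_of_mem hfF]
        omega
    obtain ⟨a', w', hw', hlen'⟩ := SimpleGraph.exists_girth_eq_length.mpr hnac'
    have hle : gr (F.erase f) ≤ gr F := gr_mono (erase_subset f F)
    have h7 := two_cycles hloop hw (hw'.mapLe hle) (by
      rw [SimpleGraph.Walk.edges_mapLe_eq_edges]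
      intro h
      have h8 : f ∈ w'.edges.toFinset := by rw [← h]; exact List.mem_toFinset.mpr hf
      have h9 := mem_of_mem_edges w' (List.mem_toFinset.mp h8)
      simp at h9)
    omega

end Vale.Agent.P050
end
end

section

section

open MeasureTheory Finset

namespace Vale.Agent.P050

set_option linter.unusedSectionVars false

variable {V : Type*} [Fintype V] [DecidableEq V] {Ω : Type*} [MeasurableSpace Ω]
variable {U : Sym2 Ω → ℝ} {ε : ℝ}
variable (μ : Measure Ω) [IsProbabilityMeasure μ]

/-- partition function -/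
noncomputable def Zs (U : Sym2 Ω → ℝ) (E : Finset (Sym2 V)) : ℝ := ∑ F ∈ E.powerset, w μ U F

lemma Zs_eq (hU : Good U ε) (E : Finset (Sym2 V)) :
    Zs μ U E = ∫ x, ∏ e ∈ E, (1 + U (e.map x)) ∂(piM V μ) := by
  unfold Zs w
  rw [← integral_finsetSum _ (fun F _ => (hU.bm_wt F).integrable _)]
  congr 1
  ext x
  rw [prod_one_add]
  rfl

lemma w_union_avoid (hU : Good U ε) {E γ F' : Finset (Sym2 V)}
    (hF' : F' ⊆ avoid E (supp γ)) : w μ U (γ ∪ F') = w μ U γ * w μ U F' := by
  unfold w
  have h1 : ∀ x : V → Ω, wt U (γ ∪ F') x = wt U γ x * wt U F' x :=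
    fun x => wt_union (disjoint_avoid hF') x
  simp only [h1]
  apply integral_mul_of_ind μ (supp γ) _ _ (hU.bm_wt γ) (hU.bm_wt F')
  · intro v hv
    exact wt_ind hv
  · intro v hv
    apply wt_ind
    intro h
    exact supp_avoid hv (supp_mono hF' h)

lemma sum_union_avoid (hU : Good U ε) (E γ : Finset (Sym2 V)) :
    ∑ F' ∈ (avoid E (supp γ)).powerset, w μ U (γ ∪ F') =
      w μ U γ * Zs μ U (avoid E (supp γ)) := by
  unfold Zs
  rw [mul_sum]
  refine sum_congr rfl fun F' hF' => ?_
  exact w_union_avoid μ hU (mem_powerset.mp hF')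

lemma card_sdiff_avoid {E : Finset (Sym2 V)} {Δ : ℕ} (hΔ : ∀ v, dg E v ≤ Δ) (T : Finset V) :
    (E \ avoid E T).card ≤ Δ * T.card := by
  have h1 : E \ avoid E T ⊆ T.biUnion (fun v => E.filter (fun e => v ∈ e)) := by
    intro e he
    rw [mem_sdiff, mem_avoid] at he
    have : ∃ v ∈ T, v ∈ e := by
      by_contra h
      push Not at h
      exact he.2 ⟨he.1, fun v hv hvT => h v hvT hv⟩
    obtain ⟨v, hvT, hve⟩ := this
    exact mem_biUnion.mpr ⟨v, hvT, mem_filter.mpr ⟨he.1, hve⟩⟩
  calc (E \ avoid E T).card ≤ (T.biUnion (fun v => E.filter (fun e => v ∈ e))).card :=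
        card_le_card h1
    _ ≤ ∑ v ∈ T, (E.filter (fun e => v ∈ e)).card := card_biUnion_le
    _ ≤ ∑ _v ∈ T, Δ := sum_le_sum fun v _ => hΔ v
    _ = Δ * T.card := by simp [mul_comm]

lemma bm_prod_one_add (hU : Good U ε) (E : Finset (Sym2 V)) :
    BM (fun x : V → Ω => ∏ e ∈ E, (1 + U (e.map x))) :=
  BM.finprod E fun e _ => (BM.const 1).add (hU.bm_edge e)

lemma prod_pos_aux (hU : Good U ε) (hε : ε < 1) (E : Finset (Sym2 V)) (x : V → Ω) :
    (1 - ε) ^ E.card ≤ ∏ e ∈ E, (1 + U (e.map x)) ∧
      ∏ e ∈ E, (1 + U (e.map x)) ≤ (1 + ε) ^ E.card := by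
  constructor
  · rw [← prod_const]
    apply prod_le_prod
    · intro e _; linarith
    · intro e _
      have := abs_le.mp (hU.bdd (e.map x))
      linarith
  · rw [← prod_const]
    apply prod_le_prod
    · intro e _
      have := abs_le.mp (hU.bdd (e.map x))
      linarith
    · intro e _
      have := abs_le.mp (hU.bdd (e.map x))
      linarith

lemma Zs_pos (hU : Good U ε) (hε : ε < 1) (E : Finset (Sym2 V)) : 0 < Zs μ U E := by
  rw [Zs_eq μ hU]
  have h1 : (1 - ε) ^ E.card ≤ ∫ x, ∏ e ∈ E, (1 + U (e.map x)) ∂(piM V μ) := by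
    calc (1 - ε) ^ E.card = ∫ _x, (1 - ε) ^ E.card ∂(piM V μ) := by simp
      _ ≤ _ := integral_mono (integrable_const _) ((bm_prod_one_add hU E).integrable _)
          fun x => (prod_pos_aux hU hε E x).1
  have h2 : 0 < (1 - ε) ^ E.card := pow_pos (by linarith) _
  linarith

/-- comparison of partition functions -/
lemma Zs_ratio (hU : Good U ε) (hε : ε < 1) {E : Finset (Sym2 V)} {Δ : ℕ}
    (hΔ : ∀ v, dg E v ≤ Δ) {A : ℝ} (hA1 : (1 + ε) ^ Δ ≤ A) (hA2 : 1 ≤ A * (1 - ε) ^ Δ)
    (T : Finset V) :
    Zs μ U (avoid E T) ≤ A ^ T.card * Zs μ U E ∧ Zs μ U E ≤ A ^ T.card * Zs μ U (avoid E T) := by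
  have hsub : avoid E T ⊆ E := filter_subset _ _
  have hcard := card_sdiff_avoid hΔ T
  have hA0 : 0 < A := lt_of_lt_of_le (pow_pos (by linarith only [hU.pos]) _) hA1
  have hsplit : ∀ x : V → Ω, ∏ e ∈ E, (1 + U (e.map x)) =
      (∏ e ∈ E \ avoid E T, (1 + U (e.map x))) * ∏ e ∈ avoid E T, (1 + U (e.map x)) :=
    fun x => (prod_sdiff hsub).symm
  have hup : (1 + ε) ^ (E \ avoid E T).card ≤ A ^ T.card := by
    calc (1 + ε) ^ (E \ avoid E T).card ≤ (1 + ε) ^ (Δ * T.card) :=
          pow_le_pow_right₀ (by linarith only [hU.pos]) hcard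
      _ = ((1 + ε) ^ Δ) ^ T.card := pow_mul _ _ _
      _ ≤ A ^ T.card := pow_le_pow_left₀ (pow_nonneg (by linarith only [hU.pos]) _) hA1 _
  have hlo : 1 ≤ A ^ T.card * (1 - ε) ^ (E \ avoid E T).card := by
    calc (1:ℝ) = 1 ^ T.card := by simp
      _ ≤ (A * (1 - ε) ^ Δ) ^ T.card := pow_le_pow_left₀ zero_le_one hA2 _
      _ = A ^ T.card * (1 - ε) ^ (Δ * T.card) := by rw [mul_pow, pow_mul]
      _ ≤ A ^ T.card * (1 - ε) ^ (E \ avoid E T).card := by
          apply mul_le_mul_of_nonneg_left _ (pow_pos hA0 _).le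
          exact pow_le_pow_of_le_one (by linarith only [hε]) (by linarith only [hU.pos]) hcard
  have hnn : ∀ x : V → Ω, 0 ≤ ∏ e ∈ avoid E T, (1 + U (e.map x)) := fun x =>
    (pow_nonneg (by linarith only [hε]) _).trans (prod_pos_aux hU hε (avoid E T) x).1
  rw [Zs_eq μ hU, Zs_eq μ hU]
  constructor
  · rw [← integral_const_mul]
    apply integral_mono ((bm_prod_one_add hU _).integrable _)
      (((BM.const _).mul (bm_prod_one_add hU _)).integrable _)
    intro x
    show ∏ e ∈ avoid E T, (1 + U (e.map x)) ≤ A ^ T.card * ∏ e ∈ E, (1 + U (e.map x))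
    rw [hsplit x, ← mul_assoc]
    have h1 := (prod_pos_aux hU hε (E \ avoid E T) x).1
    have h2 : 1 ≤ A ^ T.card * ∏ e ∈ E \ avoid E T, (1 + U (e.map x)) :=
      hlo.trans (mul_le_mul_of_nonneg_left h1 (pow_pos hA0 _).le)
    exact le_mul_of_one_le_left (hnn x) h2
  · rw [← integral_const_mul]
    apply integral_mono ((bm_prod_one_add hU _).integrable _)
      (((BM.const _).mul (bm_prod_one_add hU _)).integrable _)
    intro x
    show ∏ e ∈ E, (1 + U (e.map x)) ≤ A ^ T.card * ∏ e ∈ avoid E T, (1 + U (e.map x))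
    rw [hsplit x]
    exact mul_le_mul_of_nonneg_right ((prod_pos_aux hU hε (E \ avoid E T) x).2.trans hup) (hnn x)

end Vale.Agent.P050
end
end

section

section

open MeasureTheory Finset

namespace Vale.Agent.P050

set_option linter.unusedSectionVars false

variable {V : Type*} [Fintype V] [DecidableEq V]

/-- a proper nonempty part of a connected edge set is touched by another edge -/
lemma exists_touch {F C : Finset (Sym2 V)} (hF : Conn F) (hCF : C ⊆ F) (hC : C.Nonempty)
    (hne : C ≠ F) : ∃ e ∈ F, e ∉ C ∧ ∃ u ∈ supp C, u ∈ e := by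
  obtain ⟨e₀, he₀⟩ := hC
  obtain ⟨a, ha⟩ := exists_mem_sym2 e₀
  have haC : a ∈ supp C := mem_supp.mpr ⟨e₀, he₀, ha⟩
  by_contra hcon
  push Not at hcon
  have hreach : ∀ x y, (gr F).Walk x y → x ∈ supp C → y ∈ supp C := by
    intro x y p
    induction p with
    | nil => exact id
    | @cons x z y h p ih =>
      intro hx
      apply ih
      have h1 : s(x, z) ∈ F := (gr_adj.mp h).1
      have h2 : s(x, z) ∈ C := by
        by_contra h3
        exact hcon _ h1 h3 x hx (by simp)
      exact mem_supp.mpr ⟨_, h2, by simp⟩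
  apply hne
  apply subset_antisymm hCF
  intro e he
  by_contra heC
  obtain ⟨x, hx⟩ := exists_mem_sym2 e
  have hxF : x ∈ supp F := mem_supp.mpr ⟨e, he, hx⟩
  obtain ⟨p⟩ := hF.2 a (supp_mono hCF haC) x hxF
  exact hcon e he heC x (hreach a x p haC) hx

lemma supp_cherry (a b u : V) : supp ({s(a, u), s(b, u)} : Finset (Sym2 V)) = {a, b, u} := by
  ext v
  simp only [mem_supp, mem_insert, mem_singleton]
  constructor
  · rintro ⟨e, he | he, hv⟩
    · subst he; rw [Sym2.mem_iff] at hv; tauto
    · subst he; rw [Sym2.mem_iff] at hv; tauto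
  · rintro (h | h | h)
    · subst h; exact ⟨_, Or.inl rfl, by simp⟩
    · subst h; exact ⟨_, Or.inr rfl, by simp⟩
    · subst h; exact ⟨_, Or.inl rfl, by simp⟩

lemma conn_cherry {a b u : V} (hau : a ≠ u) (hbu : b ≠ u) :
    Conn ({s(a, u), s(b, u)} : Finset (Sym2 V)) := by
  refine ⟨by simp, ?_⟩
  have key : ∀ v ∈ supp ({s(a, u), s(b, u)} : Finset (Sym2 V)),
      (gr ({s(a, u), s(b, u)} : Finset (Sym2 V))).Reachable u v := by
    intro v hv
    rw [supp_cherry] at hv
    simp only [mem_insert, mem_singleton] at hv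
    rcases hv with h | h | h
    · subst h
      exact (gr_adj.mpr ⟨by rw [Sym2.eq_swap]; simp, hau.symm⟩ : (gr _).Adj u v).reachable
    · subst h
      exact (gr_adj.mpr ⟨by rw [Sym2.eq_swap]; simp, hbu.symm⟩ : (gr _).Adj u v).reachable
    · subst h; exact SimpleGraph.Reachable.refl _
  intro x hx y hy
  exact (key x hx).symm.trans (key y hy)

/-- a connected edge set with at least two edges contains a cherry -/
lemma exists_cherry {F : Finset (Sym2 V)} (hF : Conn F) (hloop : ∀ e ∈ F, ¬ e.IsDiag)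
    (hcard : 2 ≤ F.card) : ∃ a b u : V, a ≠ u ∧ b ≠ u ∧ a ≠ b ∧
      ({s(a, u), s(b, u)} : Finset (Sym2 V)) ⊆ F := by
  obtain ⟨e₁, he₁⟩ := hF.1
  obtain ⟨e, he, hne, u, hu, hue⟩ := exists_touch hF (singleton_subset_iff.mpr he₁)
    (singleton_nonempty e₁) (by
      intro h; rw [← h, card_singleton] at hcard; omega)
  rw [mem_singleton] at hne
  obtain ⟨e', he', hue'⟩ := mem_supp.mp hu
  rw [mem_singleton] at he'
  subst he'
  obtain ⟨a, ha⟩ := Sym2.mem_iff_exists.mp hue'
  obtain ⟨b, hb⟩ := Sym2.mem_iff_exists.mp hue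
  have h1 := hloop _ he₁
  have h2 := hloop _ he
  rw [ha, Sym2.mk_isDiag_iff] at h1
  rw [hb, Sym2.mk_isDiag_iff] at h2
  refine ⟨a, b, u, fun h => h1 h.symm, fun h => h2 h.symm, ?_, ?_⟩
  · intro h; apply hne; rw [ha, hb, h]
  · intro f hf
    rw [mem_insert, mem_singleton] at hf
    rcases hf with h | h
    · rw [h, Sym2.eq_swap, ← ha]; exact he₁
    · rw [h, Sym2.eq_swap, ← hb]; exact he

lemma card_cherry {a b u : V} (hbu : b ≠ u) (hab : a ≠ b) :
    ({s(a, u), s(b, u)} : Finset (Sym2 V)).card = 2 := by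
  rw [card_pair]
  intro h
  rw [Sym2.eq_iff] at h
  rcases h with ⟨h, _⟩ | ⟨h, h'⟩
  · exact hab h
  · exact hbu h'.symm

lemma pathEdges_reach {F : Finset (Sym2 V)} : ∀ (p : List V) (a b : V),
    (∀ e ∈ pathEdges a p b, e ∈ F) → ∀ v ∈ a :: p ++ [b], (gr F).Reachable a v := by
  intro p
  have hstep : ∀ a b : V, s(a, b) ∈ F → (gr F).Reachable a b := by
    intro a b h
    by_cases hab : a = b
    · subst hab; exact SimpleGraph.Reachable.refl _
    · exact (gr_adj.mpr ⟨h, hab⟩ : (gr F).Adj a b).reachable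
  induction p with
  | nil =>
    intro a b h v hv
    simp only [List.cons_append, List.nil_append, List.mem_cons, List.not_mem_nil, or_false] at hv
    rcases hv with rfl | rfl
    · exact SimpleGraph.Reachable.refl _
    · exact hstep _ _ (h _ (by simp [pathEdges]))
  | cons x p ih =>
    intro a b h v hv
    have h1 : (gr F).Reachable a x := hstep _ _ (h _ (by simp [pathEdges]))
    have hv' : v = a ∨ v ∈ x :: p ++ [b] := by simpa using hv
    rcases hv' with rfl | hv'
    · exact SimpleGraph.Reachable.refl _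
    · exact h1.trans (ih x b (fun e he => h e (by simp [pathEdges, he])) v hv')

namespace CycPres

variable {F : Finset (Sym2 V)} {k : ℕ} {a b : V} {p q : List V}

lemma cycEdges_subset (h : CycPres F k a b p q) : cycEdges a b p q ⊆ F := by
  intro e he
  exact h.sub e (List.mem_toFinset.mp he)

lemma edges_nodup (h : CycPres F k a b p q) : (pathEdges a p b ++ pathEdges b q a).Nodup := by
  rw [List.nodup_append]
  refine ⟨pathEdges_nodup h.nd1, pathEdges_nodup h.nd2, ?_⟩
  intro e he e' he' hee
  subst hee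
  obtain ⟨v, hv, hve⟩ := exists_mem_pathEdges h.p_ne he
  have h1 := (mem_avoid.mp (h.sub2 e he')).2 v hve
  exact h1 (List.mem_toFinset.mpr hv)

lemma card_cycEdges (h : CycPres F k a b p q) : (cycEdges a b p q).card = 2 * k := by
  unfold cycEdges
  rw [List.toFinset_card_of_nodup h.edges_nodup, List.length_append, pathEdges_length,
    pathEdges_length]
  have := h.hp
  have := h.hq
  omega

lemma supp_cycEdges (h : CycPres F k a b p q) :
    (supp (cycEdges a b p q)).card ≤ 2 * k := by
  have hsub : supp (cycEdges a b p q) ⊆ (a :: p ++ b :: q).toFinset := by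
    intro v hv
    obtain ⟨e, he, hve⟩ := mem_supp.mp hv
    unfold cycEdges at he
    rw [List.mem_toFinset, List.mem_append] at he
    rw [List.mem_toFinset]
    rcases he with he | he
    · have := mem_pathEdges_vertices he v hve
      simp only [List.cons_append, List.mem_cons, List.mem_append, List.not_mem_nil,
        or_false] at this ⊢
      (clear * - this; tauto)
    · have := mem_pathEdges_vertices he v hve
      simp only [List.cons_append, List.mem_cons, List.mem_append, List.not_mem_nil,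
        or_false] at this ⊢
      (clear * - this; tauto)
  refine (card_le_card hsub).trans ?_
  refine (List.toFinset_card_le _).trans ?_
  have := h.hp
  have := h.hq
  simp only [List.cons_append, List.length_cons, List.length_append]
  omega

lemma conn_cycEdges (h : CycPres F k a b p q) : Conn (cycEdges a b p q) := by
  have hne : (cycEdges a b p q).Nonempty := by
    rw [← card_pos, h.card_cycEdges]
    have := h.hk
    omega
  refine ⟨hne, ?_⟩
  have key : ∀ v ∈ supp (cycEdges a b p q), (gr (cycEdges a b p q)).Reachable a v := by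
    have h1 := pathEdges_reach (F := cycEdges a b p q) p a b (by
      intro e he; unfold cycEdges; rw [List.mem_toFinset]; simp [he])
    have h2 := pathEdges_reach (F := cycEdges a b p q) q b a (by
      intro e he; unfold cycEdges; rw [List.mem_toFinset]; simp [he])
    have h3 : (gr (cycEdges a b p q)).Reachable a b := h1 b (by simp)
    intro v hv
    obtain ⟨e, he, hve⟩ := mem_supp.mp hv
    unfold cycEdges at he
    rw [List.mem_toFinset, List.mem_append] at he
    rcases he with he | he
    · exact h1 v (mem_pathEdges_vertices he v hve)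
    · exact h3.trans (h2 v (mem_pathEdges_vertices he v hve))
  intro x hx y hy
  exact (key x hx).symm.trans (key y hy)

lemma self (h : CycPres F k a b p q) : CycPres (cycEdges a b p q) k a b p q :=
  h.mono h.cycEdges_subset (by
    intro e he; unfold cycEdges; rw [List.mem_toFinset]; exact he)

end CycPres

/-- charging of connected sets to substructures -/
lemma charge {E : Finset (Sym2 V)} (hloop : ∀ e ∈ E, ¬ e.IsDiag) {Δ : ℕ}
    (hΔ : ∀ v, dg E v ≤ Δ) {x y h : ℝ} (hx : 0 ≤ x) (hy : 0 ≤ y) (hxy : x * (1 + y) ^ Δ ≤ y)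
    (hh : (1 + y) ^ Δ ≤ h) (A T : Finset (Finset (Sym2 V))) (hA : ∀ γ ∈ A, γ ⊆ E ∧ Conn γ)
    (g : Finset (Sym2 V) → Finset (Sym2 V)) (hg : ∀ γ ∈ A, g γ ∈ T)
    (hsub : ∀ γ ∈ A, g γ ⊆ γ ∧ (g γ).Nonempty) (φ b : Finset (Sym2 V) → ℝ)
    (hφ : ∀ γ ∈ A, φ γ ≤ b (g γ) * x ^ (γ \ g γ).card) (hb : ∀ t ∈ T, 0 ≤ b t) :
    ∑ γ ∈ A, φ γ ≤ ∑ t ∈ T, b t * h ^ (supp t).card := by
  classical
  rw [← sum_fiberwise_of_maps_to hg φ]
  apply sum_le_sum
  intro t ht
  have h1 : ∑ γ ∈ A.filter (fun γ => g γ = t), φ γ ≤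
      ∑ γ ∈ A.filter (fun γ => g γ = t), b t * x ^ (γ \ t).card := by
    apply sum_le_sum
    intro γ hγ
    rw [mem_filter] at hγ
    rw [← hγ.2]
    exact hφ γ hγ.1
  refine h1.trans ?_
  rw [← mul_sum]
  apply mul_le_mul_of_nonneg_left _ (hb t ht)
  have h2 : ∑ γ ∈ A.filter (fun γ => g γ = t), x ^ (γ \ t).card ≤
      ∑ F ∈ E.powerset, (if Rooted (supp t) F then x ^ F.card else 0) := by
    rw [← sum_filter]
    have hinj : Set.InjOn (fun γ : Finset (Sym2 V) => γ \ t) (A.filter (fun γ => g γ = t)) := by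
      intro γ hγ γ' hγ' heq
      simp only [coe_filter, Set.mem_ofPred_eq] at hγ hγ'
      have e1 := (hsub γ hγ.1).1
      have e2 := (hsub γ' hγ'.1).1
      rw [hγ.2] at e1
      rw [hγ'.2] at e2
      simp only at heq
      rw [← sdiff_union_of_subset e1, ← sdiff_union_of_subset e2, heq]
    rw [← sum_image (f := fun F : Finset (Sym2 V) => x ^ F.card) hinj]
    apply sum_le_sum_of_subset_of_nonneg
    · intro F hF
      rw [mem_image] at hF
      obtain ⟨γ, hγ, rfl⟩ := hF
      rw [mem_filter] at hγ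
      rw [mem_filter, mem_powerset]
      have hconn := (hA γ hγ.1).2
      refine ⟨sdiff_subset.trans (hA γ hγ.1).1, ?_⟩
      obtain ⟨h3, h4⟩ := hsub γ hγ.1
      rw [hγ.2] at h3 h4
      have hroot : Rooted (supp t) γ := by
        intro v hv
        obtain ⟨e, he⟩ := h4
        obtain ⟨r, hr⟩ := exists_mem_sym2 e
        have hrt : r ∈ supp t := mem_supp.mpr ⟨e, he, hr⟩
        exact ⟨r, hrt, hconn.2 r (supp_mono h3 hrt) v hv⟩
      exact hroot.sdiff (fun e he v hv => mem_supp.mpr ⟨e, he, hv⟩)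
    · intro F _ _
      exact pow_nonneg hx _
  refine h2.trans ((rooted_count Δ x y hx hy hxy _ E rfl hloop hΔ (supp t)).trans ?_)
  calc (1 + y) ^ (∑ r ∈ supp t, dg E r) ≤ (1 + y) ^ (Δ * (supp t).card) := by
        apply pow_le_pow_right₀ (by linarith)
        calc ∑ r ∈ supp t, dg E r ≤ ∑ _r ∈ supp t, Δ := sum_le_sum fun v _ => hΔ v
          _ = Δ * (supp t).card := by simp [mul_comm]
    _ = ((1 + y) ^ Δ) ^ (supp t).card := pow_mul _ _ _
    _ ≤ h ^ (supp t).card := pow_le_pow_left₀ (pow_nonneg (by linarith) _) hh _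

end Vale.Agent.P050
end
end

section

section

namespace Vale.Agent.P050

/-- numerical constant -/
noncomputable def hc : ℝ := Real.exp (1 / 4)

lemma one_le_hc : 1 ≤ hc := Real.one_le_exp (by norm_num)

lemma hc_pow_four : hc ^ 4 ≤ 2.7182818286 := by
  have h1 : hc ^ 4 = Real.exp 1 := by
    unfold hc
    rw [← Real.exp_nat_mul]
    norm_num
  rw [h1]
  exact Real.exp_one_lt_d9.le

lemma hc_le : hc ≤ 1.28403 := by
  by_contra h
  push Not at h
  have h1 : (1.28403 : ℝ) ^ 4 < hc ^ 4 := pow_lt_pow_left₀ h (by norm_num) (by norm_num)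
  have h2 := hc_pow_four
  norm_num at h1 h2
  linarith only [h1, h2]

/-- the ratio constant -/
noncomputable def Ac : ℝ := 24 / 23

lemma one_le_Ac : 1 ≤ Ac := by unfold Ac; norm_num

/-- cherry constant -/
noncomputable def Kc : ℝ := 2 / (Ac ^ 3 * hc ^ 3)

/-- cycle constant -/
noncomputable def Bc (k : ℕ) : ℝ := 2 * k / (Ac * hc) ^ (2 * k)

lemma Kc_pos : 0 < Kc := by
  have h1 := one_le_hc
  have h2 := one_le_Ac
  unfold Kc; positivity

lemma Bc_nonneg (k : ℕ) : 0 ≤ Bc k := by
  have h1 := one_le_hc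
  have h2 := one_le_Ac
  unfold Bc; positivity

lemma mono_bound (j r : ℝ) (hr0 : 0 ≤ r) (hr : 2 * r ≤ 1) {m0 m : ℕ} (hm : m0 ≤ m)
    (hj : 1 ≤ (m0 : ℝ) + j) : ((m : ℝ) + j) * r ^ m ≤ ((m0 : ℝ) + j) * r ^ m0 := by
  induction m, hm using Nat.le_induction with
  | base => exact le_rfl
  | succ m hm ih =>
    refine le_trans ?_ ih
    have h1 : 1 ≤ (m : ℝ) + j := by
      have : (m0 : ℝ) ≤ m := by exact_mod_cast hm
      linarith only [hj, this]
    have h2 : 0 ≤ r ^ m := pow_nonneg hr0 m
    rw [pow_succ]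
    push_cast
    have h3 : ((m : ℝ) + 1 + j) * (r ^ m * r) = r ^ m * (((m : ℝ) + 1 + j) * r) := by ring
    have h4 : ((m : ℝ) + j) * r ^ m = r ^ m * ((m : ℝ) + j) := by ring
    rw [h3, h4]
    apply mul_le_mul_of_nonneg_left _ h2
    nlinarith only [hr, h1]

lemma num_tau : 2 * (Ac ^ 2 * (hc / 6)) ≤ 1 := by
  have h1 := one_le_hc
  have h2 := hc_le
  unfold Ac
  linarith

lemma num_stau : 2 * (Ac ^ 2 * (Ac ^ 3 * hc) * (hc / 6)) ≤ 1 := by
  have h1 := one_le_hc
  have h2 := hc_le
  have h3 : hc ^ 2 ≤ 1.28403 ^ 2 := pow_le_pow_left₀ (by linarith only [h1]) h2 2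
  unfold Ac
  linarith

/-- two leaves -/
lemma num_L2 {x ε : ℝ} (hx : 0 ≤ x) (hε : 0 ≤ ε) (h : ε ≤ x * (hc / 6)) {n : ℕ} (hn : 3 ≤ n) :
    (n : ℝ) * Ac ^ (2 * n) * ε ^ (n - 2) ≤ Kc * x ^ (n - 2) := by
  have h1 := one_le_hc
  have hA := one_le_Ac
  obtain ⟨m, rfl⟩ : ∃ m, n = m + 2 := ⟨n - 2, by omega⟩
  have hm : 1 ≤ m := by omega
  simp only [Nat.add_sub_cancel]
  have e1 : ε ^ m ≤ x ^ m * (hc / 6) ^ m := by
    rw [← mul_pow]; exact pow_le_pow_left₀ hε h m
  have e2 := mono_bound 2 (Ac ^ 2 * (hc / 6)) (by positivity) num_tau hm (by norm_num)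
  norm_num at e2
  have e3 : 3 * Ac ^ 6 * (hc / 6) ≤ Kc := by
    unfold Kc
    rw [le_div_iff₀ (by positivity)]
    have h4 := hc_pow_four
    have : 3 * Ac ^ 6 * (hc / 6) * (Ac ^ 3 * hc ^ 3) = Ac ^ 9 / 2 * hc ^ 4 := by ring
    rw [this]
    unfold Ac
    nlinarith only [h4]
  calc ((m + 2 : ℕ) : ℝ) * Ac ^ (2 * (m + 2)) * ε ^ m
      ≤ ((m + 2 : ℕ) : ℝ) * Ac ^ (2 * (m + 2)) * (x ^ m * (hc / 6) ^ m) := by gcongr
    _ = Ac ^ 4 * (((m : ℝ) + 2) * (Ac ^ 2 * (hc / 6)) ^ m) * x ^ m := by
        push_cast; ring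
    _ ≤ Ac ^ 4 * (3 * (Ac ^ 2 * (hc / 6))) * x ^ m := by
        gcongr
    _ = 3 * Ac ^ 6 * (hc / 6) * x ^ m := by ring
    _ ≤ Kc * x ^ m := by gcongr

/-- one leaf, part charged to the cherry -/
lemma num_L1D {x ε : ℝ} (hx : 0 ≤ x) (hε : 0 < ε) (h : ε ≤ x * (hc / 6)) {n k : ℕ}
    (hk : 2 ≤ k) (hn : 2 * k + 1 ≤ n) :
    (n : ℝ) * Ac ^ (2 * n) * (ε ^ (n - 1 - k) * (1 / 2 * (ε ^ (k - 1) * (Ac ^ 3 * hc) ^ (2 * k))))
      ≤ Kc * x ^ (n - 2) := by
  have h1 := one_le_hc
  have hA := one_le_Ac
  have hs : 1 ≤ Ac ^ 3 * hc := by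
    have := one_le_pow₀ hA (n := 3)
    nlinarith only [h1, this]
  have hpow : ε ^ (n - 1 - k) * ε ^ (k - 1) = ε ^ (n - 2) := by
    rw [← pow_add]; congr 1; omega
  obtain ⟨m, rfl⟩ : ∃ m, n = m + 2 := ⟨n - 2, by omega⟩
  have hm : 3 ≤ m := by omega
  simp only [Nat.add_sub_cancel] at hpow ⊢
  have e1 : ε ^ m ≤ x ^ m * (hc / 6) ^ m := by
    rw [← mul_pow]; exact pow_le_pow_left₀ hε.le h m
  have e0 : (Ac ^ 3 * hc) ^ (2 * k) ≤ (Ac ^ 3 * hc) ^ (m + 1) :=
    pow_le_pow_right₀ hs (by omega)
  have e2 := mono_bound 2 (Ac ^ 2 * (Ac ^ 3 * hc) * (hc / 6)) (by positivity) num_stau hm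
    (by norm_num)
  norm_num at e2
  have e3 : Ac ^ 4 * (5 * (Ac ^ 2 * (Ac ^ 3 * hc) * (hc / 6)) ^ 3) * (Ac ^ 3 * hc) / 2 ≤ Kc := by
    unfold Kc
    rw [le_div_iff₀ (by positivity)]
    have h2 := hc_le
    have h3 : hc ^ 10 ≤ 1.28403 ^ 10 := pow_le_pow_left₀ (by linarith only [h1]) h2 10
    have : Ac ^ 4 * (5 * (Ac ^ 2 * (Ac ^ 3 * hc) * (hc / 6)) ^ 3) * (Ac ^ 3 * hc) / 2 *
        (Ac ^ 3 * hc ^ 3) = 5 * Ac ^ 25 / 432 * hc ^ 10 := by ring
    rw [this]
    unfold Ac
    calc (5 * (24 / 23 : ℝ) ^ 25 / 432 * hc ^ 10) ≤ 5 * (24 / 23 : ℝ) ^ 25 / 432 * 1.28403 ^ 10 := by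
          (clear * - h3; gcongr)
      _ ≤ 2 := by norm_num
  have e4 : ((m + 2 : ℕ) : ℝ) * Ac ^ (2 * (m + 2)) *
      (ε ^ (m + 2 - 1 - k) * (1 / 2 * (ε ^ (k - 1) * (Ac ^ 3 * hc) ^ (2 * k)))) =
      ((m + 2 : ℕ) : ℝ) * Ac ^ (2 * (m + 2)) * (1 / 2 * (ε ^ m * (Ac ^ 3 * hc) ^ (2 * k))) := by
    rw [← hpow]; ring
  rw [e4]
  calc ((m + 2 : ℕ) : ℝ) * Ac ^ (2 * (m + 2)) * (1 / 2 * (ε ^ m * (Ac ^ 3 * hc) ^ (2 * k)))
      ≤ ((m + 2 : ℕ) : ℝ) * Ac ^ (2 * (m + 2)) *
          (1 / 2 * ((x ^ m * (hc / 6) ^ m) * (Ac ^ 3 * hc) ^ (m + 1))) := by (clear * - e1 e0 hA h1 hx hm; gcongr)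
    _ = Ac ^ 4 * (((m : ℝ) + 2) * (Ac ^ 2 * (Ac ^ 3 * hc) * (hc / 6)) ^ m) * (Ac ^ 3 * hc) / 2 *
          x ^ m := by
        push_cast; ring
    _ ≤ Ac ^ 4 * (5 * (Ac ^ 2 * (Ac ^ 3 * hc) * (hc / 6)) ^ 3) * (Ac ^ 3 * hc) / 2 * x ^ m := by
        (clear * - e2 hA h1 hx; gcongr)
    _ ≤ Kc * x ^ m := by (clear * - e3 hx; gcongr)

/-- one leaf, part charged to the cycle -/
lemma num_L1C {x ε : ℝ} (hx : 0 ≤ x) (hε : 0 < ε) (h : ε ≤ x * (hc / 6)) {n k : ℕ}
    (hk : 2 ≤ k) (hn : 2 * k + 1 ≤ n) :
    (n : ℝ) * Ac ^ (2 * n) *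
      (ε ^ (n - 1 - k) * (1 / 2 * (ε ^ (k - 1) * (Ac ^ 3 * hc) ^ (2 * k))⁻¹))
      ≤ Bc k * x ^ (n - 2 * k) := by
  have h1 := one_le_hc
  have hA := one_le_Ac
  have hs0 : 0 < Ac ^ 3 * hc := by positivity
  have hpow : ε ^ (n - 1 - k) = ε ^ (n - 2 * k) * ε ^ (k - 1) := by
    rw [← pow_add]; congr 1; omega
  obtain ⟨m, rfl⟩ : ∃ m, n = m + 2 * k := ⟨n - 2 * k, by omega⟩
  have hm : 1 ≤ m := by omega
  simp only [Nat.add_sub_cancel] at hpow ⊢
  have e1 : ε ^ m ≤ x ^ m * (hc / 6) ^ m := by
    rw [← mul_pow]; exact pow_le_pow_left₀ hε.le h m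
  have hk' : (2:ℝ) ≤ k := by exact_mod_cast hk
  have e2 := mono_bound (2 * (k:ℝ)) (Ac ^ 2 * (hc / 6)) (by (clear * - hA h1; positivity)) num_tau hm
    (by push_cast; linarith only [])
  norm_num at e2
  have e4 : ε ^ (m + 2 * k - 1 - k) * (1 / 2 * (ε ^ (k - 1) * (Ac ^ 3 * hc) ^ (2 * k))⁻¹) =
      ε ^ m * (1 / 2 * ((Ac ^ 3 * hc) ^ (2 * k))⁻¹) := by
    rw [hpow]
    have := pow_pos hε (k - 1)
    field_simp
  rw [e4]
  have e5 : (1 + 2 * (k:ℝ)) * (Ac ^ 2 * (hc / 6)) ≤ 4 * k := by
    have := num_tau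
    nlinarith only [hk', this]
  calc ((m + 2 * k : ℕ) : ℝ) * Ac ^ (2 * (m + 2 * k)) *
        (ε ^ m * (1 / 2 * ((Ac ^ 3 * hc) ^ (2 * k))⁻¹))
      ≤ ((m + 2 * k : ℕ) : ℝ) * Ac ^ (2 * (m + 2 * k)) *
        ((x ^ m * (hc / 6) ^ m) * (1 / 2 * ((Ac ^ 3 * hc) ^ (2 * k))⁻¹)) := by gcongr
    _ = (((m : ℝ) + 2 * k) * (Ac ^ 2 * (hc / 6)) ^ m) / 2 / (Ac * hc) ^ (2 * k) * x ^ m := by
        push_cast
        rw [mul_pow (Ac ^ 3) hc, mul_pow Ac hc, mul_pow (Ac ^ 2)]
        field_simp
        ring
    _ ≤ (4 * k) / 2 / (Ac * hc) ^ (2 * k) * x ^ m := by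
        gcongr ?_ / 2 / (Ac * hc) ^ (2 * k) * x ^ m
        exact e2.trans e5
    _ = Bc k * x ^ m := by
        unfold Bc; ring

/-- no leaf -/
lemma num_L0 {x ε : ℝ} (hx : 0 ≤ x) (hε : 0 < ε) (h : ε ≤ x * (hc / 6)) {n k : ℕ}
    (hk : 2 ≤ k) (hn : 3 * k ≤ n) :
    (n : ℝ) * Ac ^ (2 * n) * ε ^ (n - 2 * k) ≤ Bc k * x ^ (n - 2 * k) := by
  have h1 := one_le_hc
  have hA := one_le_Ac
  obtain ⟨m, rfl⟩ : ∃ m, n = m + 2 * k := ⟨n - 2 * k, by omega⟩
  have hm : k ≤ m := by omega
  simp only [Nat.add_sub_cancel]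
  have e1 : ε ^ m ≤ x ^ m * (hc / 6) ^ m := by
    rw [← mul_pow]; exact pow_le_pow_left₀ hε.le h m
  have hk' : (2:ℝ) ≤ k := by exact_mod_cast hk
  have e2 := mono_bound (2 * (k:ℝ)) (Ac ^ 2 * (hc / 6)) (by positivity) num_tau hm
    (by linarith only [hk'])
  have e3 : (Ac ^ 8 * hc ^ 2 * (hc / 6)) ^ k ≤ 2 / 3 := by
    have h2 := hc_le
    have h3 : hc ^ 3 ≤ 1.28403 ^ 3 := pow_le_pow_left₀ (by linarith only [h1]) h2 3
    have h4 : Ac ^ 8 * hc ^ 2 * (hc / 6) ≤ 1 / 2 := by
      have : Ac ^ 8 * hc ^ 2 * (hc / 6) = Ac ^ 8 / 6 * hc ^ 3 := by ring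
      rw [this]
      unfold Ac
      calc ((24 / 23 : ℝ) ^ 8 / 6 * hc ^ 3) ≤ (24 / 23 : ℝ) ^ 8 / 6 * 1.28403 ^ 3 := by (clear * - h3; gcongr)
        _ ≤ 1 / 2 := by norm_num
    calc (Ac ^ 8 * hc ^ 2 * (hc / 6)) ^ k ≤ (1 / 2) ^ k := by (clear * - hA h1 h4; gcongr)
      _ ≤ (1 / 2) ^ 2 := pow_le_pow_of_le_one (by norm_num) (by norm_num) hk
      _ ≤ 2 / 3 := by norm_num
  have e5 : Ac ^ (4 * k) * (((k : ℝ) + 2 * k) * (Ac ^ 2 * (hc / 6)) ^ k) ≤ Bc k := by
    unfold Bc
    rw [le_div_iff₀ (by positivity)]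
    have e6 : Ac ^ (4 * k) * (((k : ℝ) + 2 * k) * (Ac ^ 2 * (hc / 6)) ^ k) * (Ac * hc) ^ (2 * k) =
        3 * k * (Ac ^ 8 * hc ^ 2 * (hc / 6)) ^ k := by
      rw [pow_mul Ac 4 k, pow_mul (Ac * hc) 2 k, mul_pow (Ac ^ 2), mul_pow (Ac ^ 8 * hc ^ 2),
        mul_pow (Ac ^ 8), mul_pow Ac hc 2, mul_pow (Ac ^ 2) (hc ^ 2), ← pow_mul Ac 8 k,
        ← pow_mul Ac 4 k, ← pow_mul Ac 2 k]
      ring
    rw [e6]
    nlinarith only [e3]
  calc ((m + 2 * k : ℕ) : ℝ) * Ac ^ (2 * (m + 2 * k)) * ε ^ m
      ≤ ((m + 2 * k : ℕ) : ℝ) * Ac ^ (2 * (m + 2 * k)) * (x ^ m * (hc / 6) ^ m) := by (clear * - e1 hk hA; gcongr)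
    _ = Ac ^ (4 * k) * (((m : ℝ) + 2 * k) * (Ac ^ 2 * (hc / 6)) ^ m) * x ^ m := by
        push_cast
        ring
    _ ≤ Ac ^ (4 * k) * (((k : ℝ) + 2 * k) * (Ac ^ 2 * (hc / 6)) ^ k) * x ^ m := by gcongr
    _ ≤ Bc k * x ^ m := by (clear * - e5 hx; gcongr)

end Vale.Agent.P050
end
end

section

section

open MeasureTheory Finset

namespace Vale.Agent.P050

set_option linter.unusedSectionVars false

variable {V : Type*} [Fintype V] [DecidableEq V]

section lists

lemma countP_first (p : List V) (a b : V) :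
    1 ≤ (pathEdges a p b).countP (fun e => a ∈ e) := by
  cases p with
  | nil => simp [pathEdges]
  | cons x p => simp only [pathEdges, Sym2.mem_iff, true_or, decide_true, List.countP_cons_of_pos, le_add_iff_nonneg_left, zero_le]

lemma countP_last (p : List V) (a b : V) :
    1 ≤ (pathEdges a p b).countP (fun e => b ∈ e) := by
  induction p generalizing a with
  | nil => simp [pathEdges]
  | cons x p ih =>
    have := ih x
    simp only [pathEdges, List.countP_cons]
    omega

lemma countP_interior (p : List V) (a b v : V) (hv : v ∈ p) :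
    2 ≤ (pathEdges a p b).countP (fun e => v ∈ e) := by
  induction p generalizing a with
  | nil => simp at hv
  | cons x p ih =>
    simp only [pathEdges, List.countP_cons]
    rcases List.mem_cons.mp hv with rfl | hv
    · have := countP_first p v b
      simp only [Sym2.mem_iff, or_true, decide_true, if_true]
      omega
    · have := ih x hv
      omega

lemma CycPres.two_le_dg {F : Finset (Sym2 V)} {k : ℕ} {a b : V} {p q : List V}
    (h : CycPres F k a b p q) {v : V} (hv : v ∈ a :: p ++ b :: q) : 2 ≤ dg F v := by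
  have h1 : dg (cycEdges a b p q) v =
      (pathEdges a p b ++ pathEdges b q a).countP (fun e => v ∈ e) := by
    unfold dg cycEdges
    rw [List.countP_eq_length_filter, ← List.toFinset_card_of_nodup (h.edges_nodup.filter _)]
    congr 1
    ext e
    simp only [mem_filter, List.mem_toFinset, List.mem_filter, decide_eq_true_eq]
  refine le_trans ?_ (dg_mono h.cycEdges_subset v)
  rw [h1, List.countP_append]
  simp only [List.cons_append, List.mem_cons, List.mem_append] at hv
  rcases hv with rfl | hv | rfl | hv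
  · have := countP_first p v b
    have := countP_last q b v
    omega
  · have := countP_interior p a b v hv
    omega
  · have := countP_last p a v
    have := countP_first q v a
    omega
  · have := countP_interior q b a v hv
    omega

end lists

lemma exists_of_dg_one {F : Finset (Sym2 V)} {v : V} (h : dg F v = 1) :
    ∃ y, s(v, y) ∈ F ∧ ∀ e ∈ F, v ∈ e → e = s(v, y) := by
  unfold dg at h
  rw [card_eq_one] at h
  obtain ⟨e, he⟩ := h
  have h1 : e ∈ F.filter (fun e => v ∈ e) := by rw [he]; simp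
  rw [mem_filter] at h1
  obtain ⟨y, rfl⟩ := Sym2.mem_iff_exists.mp h1.2
  refine ⟨y, h1.1, ?_⟩
  intro e' he' hv
  have : e' ∈ F.filter (fun e => v ∈ e) := mem_filter.mpr ⟨he', hv⟩
  rw [he, mem_singleton] at this
  exact this

/-- the edge set is a cycle -/
def IsCyc (t : Finset (Sym2 V)) : Prop :=
  ∃ k a b p q, CycPres t k a b p q ∧ t = cycEdges a b p q

/-- `t` is a chordless cycle in `γ` with the extra size information -/
def CycIn (γ t : Finset (Sym2 V)) : Prop :=
  ∃ k a b p q, t = cycEdges a b p q ∧ CycPres γ k a b p q ∧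
    ((∀ v, dg γ v ≠ 1) → 3 * k ≤ γ.card)

/-- `t` is a cherry in `γ` -/
def ChIn (γ t : Finset (Sym2 V)) : Prop :=
  ∃ a b u : V, a ≠ u ∧ b ≠ u ∧ a ≠ b ∧ t = {s(a, u), s(b, u)} ∧ t ⊆ γ

open scoped Classical in
/-- a chosen cherry -/
noncomputable def g1 (γ : Finset (Sym2 V)) : Finset (Sym2 V) :=
  if h : ∃ t, ChIn γ t then h.choose else ∅

open scoped Classical in
/-- a chosen cycle -/
noncomputable def g2 (γ : Finset (Sym2 V)) : Finset (Sym2 V) :=
  if h : ∃ t, CycIn γ t then h.choose else ∅

lemma g1_spec {γ : Finset (Sym2 V)} (h : ∃ t, ChIn γ t) : ChIn γ (g1 γ) := by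
  unfold g1; rw [dif_pos h]; exact h.choose_spec

lemma g2_spec {γ : Finset (Sym2 V)} (h : ∃ t, CycIn γ t) : CycIn γ (g2 γ) := by
  unfold g2; rw [dif_pos h]; exact h.choose_spec

variable {Ω : Type*} [MeasurableSpace Ω] {U : Sym2 Ω → ℝ} {ε : ℝ}
variable (μ : Measure Ω) [IsProbabilityMeasure μ]

/-- cost per cycle -/
noncomputable def bC (U : Sym2 Ω → ℝ) (t : Finset (Sym2 V)) : ℝ :=
  Bc (t.card / 2) * ck μ U (t.card / 2)

lemma bC_nonneg (t : Finset (Sym2 V)) : 0 ≤ bC μ U t :=
  mul_nonneg (Bc_nonneg _) (ck_nonneg μ _)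

/-- gain of cherries -/
noncomputable def f1 (U : Sym2 Ω → ℝ) (γ : Finset (Sym2 V)) : ℝ :=
  if γ.card = 2 then 2 / Ac ^ 3 * dd μ U else 0

/-- cost charged to cherries -/
noncomputable def f2 (U : Sym2 Ω → ℝ) (x : ℝ) (γ : Finset (Sym2 V)) : ℝ :=
  if 3 ≤ γ.card then Kc * dd μ U * x ^ (γ.card - 2) else 0

open scoped Classical in
/-- gain of cycles -/
noncomputable def f3 (U : Sym2 Ω → ℝ) (γ : Finset (Sym2 V)) : ℝ :=
  if IsCyc γ then γ.card / Ac ^ γ.card * ck μ U (γ.card / 2) else 0

open scoped Classical in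
/-- cost charged to cycles -/
noncomputable def f4 (U : Sym2 Ω → ℝ) (x : ℝ) (γ : Finset (Sym2 V)) : ℝ :=
  if ∃ t, CycIn γ t then bC μ U (g2 γ) * x ^ (γ \ g2 γ).card else 0

lemma f1_nonneg (γ : Finset (Sym2 V)) : 0 ≤ f1 μ U γ := by
  unfold f1
  have := dd_nonneg (U := U) μ
  have := one_le_Ac
  split_ifs <;> positivity

lemma f2_nonneg {x : ℝ} (hx : 0 ≤ x) (γ : Finset (Sym2 V)) : 0 ≤ f2 μ U x γ := by
  unfold f2
  have := dd_nonneg (U := U) μ
  have := Kc_pos
  split_ifs <;> positivity

lemma f3_nonneg (γ : Finset (Sym2 V)) : 0 ≤ f3 μ U γ := by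
  unfold f3
  have := ck_nonneg (U := U) μ (γ.card / 2)
  have := one_le_Ac
  split_ifs <;> positivity

lemma f4_nonneg {x : ℝ} (hx : 0 ≤ x) (γ : Finset (Sym2 V)) : 0 ≤ f4 μ U x γ := by
  unfold f4
  have := bC_nonneg (U := U) μ (g2 γ)
  split_ifs <;> positivity

lemma card_supp_le (γ : Finset (Sym2 V)) : (supp γ).card ≤ 2 * γ.card := by
  have h1 : supp γ ⊆ γ.biUnion (fun e => univ.filter (fun v => v ∈ e)) := by
    intro v hv
    obtain ⟨e, he, hve⟩ := mem_supp.mp hv
    exact mem_biUnion.mpr ⟨e, he, by simp only [mem_filter, mem_univ, hve, and_self]⟩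
  have h2 : ∀ e : Sym2 V, (univ.filter (fun v => v ∈ e)).card ≤ 2 := by
    intro e
    induction e with
    | h a b =>
      have : (univ.filter (fun v => v ∈ s(a, b))) = {a, b} := by ext v; simp only [Sym2.mem_iff, mem_filter, mem_univ, true_and, mem_insert, mem_singleton]
      rw [this]; exact card_le_two
  calc (supp γ).card ≤ _ := card_le_card h1
    _ ≤ ∑ e ∈ γ, (univ.filter (fun v => v ∈ e)).card := card_biUnion_le
    _ ≤ ∑ _e ∈ γ, 2 := sum_le_sum fun e _ => h2 e
    _ = 2 * γ.card := by simp [mul_comm]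

lemma calc_gain {Z r n A c : ℝ} (hA : 0 < A) (h : Z ≤ A * r) (hn : 0 ≤ n) (hc : 0 ≤ c) :
    Z * (n / A * c) ≤ n * (c * r) := by
  have h1 : Z * (n / A * c) = (n / A * c) * Z := by ring
  rw [h1]
  calc n / A * c * Z ≤ n / A * c * (A * r) := by
        apply mul_le_mul_of_nonneg_left h
        positivity
    _ = n * (c * r) := by field_simp

lemma calc_suff {Z r n P X w f2 f4 : ℝ} (hZ : 0 < Z) (hr : 0 < r) (hn : 0 ≤ n)
    (hrup : r ≤ P * Z) (hX : |w| ≤ X) (hX2 : n * P * X ≤ f2 + f4) :
    Z * (0 - f2 + 0 - f4) ≤ n * (w * r) := by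
  have hX0 : 0 ≤ X := (abs_nonneg _).trans hX
  have h1 : -(X * (P * Z)) ≤ w * r := by
    have h2 : |w * r| ≤ X * (P * Z) := by
      rw [abs_mul, abs_of_pos hr]
      exact mul_le_mul hX hrup hr.le hX0
    exact (abs_le.mp h2).1
  have h3 : n * -(X * (P * Z)) ≤ n * (w * r) := mul_le_mul_of_nonneg_left h1 hn
  refine le_trans ?_ h3
  have h4 := mul_le_mul_of_nonneg_left hX2 hZ.le
  linarith only [h4]

/-- the two leaf case -/
lemma case_L2 (hU : Good U ε) {x : ℝ} (hx : 0 ≤ x) (hεx : ε ≤ x * (hc / 6))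
    {γ : Finset (Sym2 V)} (hconn : Conn γ) (hloopγ : ∀ e ∈ γ, ¬ e.IsDiag) (hc3 : 3 ≤ γ.card)
    {l₁ l₂ : V} (hne : l₁ ≠ l₂) (hl₁ : dg γ l₁ = 1) (hl₂ : dg γ l₂ = 1) :
    ∃ X, |w μ U γ| ≤ X ∧ (γ.card : ℝ) * Ac ^ (2 * γ.card) * X ≤ f2 μ U x γ + f4 μ U x γ := by
  obtain ⟨y₁, hy₁, hu₁⟩ := exists_of_dg_one hl₁
  obtain ⟨y₂, hy₂, hu₂⟩ := exists_of_dg_one hl₂
  have hly₁ : l₁ ≠ y₁ := by
    intro h; exact hloopγ _ hy₁ (by simp [h])
  have hly₂ : l₂ ≠ y₂ := by
    intro h; exact hloopγ _ hy₂ (by simp [h])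
  have hnee : s(l₁, y₁) ≠ s(l₂, y₂) := by
    intro h
    obtain ⟨e, he, hne', u, hu, hue⟩ := exists_touch hconn (singleton_subset_iff.mpr hy₁)
      (singleton_nonempty _) (by
        intro h; rw [← h, card_singleton] at hc3; omega)
    rw [mem_singleton] at hne'
    obtain ⟨e', he', hue'⟩ := mem_supp.mp hu
    rw [mem_singleton] at he'
    subst he'
    have hl2mem : l₂ ∈ s(l₁, y₁) := by rw [h]; simp
    have hy₁l₂ : y₁ = l₂ := by
      rw [Sym2.mem_iff] at hl2mem
      rcases hl2mem with h1 | h1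
      · exact absurd h1.symm hne
      · exact h1.symm
    rw [Sym2.mem_iff] at hue'
    rcases hue' with h1 | h1
    · subst h1; exact hne' (hu₁ e he hue)
    · rw [h1, hy₁l₂] at hue
      apply hne'
      rw [hu₂ e he hue, h]
  have hw := abs_w_le_dd μ hU hly₁ hly₂ hy₁ hy₂ hu₁ hu₂ hnee
  refine ⟨_, hw, ?_⟩
  have hnum := num_L2 hx hU.pos.le hεx hc3
  have hf4 := f4_nonneg (U := U) μ hx γ
  have hD := dd_nonneg (U := U) μ
  have hf2' : f2 μ U x γ = Kc * dd μ U * x ^ (γ.card - 2) := by unfold f2; rw [if_pos hc3]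
  rw [hf2']
  have h5 := mul_le_mul_of_nonneg_right hnum hD
  linarith only [hf4, h5]

/-- the one leaf case -/
lemma case_L1 (hU : Good U ε) {x : ℝ} (hx : 0 ≤ x) (hεx : ε ≤ x * (hc / 6))
    {γ : Finset (Sym2 V)} (hloopγ : ∀ e ∈ γ, ¬ e.IsDiag) {k : ℕ} {a b : V} {p q : List V}
    (hpres : CycPres γ k a b p q) {l : V} (hl : dg γ l = 1) :
    ∃ X, |w μ U γ| ≤ X ∧ (γ.card : ℝ) * Ac ^ (2 * γ.card) * X ≤
      Kc * dd μ U * x ^ (γ.card - 2) + Bc k * ck μ U k * x ^ (γ.card - 2 * k) := by
  obtain ⟨y, hy, hu⟩ := exists_of_dg_one hl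
  have hk := hpres.hk
  have hly : l ≠ y := by
    intro h; exact hloopγ _ hy (by simp [h])
  have hlnot : l ∉ a :: p ++ b :: q := by
    intro h
    have := hpres.two_le_dg h
    omega
  have hcycnot : s(l, y) ∉ pathEdges a p b ++ pathEdges b q a := by
    intro h
    apply hlnot
    rw [List.mem_append] at h
    simp only [List.cons_append, List.mem_cons, List.mem_append]
    rcases h with h | h
    · have h1 := mem_pathEdges_vertices h l (by simp)
      simp only [List.cons_append, List.mem_cons, List.mem_append, List.not_mem_nil,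
        or_false] at h1
      rcases h1 with h1 | h1 | h1
      · exact Or.inl h1
      · exact Or.inr (Or.inl h1)
      · exact Or.inr (Or.inr (Or.inl h1))
    · have h1 := mem_pathEdges_vertices h l (by simp)
      simp only [List.cons_append, List.mem_cons, List.mem_append, List.not_mem_nil,
        or_false] at h1
      rcases h1 with h1 | h1 | h1
      · exact Or.inr (Or.inr (Or.inl h1))
      · exact Or.inr (Or.inr (Or.inr h1))
      · exact Or.inl h1
  have hn : 2 * k + 1 ≤ γ.card := by
    have h1 : cycEdges a b p q ⊂ γ := by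
      rw [ssubset_iff_of_subset hpres.cycEdges_subset]
      refine ⟨s(l, y), hy, ?_⟩
      intro h
      exact hcycnot (List.mem_toFinset.mp h)
    have h2 := card_lt_card h1
    rw [hpres.card_cycEdges] at h2
    omega
  have h1A := one_le_Ac
  have h1h := one_le_hc
  have hs0 : 0 < Ac ^ 3 * hc := by (clear * - h1A h1h; positivity)
  have hlam : 0 < ε ^ (k - 1) * (Ac ^ 3 * hc) ^ (2 * k) :=
    mul_pos (pow_pos hU.pos _) (pow_pos hs0 _)
  have hw := (abs_w_le_leaf μ hU hpres hly hy hu hcycnot hlam).1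
  refine ⟨_, hw, ?_⟩
  have hnumD := num_L1D hx hU.pos hεx hk hn
  have hnumC := num_L1C hx hU.pos hεx hk hn
  generalize ε ^ (k - 1) * (Ac ^ 3 * hc) ^ (2 * k) = lam at hnumD hnumC
  have hD := dd_nonneg (U := U) μ
  have hck := ck_nonneg (U := U) μ k
  have h5 := mul_le_mul_of_nonneg_right hnumD hD
  have h6 := mul_le_mul_of_nonneg_right hnumC hck
  linarith only [h5, h6]

/-- the no leaf case -/
lemma case_L0 (hU : Good U ε) {x : ℝ} (hx : 0 ≤ x) (hεx : ε ≤ x * (hc / 6))
    {γ : Finset (Sym2 V)} {k : ℕ} {a b : V} {p q : List V}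
    (hpres : CycPres γ k a b p q) (h3k : 3 * k ≤ γ.card) :
    ∃ X, |w μ U γ| ≤ X ∧ (γ.card : ℝ) * Ac ^ (2 * γ.card) * X ≤
      Kc * dd μ U * x ^ (γ.card - 2) + Bc k * ck μ U k * x ^ (γ.card - 2 * k) := by
  have hw := (abs_w_le_ck μ hU hpres).1
  refine ⟨_, hw, ?_⟩
  have hnum := num_L0 hx hU.pos hεx hpres.hk h3k
  have hD := dd_nonneg (U := U) μ
  have hck := ck_nonneg (U := U) μ k
  have h5 := mul_le_mul_of_nonneg_right hnum hck
  have h6 : 0 ≤ Kc * dd μ U * x ^ (γ.card - 2) :=
    mul_nonneg (mul_nonneg Kc_pos.le hD) (pow_nonneg hx _)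
  linarith only [h5, h6]

/-- the lower bound for the contribution of a connected set -/
lemma term_bound (hU : Good U ε) (hε : ε < 1) (hzero : ∫ s, degf μ U s ∂μ = 0)
    {E : Finset (Sym2 V)} (hloop : ∀ e ∈ E, ¬ e.IsDiag) {Δ : ℕ} (hΔ : ∀ v, dg E v ≤ Δ)
    (hA1 : (1 + ε) ^ Δ ≤ Ac) (hA2 : 1 ≤ Ac * (1 - ε) ^ Δ)
    (c : V → Bool) (hcol : ∀ u v, s(u, v) ∈ E → c u ≠ c v)
    {x : ℝ} (hx : 0 ≤ x) (hεx : ε ≤ x * (hc / 6))
    {γ : Finset (Sym2 V)} (hγE : γ ⊆ E) (hconn : Conn γ) :
    Zs μ U E * (f1 μ U γ - f2 μ U x γ + f3 μ U γ - f4 μ U x γ) ≤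
      (γ.card : ℝ) * (w μ U γ * Zs μ U (avoid E (supp γ))) := by
  classical
  have hZ := Zs_pos μ hU hε E
  have hr := Zs_pos μ hU hε (avoid E (supp γ))
  obtain ⟨hr1, hr2⟩ := Zs_ratio μ hU hε hΔ hA1 hA2 (supp γ)
  have hf1 := f1_nonneg (U := U) μ γ
  have hf2 := f2_nonneg (U := U) μ hx γ
  have hf3 := f3_nonneg (U := U) μ γ
  have hf4 := f4_nonneg (U := U) μ hx γ
  have hA := one_le_Ac
  have hloopγ : ∀ e ∈ γ, ¬ e.IsDiag := fun e he => hloop e (hγE he)
  have hD := dd_nonneg (U := U) μ
  have hcardpos : 0 < γ.card := card_pos.mpr hconn.1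
  -- upper bound for the ratio
  have hrup : Zs μ U (avoid E (supp γ)) ≤ Ac ^ (2 * γ.card) * Zs μ U E := by
    refine hr1.trans ?_
    apply mul_le_mul_of_nonneg_right _ hZ.le
    exact pow_le_pow_right₀ hA (card_supp_le γ)
  by_cases hcyc : IsCyc γ
  · -- cycles
    obtain ⟨k, a, b, p, q, hpres, hγ⟩ := id hcyc
    have hk := hpres.hk
    have hcard : γ.card = 2 * k := by rw [hγ]; exact hpres.card_cycEdges
    have hk2 : γ.card / 2 = k := by omega
    have hw : w μ U γ = ck μ U k := by rw [hγ]; exact w_cyc μ hU hpres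
    have hck := ck_nonneg (U := U) μ k
    have hf1' : f1 μ U γ = 0 := by unfold f1; rw [if_neg (by omega)]
    have hf3' : f3 μ U γ = γ.card / Ac ^ γ.card * ck μ U k := by
      unfold f3; rw [if_pos hcyc, hk2]
    have hsupp : (supp γ).card ≤ γ.card := by
      rw [hcard, hγ]; exact hpres.supp_cycEdges
    have hrlo : Zs μ U E ≤ Ac ^ γ.card * Zs μ U (avoid E (supp γ)) := by
      refine hr2.trans ?_
      apply mul_le_mul_of_nonneg_right _ hr.le
      exact pow_le_pow_right₀ hA hsupp
    have hApos : 0 < Ac ^ γ.card := pow_pos (by linarith only [hA]) _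
    have h7 : Zs μ U E * (f1 μ U γ - f2 μ U x γ + f3 μ U γ - f4 μ U x γ) ≤
        Zs μ U E * f3 μ U γ := by
      apply mul_le_mul_of_nonneg_left _ hZ.le
      rw [hf1']; linarith only [hf2, hf4]
    refine h7.trans ?_
    rw [hf3', hw]
    exact calc_gain hApos hrlo (Nat.cast_nonneg _) hck
  have hf3' : f3 μ U γ = 0 := by unfold f3; rw [if_neg hcyc]
  by_cases hc1 : γ.card ≤ 1
  · -- single edges
    have h1 : γ.card = 1 := by omega
    obtain ⟨e, he⟩ := card_eq_one.mp h1
    have hw : w μ U γ = 0 := by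
      have h2 := hloopγ e (by rw [he]; simp)
      rw [he]
      induction e with
      | h a b =>
        rw [Sym2.mk_isDiag_iff] at h2
        exact w_single μ hU hzero h2
    have hf1' : f1 μ U γ = 0 := by unfold f1; rw [if_neg (by omega)]
    rw [hw, zero_mul, mul_zero]
    have : f1 μ U γ - f2 μ U x γ + f3 μ U γ - f4 μ U x γ ≤ 0 := by
      rw [hf1', hf3']; linarith only [hf2, hf4]
    exact mul_nonpos_of_nonneg_of_nonpos hZ.le this
  by_cases hc2 : γ.card = 2
  · -- cherries
    obtain ⟨a, b, u, hau, hbu, hab, hsub⟩ := exists_cherry hconn hloopγ (by omega)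
    have hγ : γ = {s(a, u), s(b, u)} := by
      symm
      apply eq_of_subset_of_card_le hsub
      rw [card_cherry hbu hab, hc2]
    have hw : w μ U γ = dd μ U := by
      rw [hγ]; exact w_cherry μ hU hau hbu hab
    have hsupp : (supp γ).card ≤ 3 := by
      rw [hγ, supp_cherry]; exact card_le_three
    have hrlo : Zs μ U E ≤ Ac ^ 3 * Zs μ U (avoid E (supp γ)) := by
      refine hr2.trans ?_
      apply mul_le_mul_of_nonneg_right _ hr.le
      exact pow_le_pow_right₀ hA hsupp
    have hf1' : f1 μ U γ = 2 / Ac ^ 3 * dd μ U := by unfold f1; rw [if_pos hc2]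
    have h7 : Zs μ U E * (f1 μ U γ - f2 μ U x γ + f3 μ U γ - f4 μ U x γ) ≤
        Zs μ U E * f1 μ U γ := by
      apply mul_le_mul_of_nonneg_left _ hZ.le
      rw [hf3']; linarith only [hf2, hf4]
    refine h7.trans ?_
    rw [hf1', hw, hc2]
    push_cast
    exact calc_gain (pow_pos (by linarith only [hA]) 3) hrlo (by norm_num) hD
  -- at least three edges
  have hc3 : 3 ≤ γ.card := by omega
  have hf1' : f1 μ U γ = 0 := by unfold f1; rw [if_neg hc2]
  have hf2' : f2 μ U x γ = Kc * dd μ U * x ^ (γ.card - 2) := by unfold f2; rw [if_pos hc3]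
  have hsuff : (∃ X, |w μ U γ| ≤ X ∧
      (γ.card : ℝ) * Ac ^ (2 * γ.card) * X ≤ f2 μ U x γ + f4 μ U x γ) →
      Zs μ U E * (f1 μ U γ - f2 μ U x γ + f3 μ U γ - f4 μ U x γ) ≤
      (γ.card : ℝ) * (w μ U γ * Zs μ U (avoid E (supp γ))) := by
    rintro ⟨X, hX, hX2⟩
    rw [hf1', hf3']
    exact calc_suff hZ hr (Nat.cast_nonneg _) hrup hX hX2
  apply hsuff
  by_cases hleaves : ∃ l₁ l₂, l₁ ≠ l₂ ∧ dg γ l₁ = 1 ∧ dg γ l₂ = 1
  · obtain ⟨l₁, l₂, hne, hl₁, hl₂⟩ := hleaves
    exact case_L2 μ hU hx hεx hconn hloopγ hc3 hne hl₁ hl₂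
  -- at most one leaf
  push Not at hleaves
  have hleaf : ∀ u v, dg γ u = 1 → dg γ v = 1 → u = v := by
    intro u v hu hv
    by_contra hne
    exact hleaves u v hne hu hv
  obtain ⟨k₀, a₀, b₀, p₀, q₀, hpres₀, h3k₀⟩ := exists_cycPres γ hconn hloopγ c
    (fun u v h => hcol u v (hγE h)) hleaf
  have hex : ∃ t, CycIn γ t := by
    refine ⟨cycEdges a₀ b₀ p₀ q₀, k₀, a₀, b₀, p₀, q₀, rfl, hpres₀, ?_⟩
    intro hnl
    apply h3k₀ hnl
    intro heq
    exact hcyc ⟨k₀, a₀, b₀, p₀, q₀, hpres₀, heq⟩
  obtain ⟨k, a, b, p, q, hg2, hpres, h3k⟩ := g2_spec hex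
  have hf4' : f4 μ U x γ = bC μ U (g2 γ) * x ^ (γ \ g2 γ).card := by
    unfold f4; rw [if_pos hex]
  have hk := hpres.hk
  have hg2card : (g2 γ).card = 2 * k := by rw [hg2]; exact hpres.card_cycEdges
  have hg2sub : g2 γ ⊆ γ := by rw [hg2]; exact hpres.cycEdges_subset
  have hsd : (γ \ g2 γ).card = γ.card - 2 * k := by
    rw [card_sdiff_of_subset hg2sub, hg2card]
  have hbC : bC μ U (g2 γ) = Bc k * ck μ U k := by
    unfold bC; rw [hg2card]; congr 2 <;> omega
  rw [hbC, hsd] at hf4'
  rw [hf2', hf4']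
  by_cases hl : ∃ l, dg γ l = 1
  · obtain ⟨l, hl⟩ := hl
    exact case_L1 μ hU hx hεx hloopγ hpres hl
  · push Not at hl
    exact case_L0 μ hU hx hεx hpres (h3k hl)

open scoped Classical in
/-- nonnegativity of the derivative -/
theorem sum_card_nonneg (hU : Good U ε) (hε : ε < 1) (hzero : ∫ s, degf μ U s ∂μ = 0)
    {E : Finset (Sym2 V)} (hloop : ∀ e ∈ E, ¬ e.IsDiag) {Δ : ℕ} (hΔ : ∀ v, dg E v ≤ Δ)
    (hA1 : (1 + ε) ^ Δ ≤ Ac) (hA2 : 1 ≤ Ac * (1 - ε) ^ Δ)
    (c : V → Bool) (hcol : ∀ u v, s(u, v) ∈ E → c u ≠ c v)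
    {x y : ℝ} (hx : 0 ≤ x) (hy : 0 ≤ y) (hxy : x * (1 + y) ^ Δ ≤ y) (hyh : (1 + y) ^ Δ ≤ hc)
    (hεx : ε ≤ x * (hc / 6)) :
    0 ≤ ∑ F ∈ E.powerset, (F.card : ℝ) * w μ U F := by
  have hZ := Zs_pos μ hU hε E
  have hA := one_le_Ac
  have hh := one_le_hc
  rw [sum_card_component E (fun F => w μ U F)]
  simp only [sum_union_avoid μ hU]
  set S := E.powerset.filter Conn with hS
  have hSmem : ∀ γ ∈ S, γ ⊆ E ∧ Conn γ := by
    intro γ hγ
    rw [hS, mem_filter, mem_powerset] at hγ
    exact hγ
  have h1 : ∑ γ ∈ S, Zs μ U E * (f1 μ U γ - f2 μ U x γ + f3 μ U γ - f4 μ U x γ) ≤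
      ∑ γ ∈ S, (γ.card : ℝ) * (w μ U γ * Zs μ U (avoid E (supp γ))) :=
    sum_le_sum fun γ hγ => term_bound μ hU hε hzero hloop hΔ hA1 hA2 c hcol hx hεx
      (hSmem γ hγ).1 (hSmem γ hγ).2
  refine le_trans ?_ h1
  rw [← mul_sum]
  apply mul_nonneg hZ.le
  rw [sum_sub_distrib, sum_add_distrib, sum_sub_distrib]
  -- cherries
  have h2 : ∑ γ ∈ S, f2 μ U x γ ≤ ∑ γ ∈ S, f1 μ U γ := by
    unfold f1 f2
    rw [← sum_filter, ← sum_filter]
    have hch : ∀ γ ∈ S.filter (fun γ => 3 ≤ γ.card), ∃ t, ChIn γ t := by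
      intro γ hγ
      rw [mem_filter] at hγ
      obtain ⟨h3, h4⟩ := hSmem γ hγ.1
      obtain ⟨a, b, u, hau, hbu, hab, hsub⟩ := exists_cherry h4 (fun e he => hloop e (h3 he))
        (by omega)
      exact ⟨_, a, b, u, hau, hbu, hab, rfl, hsub⟩
    have key := charge hloop hΔ hx hy hxy hyh (S.filter (fun γ => 3 ≤ γ.card))
      (S.filter (fun γ => γ.card = 2)) (fun γ hγ => hSmem γ (mem_filter.mp hγ).1) g1
      (by
        intro γ hγ
        obtain ⟨a, b, u, hau, hbu, hab, ht, hsub⟩ := g1_spec (hch γ hγ)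
        rw [mem_filter, hS, mem_filter, mem_powerset]
        refine ⟨⟨hsub.trans (hSmem γ (mem_filter.mp hγ).1).1, ?_⟩, ?_⟩
        · rw [ht]; exact conn_cherry hau hbu
        · rw [ht]; exact card_cherry hbu hab)
      (by
        intro γ hγ
        obtain ⟨a, b, u, hau, hbu, hab, ht, hsub⟩ := g1_spec (hch γ hγ)
        refine ⟨hsub, ?_⟩
        rw [ht]; simp)
      (fun γ => Kc * dd μ U * x ^ (γ.card - 2)) (fun _ => Kc * dd μ U)
      (by
        intro γ hγ
        obtain ⟨a, b, u, hau, hbu, hab, ht, hsub⟩ := g1_spec (hch γ hγ)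
        rw [card_sdiff_of_subset hsub]
        have : (g1 γ).card = 2 := by rw [ht]; exact card_cherry hbu hab
        rw [this])
      (fun _ _ => mul_nonneg Kc_pos.le (dd_nonneg μ))
    refine key.trans ?_
    apply sum_le_sum
    intro t ht
    rw [mem_filter] at ht
    obtain ⟨h3, h4⟩ := hSmem t ht.1
    obtain ⟨a, b, u, hau, hbu, hab, hsub⟩ := exists_cherry h4 (fun e he => hloop e (h3 he))
        (by omega)
    have ht' : t = {s(a, u), s(b, u)} := by
      symm
      apply eq_of_subset_of_card_le hsub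
      rw [card_cherry hbu hab, ht.2]
    have hsupp : (supp t).card ≤ 3 := by
      rw [ht', supp_cherry]; exact card_le_three
    have hD := dd_nonneg (U := U) μ
    calc Kc * dd μ U * hc ^ (supp t).card ≤ Kc * dd μ U * hc ^ 3 := by
          apply mul_le_mul_of_nonneg_left _ (mul_nonneg Kc_pos.le hD)
          exact pow_le_pow_right₀ hh hsupp
      _ = 2 / Ac ^ 3 * dd μ U := by
          unfold Kc
          have : hc ≠ 0 := by positivity
          (clear * - this hA; field_simp)
  -- cycles
  have h3 : ∑ γ ∈ S, f4 μ U x γ ≤ ∑ γ ∈ S, f3 μ U γ := by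
    unfold f3 f4
    rw [← sum_filter, ← sum_filter]
    have key := charge hloop hΔ hx hy hxy hyh (S.filter (fun γ => ∃ t, CycIn γ t))
      (S.filter (fun γ => IsCyc γ)) (fun γ hγ => hSmem γ (mem_filter.mp hγ).1) g2
      (by
        intro γ hγ
        rw [mem_filter] at hγ
        obtain ⟨k, a, b, p, q, ht, hpres, _⟩ := g2_spec hγ.2
        rw [mem_filter, hS, mem_filter, mem_powerset]
        refine ⟨⟨?_, ?_⟩, ?_⟩
        · rw [ht]; exact hpres.cycEdges_subset.trans (hSmem γ hγ.1).1
        · rw [ht]; exact hpres.conn_cycEdges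
        · exact ⟨k, a, b, p, q, by rw [ht]; exact hpres.self, ht⟩)
      (by
        intro γ hγ
        rw [mem_filter] at hγ
        obtain ⟨k, a, b, p, q, ht, hpres, _⟩ := g2_spec hγ.2
        rw [ht]
        exact ⟨hpres.cycEdges_subset, hpres.conn_cycEdges.1⟩)
      (fun γ => bC μ U (g2 γ) * x ^ (γ \ g2 γ).card) (fun t => bC μ U t)
      (fun γ _ => le_rfl)
      (fun t _ => bC_nonneg μ t)
    refine key.trans ?_
    apply sum_le_sum
    intro t ht
    rw [mem_filter] at ht
    obtain ⟨k, a, b, p, q, hpres, ht'⟩ := ht.2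
    have hcard : t.card = 2 * k := by rw [ht']; exact hpres.card_cycEdges
    have hk2 : t.card / 2 = k := by omega
    have hsupp : (supp t).card ≤ 2 * k := by rw [ht']; exact hpres.supp_cycEdges
    unfold bC
    rw [hk2, hcard]
    have hck := ck_nonneg (U := U) μ k
    calc Bc k * ck μ U k * hc ^ (supp t).card ≤ Bc k * ck μ U k * hc ^ (2 * k) := by
          apply mul_le_mul_of_nonneg_left _ (mul_nonneg (Bc_nonneg k) hck)
          exact pow_le_pow_right₀ hh hsupp
      _ = ((2 * k : ℕ) : ℝ) / Ac ^ (2 * k) * ck μ U k := by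
          unfold Bc
          rw [mul_pow]
          have : hc ≠ 0 := by positivity
          push_cast
          (clear * - hh hA; field_simp)
  linarith only [h2, h3]

end Vale.Agent.P050
end
end

section

section

open MeasureTheory Finset

namespace Vale.Agent.P050

set_option linter.unusedSectionVars false

variable {V : Type*} [Fintype V] [DecidableEq V] {Ω : Type*} [MeasurableSpace Ω]
variable {U : Sym2 Ω → ℝ} {ε : ℝ}
variable (μ : Measure Ω) [IsProbabilityMeasure μ]

lemma w_scale (s : ℝ) (F : Finset (Sym2 V)) :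
    w μ (fun e => s * U e) F = s ^ F.card * w μ U F := by
  unfold w
  rw [← integral_const_mul]
  congr 1
  ext x
  unfold wt
  rw [prod_mul_distrib, prod_const]

lemma Good.scale (hU : Good U ε) {s : ℝ} (hs0 : 0 ≤ s) (hs1 : s ≤ 1) :
    Good (fun e => s * U e) ε where
  meas := hU.meas.const_mul s
  pos := hU.pos
  bdd := by
    intro e
    rw [abs_mul, abs_of_nonneg hs0]
    have := hU.bdd e
    nlinarith only [this, hs1, abs_nonneg (U e)]

lemma degf_scale (s : ℝ) (t : Ω) : degf μ (fun e => s * U e) t = s * degf μ U t := by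
  unfold degf two
  rw [integral_const_mul]

lemma w_empty : w μ U (∅ : Finset (Sym2 V)) = 1 := by
  unfold w wt
  simp

/-- the density bound, everywhere version -/
theorem one_le_Zs (hU : Good U ε) (hzero : ∫ s, degf μ U s ∂μ = 0)
    {E : Finset (Sym2 V)} (hloop : ∀ e ∈ E, ¬ e.IsDiag) {Δ : ℕ} (hΔ1 : 1 ≤ Δ)
    (hΔ : ∀ v, dg E v ≤ Δ) (hεΔ : ε * Δ ≤ 1 / 24)
    (c : V → Bool) (hcol : ∀ u v, s(u, v) ∈ E → c u ≠ c v) : 1 ≤ Zs μ U E := by
  have hε0 := hU.pos
  have hΔ' : (1:ℝ) ≤ Δ := by exact_mod_cast hΔ1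
  have hε1 : ε < 1 := by nlinarith only [hεΔ, hΔ']
  have hlo : 23 / 24 ≤ (1 - ε) ^ Δ := by
    have h1 := one_add_mul_le_pow (a := -ε) (by linarith only [hε1]) Δ
    have h2 : (1 + -ε) ^ Δ = (1 - ε) ^ Δ := by rw [← sub_eq_add_neg]
    rw [h2] at h1
    linarith
  have hA2 : 1 ≤ Ac * (1 - ε) ^ Δ := by
    unfold Ac; linarith only [hlo]
  have hA1 : (1 + ε) ^ Δ ≤ Ac := by
    have h1 : (1 + ε) ^ Δ * (1 - ε) ^ Δ ≤ 1 := by
      rw [← mul_pow]
      apply pow_le_one₀
      · nlinarith only [hε0, hε1]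
      · nlinarith only [hε0]
    have h2 : 0 < (1 + ε) ^ Δ := pow_pos (by linarith only [hε0]) _
    unfold Ac
    nlinarith only [h1, hlo]
  set y : ℝ := 1 / (4 * Δ) with hy
  set x : ℝ := y / hc with hx
  have hh := one_le_hc
  have hy0 : 0 < y := by rw [hy]; positivity
  have hx0 : 0 < x := by rw [hx]; positivity
  have hyh : (1 + y) ^ Δ ≤ hc := by
    calc (1 + y) ^ Δ ≤ (Real.exp y) ^ Δ := by
          apply pow_le_pow_left₀ (by linarith only [hy0])
          linarith only [Real.add_one_le_exp y]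
      _ = Real.exp (1 / 4) := by
          rw [← Real.exp_nat_mul]
          congr 1
          rw [hy]
          field_simp
      _ = hc := rfl
  have hxy : x * (1 + y) ^ Δ ≤ y := by
    calc x * (1 + y) ^ Δ ≤ x * hc := mul_le_mul_of_nonneg_left hyh hx0.le
      _ = y := by rw [hx]; (clear * - hh hy0; field_simp)
  have hεx : ε ≤ x * (hc / 6) := by
    have h1 : x * (hc / 6) = 1 / (24 * Δ) := by
      rw [hx, hy]; field_simp; norm_num
    rw [h1, le_div_iff₀ (by positivity)]
    linarith only [hεΔ]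
  -- the polynomial
  set q : ℝ → ℝ := fun s => ∑ F ∈ E.powerset, s ^ F.card * w μ U F with hq
  have hderiv : ∀ s, HasDerivAt q
      (∑ F ∈ E.powerset, ((F.card : ℝ) * s ^ (F.card - 1)) * w μ U F) s := by
    intro s
    apply HasDerivAt.fun_sum
    intro F _
    exact (hasDerivAt_pow F.card s).mul_const _
  have hmono : MonotoneOn q (Set.Icc 0 1) := by
    apply monotoneOn_of_deriv_nonneg (convex_Icc 0 1)
    · exact fun s _ => (hderiv s).continuousAt.continuousWithinAt
    · exact fun s _ => (hderiv s).differentiableAt.differentiableWithinAt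
    · intro s hs
      rw [interior_Icc] at hs
      rw [(hderiv s).deriv]
      have hU' := hU.scale hs.1.le hs.2.le
      have hz' : ∫ t, degf μ (fun e => s * U e) t ∂μ = 0 := by
        simp only [degf_scale]
        rw [integral_const_mul, hzero, mul_zero]
      have h1 := sum_card_nonneg μ hU' hε1 hz' hloop hΔ hA1 hA2 c hcol hx0.le hy0.le hxy hyh hεx
      simp only [w_scale] at h1
      have h2 : ∑ F ∈ E.powerset, (F.card : ℝ) * (s ^ F.card * w μ U F) =
          s * ∑ F ∈ E.powerset, ((F.card : ℝ) * s ^ (F.card - 1)) * w μ U F := by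
        rw [mul_sum]
        refine sum_congr rfl fun F _ => ?_
        rcases Nat.eq_zero_or_pos F.card with h | h
        · rw [h]; simp
        · have : s ^ F.card = s * s ^ (F.card - 1) := by
            rw [← pow_succ']; congr 1; omega
          rw [this]; ring
      rw [h2] at h1
      exact nonneg_of_mul_nonneg_right h1 hs.1
  have h01 : q 0 ≤ q 1 := hmono (by simp only [Set.mem_Icc, Std.le_refl, zero_le_one, and_self]) (by simp only [Set.mem_Icc, zero_le_one, Std.le_refl, and_self]) zero_le_one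
  have hq1 : q 1 = Zs μ U E := by
    simp [hq, Zs]
  have hq0 : q 0 = 1 := by
    simp only [hq]
    rw [sum_eq_single (∅ : Finset (Sym2 V))]
    · rw [w_empty]; simp
    · intro F _ hF
      rw [zero_pow, zero_mul]
      rw [Ne, card_eq_zero]
      exact hF
    · intro h
      exact absurd (empty_mem_powerset E) h
  rw [hq1, hq0] at h01
  exact h01

end Vale.Agent.P050
end
end

section

section

open MeasureTheory Finset

namespace Vale.Agent.P050

set_option linter.unusedSectionVars false

variable {V : Type*} [Fintype V] [DecidableEq V] {Ω : Type*} [MeasurableSpace Ω]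
variable (μ : Measure Ω) [IsProbabilityMeasure μ]

/-- the value of the kernel on an edge -/
def ev (W : Ω → Ω → ℝ) (hsymm : ∀ s t, W s t = W t s) (x : V → Ω) (e : Sym2 V) : ℝ :=
  Sym2.lift ⟨fun u v => W (x u) (x v), fun u v => hsymm (x u) (x v)⟩ e

lemma dg_edgeFinset (H : SimpleGraph V) [DecidableRel H.Adj] (v : V) :
    dg H.edgeFinset v = H.degree v := by
  unfold dg
  rw [← SimpleGraph.card_incidenceFinset_eq_degree, SimpleGraph.incidenceFinset_eq_filter]

lemma ae_eval2 {a b : V} (hab : a ≠ b) {N : Set (Ω × Ω)} (hN : MeasurableSet N)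
    (h0 : (μ.prod μ) N = 0) : ∀ᵐ x ∂(piM V μ), (x a, x b) ∉ N := by
  have hm : Measurable (fun x : V → Ω => (x a, x b)) :=
    (measurable_pi_apply a).prodMk (measurable_pi_apply b)
  have hbm : BM (Function.uncurry (fun s t : Ω => N.indicator (fun _ => (1:ℝ)) (s, t))) := by
    refine ⟨(measurable_const.indicator hN), 1, ?_⟩
    intro z
    simp only [Function.uncurry]
    by_cases h : (z.1, z.2) ∈ N
    · rw [Set.indicator_of_mem h]; simp
    · rw [Set.indicator_of_notMem h]; simp only [abs_zero, zero_le_one]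
  have h1 := integral_eval2 μ hab (V := V) hbm
  have h2 : ∫ s, ∫ t, N.indicator (fun _ => (1:ℝ)) (s, t) ∂μ ∂μ = 0 := by
    rw [← integral_prod (fun z : Ω × Ω => N.indicator (fun _ => (1:ℝ)) z)
      ((hbm).integrable _), integral_indicator hN]
    simp [Measure.restrict_eq_zero.mpr h0]
  rw [h2] at h1
  have h3 : (fun x : V → Ω => N.indicator (fun _ => (1:ℝ)) (x a, x b)) =
      ((fun x : V → Ω => (x a, x b)) ⁻¹' N).indicator (fun _ => (1:ℝ)) := by
    ext x
    by_cases h : (x a, x b) ∈ N
    · have h' : x ∈ (fun x : V → Ω => (x a, x b)) ⁻¹' N := h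
      rw [Set.indicator_of_mem h, Set.indicator_of_mem h']
    · have h' : x ∉ (fun x : V → Ω => (x a, x b)) ⁻¹' N := h
      rw [Set.indicator_of_notMem h, Set.indicator_of_notMem h']
  rw [h3, integral_indicator (hm hN)] at h1
  simp only [integral_const, smul_eq_mul, mul_one, MeasurableSet.univ, measureReal_restrict_apply,
    Set.univ_inter] at h1
  rw [ae_iff]
  have h4 : {x : V → Ω | ¬ (x a, x b) ∉ N} = (fun x : V → Ω => (x a, x b)) ⁻¹' N := by
    ext x; simp
  rw [h4]
  exact (measureReal_eq_zero_iff (measure_ne_top _ _)).mp h1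

/-- local Sidorenko inequality, everywhere version -/
theorem local_sidorenko_aux (H : SimpleGraph V) [DecidableRel H.Adj] (hH : H.IsBipartite)
    (W : Ω → Ω → ℝ) (hsymm : ∀ s t, W s t = W t s) (hmeas : Measurable (Function.uncurry W))
    {p : ℝ} (hp : 0 < p) (hint : ∫ s, ∫ t, W s t ∂μ ∂μ = p)
    (hclose : ∀ s t, |W s t - p| ≤ p / (24 * H.maxDegree)) (hΔ : 1 ≤ H.maxDegree) :
    p ^ H.edgeFinset.card ≤ ∫ x, ∏ e ∈ H.edgeFinset, ev W hsymm x e ∂(piM V μ) := by
  obtain ⟨C⟩ := hH
  set c : V → Bool := fun v => decide (C v = 0) with hc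
  have hcol : ∀ u v, s(u, v) ∈ H.edgeFinset → c u ≠ c v := by
    intro u v h
    rw [SimpleGraph.mem_edgeFinset, SimpleGraph.mem_edgeSet] at h
    have h1 := C.valid h
    simp only [hc]
    intro h2
    apply h1
    have h3 := C u |>.is_lt
    have h4 := C v |>.is_lt
    rw [decide_eq_decide] at h2
    ext
    by_cases h5 : C u = 0
    · rw [h5, h2.mp h5]
    · have h6 : C v ≠ 0 := fun h => h5 (h2.mpr h)
      have h7 : (C u : ℕ) ≠ 0 := fun h => h5 (Fin.ext h)
      have h8 : (C v : ℕ) ≠ 0 := fun h => h6 (Fin.ext h)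
      omega
  have hD0 : (0:ℝ) < H.maxDegree := by exact_mod_cast hΔ
  set ε : ℝ := 1 / (24 * H.maxDegree) with hε
  set U : Sym2 Ω → ℝ := fun e =>
    Sym2.lift ⟨fun s t => W s t / p - 1, fun s t => by
      show W s t / p - 1 = W t s / p - 1
      rw [hsymm s t]⟩ e with hU
  have htwo : ∀ s t, two U s t = W s t / p - 1 := fun s t => by
    unfold two; simp only [hU, Sym2.lift_mk]
  have hG : Good U ε := by
    refine ⟨?_, by rw [hε]; positivity, ?_⟩
    · have : Function.uncurry (two U) = fun z => Function.uncurry W z / p - 1 := by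
        ext z; simp only [Function.uncurry, htwo]
      rw [this]
      exact (hmeas.div_const p).sub_const 1
    · intro e
      induction e with
      | h s t =>
        show |two U s t| ≤ ε
        rw [htwo]
        have h1 : W s t / p - 1 = (W s t - p) / p := by (clear * - hp; field_simp)
        rw [h1, abs_div, abs_of_pos hp, div_le_iff₀ hp]
        refine (hclose s t).trans (le_of_eq ?_)
        rw [hε]; ring
  have hbmW : BM (Function.uncurry W) := by
    refine ⟨hmeas, p / (24 * H.maxDegree) + p, ?_⟩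
    intro z
    have h1 := hclose z.1 z.2
    have h2 : |Function.uncurry W z| ≤ |W z.1 z.2 - p| + |p| := by
      have : Function.uncurry W z = (W z.1 z.2 - p) + p := by simp [Function.uncurry]
      rw [this]; exact abs_add_le _ _
    rw [abs_of_pos hp] at h2
    linarith only [h1, h2]
  have hzero : ∫ s, degf μ U s ∂μ = 0 := by
    have h1 : ∀ s, degf μ U s = (∫ t, W s t ∂μ) / p - 1 := by
      intro s
      unfold degf
      simp only [htwo]
      have h2 : Integrable (fun t => W s t) μ :=
        (hbmW.comp (g := fun t : Ω => (s, t)) measurable_prodMk_left).integrable _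
      rw [integral_sub (h2.div_const p) (integrable_const _), integral_div]
      simp
    simp only [h1]
    have h3 : Integrable (fun s => ∫ t, W s t ∂μ) μ := (hbmW.integral_right μ).integrable _
    rw [integral_sub (h3.div_const p) (integrable_const _), integral_div, hint]
    simp [hp.ne']
  have hloop : ∀ e ∈ H.edgeFinset, ¬ e.IsDiag := by
    intro e he
    rw [SimpleGraph.mem_edgeFinset] at he
    exact H.not_isDiag_of_mem_edgeSet he
  have key := one_le_Zs μ hG hzero (E := H.edgeFinset) hloop hΔ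
    (fun v => by rw [dg_edgeFinset]; exact H.degree_le_maxDegree v)
    (by rw [hε]; field_simp; norm_num) c hcol
  rw [Zs_eq μ hG] at key
  have h5 : ∀ x : V → Ω, ∏ e ∈ H.edgeFinset, ev W hsymm x e =
      p ^ H.edgeFinset.card * ∏ e ∈ H.edgeFinset, (1 + U (e.map x)) := by
    intro x
    rw [← prod_const, ← prod_mul_distrib]
    refine prod_congr rfl fun e _ => ?_
    induction e with
    | h u v =>
      simp only [ev, hU, Sym2.map_mk, Sym2.lift_mk]
      field_simp
      ring
  simp only [h5]
  rw [integral_const_mul]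
  exact le_mul_of_one_le_right (pow_nonneg hp.le _) key

/-- local Sidorenko inequality -/
theorem local_sidorenko (H : SimpleGraph V) [DecidableRel H.Adj] (hH : H.IsBipartite)
    (W : Ω → Ω → ℝ) (hsymm : ∀ s t, W s t = W t s) (hmeas : Measurable (Function.uncurry W))
    {p : ℝ} (hp : 0 < p) (hint : ∫ s, ∫ t, W s t ∂μ ∂μ = p)
    (hclose : ∀ᵐ z ∂(μ.prod μ), |W z.1 z.2 - p| ≤ p / (24 * H.maxDegree)) :
    p ^ H.edgeFinset.card ≤ ∫ x, ∏ e ∈ H.edgeFinset, ev W hsymm x e ∂(piM V μ) := by
  classical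
  rcases Nat.eq_zero_or_pos H.maxDegree with h0 | hΔ
  · -- no edges
    have hE : H.edgeFinset = ∅ := by
      rw [eq_empty_iff_forall_notMem]
      intro e he
      induction e with
      | h u v =>
        rw [SimpleGraph.mem_edgeFinset, SimpleGraph.mem_edgeSet] at he
        have h1 := H.degree_le_maxDegree u
        have h2 : 0 < H.degree u := (H.degree_pos_iff_exists_adj u).mpr ⟨v, he⟩
        omega
    simp [hE]
  set r := p / (24 * H.maxDegree) with hr
  have hr0 : 0 < r := by
    have : (0:ℝ) < H.maxDegree := by exact_mod_cast hΔ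
    rw [hr]; positivity
  set W' : Ω → Ω → ℝ := fun s t => if |W s t - p| ≤ r then W s t else p with hW'
  have hsymm' : ∀ s t, W' s t = W' t s := by
    intro s t; simp only [hW', hsymm s t]
  have hmeas' : Measurable (Function.uncurry W') := by
    have : Function.uncurry W' = fun z => if |Function.uncurry W z - p| ≤ r then
        Function.uncurry W z else p := by
      ext z
      show (if |W z.1 z.2 - p| ≤ r then W z.1 z.2 else p) =
        if |Function.uncurry W z - p| ≤ r then Function.uncurry W z else p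
      by_cases h : |Function.uncurry W z - p| ≤ r
      · have h' : |W z.1 z.2 - p| ≤ r := h
        rw [if_pos h, if_pos h']; rfl
      · have h' : ¬ |W z.1 z.2 - p| ≤ r := h
        rw [if_neg h, if_neg h']
    rw [this]
    apply Measurable.ite _ hmeas measurable_const
    exact measurableSet_le (hmeas.sub_const p).abs measurable_const
  set N : Set (Ω × Ω) := {z | ¬ |Function.uncurry W z - p| ≤ r} with hN
  have hNm : MeasurableSet N :=
    (measurableSet_le (hmeas.sub_const p).abs measurable_const).compl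
  have hN0 : (μ.prod μ) N = 0 := by
    rw [ae_iff] at hclose
    exact hclose
  have hWW : ∀ s t, (s, t) ∉ N → W' s t = W s t := by
    intro s t h
    simp only [hN, Set.mem_ofPred_eq, not_not, Function.uncurry] at h
    simp only [hW', if_pos h]
  have hint' : ∫ s, ∫ t, W' s t ∂μ ∂μ = p := by
    rw [← hint]
    have h1 : ∀ᵐ s ∂μ, ∀ᵐ t ∂μ, (s, t) ∉ N := by
      have : ∀ᵐ z ∂(μ.prod μ), z ∉ N := by
        rw [ae_iff]; simpa only [Decidable.not_not, Set.ofPred_mem_eq] using hN0
      exact Measure.ae_ae_of_ae_prod this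
    apply integral_congr_ae
    filter_upwards [h1] with s hs
    apply integral_congr_ae
    filter_upwards [hs] with t ht
    exact hWW s t ht
  have key := local_sidorenko_aux μ H hH W' hsymm' hmeas' hp hint' (by
    intro s t
    simp only [hW']
    split_ifs with h
    · exact h
    · rw [sub_self, abs_zero]; exact hr0.le) hΔ
  refine key.trans (le_of_eq ?_)
  apply integral_congr_ae
  have h2 : ∀ᵐ x ∂(piM V μ), ∀ e ∈ H.edgeFinset, ev W' hsymm' x e = ev W hsymm x e := by
    rw [Finset.eventually_all]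
    intro e he
    induction e with
    | h u v =>
      have huv : u ≠ v := by
        rw [SimpleGraph.mem_edgeFinset, SimpleGraph.mem_edgeSet] at he
        exact he.ne
      filter_upwards [ae_eval2 μ huv hNm hN0] with x hx
      exact hWW _ _ hx
  filter_upwards [h2] with x hx
  exact prod_congr rfl hx

end Vale.Agent.P050
end
end

section

section

open MeasureTheory Finset

namespace Vale.Agent.P050

set_option linter.unusedSectionVars false

section uniform

variable {X : Type*} [Fintype X] [Nonempty X] [MeasurableSpace X] [MeasurableSingletonClass X]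

/-- uniform probability measure on a finite type -/
noncomputable def unif (X : Type*) [Fintype X] [MeasurableSpace X] : Measure X :=
  ((Fintype.card X : ENNReal)⁻¹) • Measure.count

lemma unif_singleton (x : X) : (unif X) {x} = (Fintype.card X : ENNReal)⁻¹ := by
  unfold unif
  rw [Measure.smul_apply, Measure.count_singleton, smul_eq_mul, mul_one]

instance : IsProbabilityMeasure (unif X) := by
  constructor
  unfold unif
  rw [Measure.smul_apply, Measure.count_univ, smul_eq_mul]
  have h : (ENat.card X) = (Fintype.card X : ℕ∞) := ENat.card_eq_coe_fintype_card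
  rw [h]
  have h2 : ((Fintype.card X : ℕ∞) : ENNReal) = (Fintype.card X : ENNReal) := by simp
  rw [h2]
  apply ENNReal.inv_mul_cancel
  · simp
  · simp

lemma integral_unif (f : X → ℝ) :
    ∫ x, f x ∂(unif X) = (∑ x, f x) / Fintype.card X := by
  rw [integral_fintype (Integrable.of_finite)]
  have h : ∀ x, (unif X).real {x} = (Fintype.card X : ℝ)⁻¹ := by
    intro x
    rw [Measure.real, unif_singleton]
    simp
  simp only [h, smul_eq_mul]
  rw [← mul_sum]
  field_simp

lemma integral_pi_unif {V : Type*} [Fintype V] [DecidableEq V] (f : (V → X) → ℝ) :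
    ∫ x, f x ∂(piM V (unif X)) = (∑ x, f x) / (Fintype.card X : ℝ) ^ Fintype.card V := by
  rw [integral_fintype (Integrable.of_finite)]
  have h : ∀ x : V → X, (piM V (unif X)).real {x} =
      ((Fintype.card X : ℝ) ^ Fintype.card V)⁻¹ := by
    intro x
    rw [Measure.real, Measure.pi_singleton]
    simp only [unif_singleton, prod_const, card_univ]
    simp only [ENNReal.toReal_pow, ENNReal.toReal_inv, ENNReal.toReal_natCast, inv_pow]
  simp only [h, smul_eq_mul]
  rw [← mul_sum]
  field_simp

end uniform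

/-- number of maps `V → X` sending every edge of `F` to an edge of `G` -/
def homCount {V X : Type*} [Fintype V] [DecidableEq V] [Fintype X]
    (F : Finset (Sym2 V)) (G : SimpleGraph X) [DecidableRel G.Adj] : ℕ :=
  (univ.filter (fun φ : V → X => ∀ e ∈ F, e.map φ ∈ G.edgeSet)).card

/-- the interpolated inequality for finite graphs -/
theorem average_sidorenko {V X : Type*} [Fintype V] [DecidableEq V] [Fintype X]
    [Nonempty X] (H : SimpleGraph V) [DecidableRel H.Adj] (hH : H.IsBipartite)
    (G : SimpleGraph X) [DecidableRel G.Adj] (θ : ℝ) (hθ0 : 0 ≤ θ)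
    (hθ : θ * (24 * H.maxDegree + 1) ≤ 1) :
    (1 - θ + θ * (2 * G.edgeFinset.card / (Fintype.card X : ℝ) ^ 2)) ^ H.edgeFinset.card ≤
      ∑ F ∈ H.edgeFinset.powerset, θ ^ F.card * (1 - θ) ^ (H.edgeFinset.card - F.card) *
        ((homCount F G : ℝ) / (Fintype.card X : ℝ) ^ Fintype.card V) := by
  classical
  let _ : MeasurableSpace X := ⊤
  have _ : MeasurableSingletonClass X := ⟨fun _ => trivial⟩
  set n : ℝ := (Fintype.card X : ℝ) with hn
  have hn0 : 0 < n := by
    rw [hn]; exact_mod_cast Fintype.card_pos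
  set A : X → X → ℝ := fun s t => if G.Adj s t then 1 else 0 with hA
  have hAsymm : ∀ s t, A s t = A t s := by
    intro s t; simp only [hA, G.adj_comm]
  have hA01 : ∀ s t, 0 ≤ A s t ∧ A s t ≤ 1 := by
    intro s t; simp only [hA]; split_ifs <;> norm_num
  set W : X → X → ℝ := fun s t => θ * A s t + (1 - θ) with hW
  have hsymm : ∀ s t, W s t = W t s := by
    intro s t; simp only [hW, hAsymm s t]
  have hmeas : Measurable (Function.uncurry W) := measurable_of_finite _
  set p : ℝ := 2 * G.edgeFinset.card / n ^ 2 with hp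
  have hsumA : ∑ s, ∑ t, A s t = 2 * G.edgeFinset.card := by
    have h1 : ∀ s, ∑ t, A s t = (G.degree s : ℝ) := by
      intro s
      simp only [hA]
      rw [sum_boole, ← SimpleGraph.card_neighborFinset_eq_degree]
      congr 2
      ext t
      simp only [mem_filter, mem_univ, true_and, SimpleGraph.mem_neighborFinset]
    simp only [h1]
    have := G.sum_degrees_eq_twice_card_edges
    exact_mod_cast this
  have hp0 : 0 ≤ p := by rw [hp]; (clear hH θ hθ0 hθ hn hn0 A hA hAsymm hA01 W hW hsymm hmeas p hp hsumA; positivity)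
  have hp1 : p ≤ 1 := by
    rw [hp, div_le_one (by positivity), ← hsumA]
    calc ∑ s, ∑ t, A s t ≤ ∑ _s : X, ∑ _t : X, (1:ℝ) :=
          sum_le_sum fun s _ => sum_le_sum fun t _ => (hA01 s t).2
      _ = n ^ 2 := by simp only [sum_const, card_univ, nsmul_eq_mul, mul_one, hn, sq]
  have hint : ∫ s, ∫ t, W s t ∂(unif X) ∂(unif X) = 1 - θ + θ * p := by
    simp only [integral_unif, hW]
    have h1 : ∀ s, (∑ t, (θ * A s t + (1 - θ))) / n = θ * (∑ t, A s t) / n + (1 - θ) := by
      intro s
      rw [sum_add_distrib, ← mul_sum, sum_const, card_univ, nsmul_eq_mul, ← hn]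
      (clear * - hn0; field_simp)
    simp only [← hn, h1]
    rw [sum_add_distrib, sum_const, card_univ, nsmul_eq_mul, ← hn, ← sum_div, ← mul_sum, hsumA, hp]
    field_simp
    ring
  have hD : (0:ℝ) ≤ H.maxDegree := Nat.cast_nonneg _
  have hθ1 : θ ≤ 1 := by nlinarith only [hθ]
  rcases Nat.eq_zero_or_pos H.maxDegree with h0 | hΔ
  · -- no edges
    have hE : H.edgeFinset = ∅ := by
      rw [eq_empty_iff_forall_notMem]
      intro e he
      induction e with
      | h u v =>
        rw [SimpleGraph.mem_edgeFinset, SimpleGraph.mem_edgeSet] at he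
        have h1 := H.degree_le_maxDegree u
        have h2 : 0 < H.degree u := (H.degree_pos_iff_exists_adj u).mpr ⟨v, he⟩
        omega
    have hc : homCount (∅ : Finset (Sym2 V)) G = Fintype.card X ^ Fintype.card V := by
      unfold homCount
      simp only [notMem_empty, IsEmpty.forall_iff, implies_true, filter_true, card_univ, Fintype.card_pi, prod_const]
    rw [hE]
    simp only [card_empty, pow_zero, powerset_empty, sum_singleton, Nat.sub_self,
      one_mul, hc]
    push_cast
    rw [← hn, div_self (by positivity)]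
  have hD1 : (1:ℝ) ≤ H.maxDegree := by exact_mod_cast hΔ
  have hθ2 : θ < 1 := by nlinarith only [hθ, hD1]
  have hq0 : 0 < 1 - θ + θ * p := by nlinarith only [hθ2, hθ0, hp0]
  have hclose : ∀ᵐ z ∂((unif X).prod (unif X)),
      |W z.1 z.2 - (1 - θ + θ * p)| ≤ (1 - θ + θ * p) / (24 * H.maxDegree) := by
    apply Filter.Eventually.of_forall
    intro z
    have h1 : W z.1 z.2 - (1 - θ + θ * p) = θ * (A z.1 z.2 - p) := by
      simp only [hW]; ring
    have h2 : |A z.1 z.2 - p| ≤ 1 := by
      rw [abs_le]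
      have := hA01 z.1 z.2
      constructor <;> linarith only [hp0, this, hp1]
    rw [h1, abs_mul, abs_of_nonneg hθ0, le_div_iff₀ (by positivity)]
    have h3 : θ * |A z.1 z.2 - p| ≤ θ := mul_le_of_le_one_right hθ0 h2
    have h4 : θ * |A z.1 z.2 - p| * (24 * H.maxDegree) ≤ θ * (24 * H.maxDegree) :=
      mul_le_mul_of_nonneg_right h3 (by positivity)
    nlinarith only [hθ, h4, hθ0, hp0]
  have key := local_sidorenko (unif X) H hH W hsymm hmeas hq0 hint hclose
  refine key.trans (le_of_eq ?_)
  rw [integral_pi_unif]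
  have hexp : ∀ x : V → X, ∏ e ∈ H.edgeFinset, ev W hsymm x e =
      ∑ F ∈ H.edgeFinset.powerset, θ ^ F.card * (1 - θ) ^ (H.edgeFinset.card - F.card) *
        (if ∀ e ∈ F, e.map x ∈ G.edgeSet then 1 else 0) := by
    intro x
    have h1 : ∀ e ∈ H.edgeFinset, ev W hsymm x e =
        θ * (if e.map x ∈ G.edgeSet then 1 else 0) + (1 - θ) := by
      intro e _
      induction e with
      | h u v =>
        simp only [ev, hW, hA, Sym2.lift_mk, Sym2.map_mk, SimpleGraph.mem_edgeSet]
    rw [prod_congr rfl h1, prod_add]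
    refine sum_congr rfl fun F hF => ?_
    rw [mem_powerset] at hF
    rw [prod_mul_distrib, prod_const, prod_const, card_sdiff_of_subset hF]
    have h2 : ∏ e ∈ F, (if e.map x ∈ G.edgeSet then (1:ℝ) else 0) =
        if ∀ e ∈ F, e.map x ∈ G.edgeSet then 1 else 0 := by
      rw [prod_ite_zero]
      simp only [prod_const_one]
    rw [h2]
    ring
  simp only [hexp]
  rw [sum_comm, sum_div]
  refine sum_congr rfl fun F _ => ?_
  rw [← mul_sum, sum_boole, mul_div_assoc]
  rfl

end Vale.Agent.P050
end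
end

section

section

/-!
Targets with a monotone system of reflections: adding an edge to a bipartite graph
multiplies the weighted number of homomorphisms by at least the density of the target.
-/

open Finset

namespace Vale.Agent.P050

variable {A B X Y ι : Type*} [Fintype A] [Fintype B] [Fintype X] [Fintype Y]
  [DecidableEq A] [DecidableEq B]

/-- weighted number of homomorphisms from the bigraph `E` (sides `A` and `B`) to the weighted
bigraph `W` (sides `X` and `Y`) -/
noncomputable def bihom {A B X Y : Type*} [Fintype A] [Fintype B] [Fintype X] [Fintype Y]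
    [DecidableEq A] [DecidableEq B]
    (W : X → Y → ℝ) (E : Finset (A × B)) : ℝ :=
  ∑ φ : A → X, ∑ ψ : B → Y, ∏ e ∈ E, W (φ e.1) (ψ e.2)

/-- `sX i`, `sY i` are involutions preserving `W`, with positive sides `PX i`, `PY i`; points that
are in no side are fixed; `W` decreases when one of two points in the positive sides is
reflected. -/
structure Reflections {X Y ι : Type*} (W : X → Y → ℝ) (sX : ι → X → X) (sY : ι → Y → Y)
    (PX : ι → Set X) (PY : ι → Set Y) : Prop where
  invX : ∀ i x, sX i (sX i x) = x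
  invY : ∀ i y, sY i (sY i y) = y
  sideX : ∀ i x, x ∈ PX i → sX i x ∉ PX i
  sideY : ∀ i y, y ∈ PY i → sY i y ∉ PY i
  fixX : ∀ i x, x ∉ PX i → sX i x ∉ PX i → sX i x = x
  fixY : ∀ i y, y ∉ PY i → sY i y ∉ PY i → sY i y = y
  symm : ∀ i x y, W (sX i x) (sY i y) = W x y
  mono : ∀ i x y, x ∈ PX i → y ∈ PY i → W x (sY i y) ≤ W x y

section sign

open Classical in
/-- the side of a point: `1`, `-1` or `0` -/
noncomputable def sgn {X : Type*} (s : X → X) (P : Set X) (x : X) : ℝ :=
  if x ∈ P then 1 else if s x ∈ P then -1 else 0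

lemma sgn_flip {X : Type*} {s : X → X} {P : Set X} (h1 : ∀ x, s (s x) = x)
    (h2 : ∀ x, x ∈ P → s x ∉ P) (x : X) : sgn s P (s x) = - sgn s P x := by
  unfold sgn
  by_cases hx : x ∈ P
  · have := h2 x hx
    simp [hx, this, h1]
  · by_cases hs : s x ∈ P
    · simp [hx, hs]
    · simp [hx, hs, h1]

lemma sgn_pos {X : Type*} {s : X → X} {P : Set X} {x : X} (h : x ∈ P) : sgn s P x = 1 := by
  simp [sgn, h]

lemma sgn_neg {X : Type*} {s : X → X} {P : Set X} {x : X} (_ : ∀ x, s (s x) = x)
    (h2 : ∀ x, x ∈ P → s x ∉ P) (h : s x ∈ P) : sgn s P x = -1 := by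
  have : x ∉ P := fun hx => h2 x hx h
  simp [sgn, h, this]

end sign

/-- reflect the value at one vertex -/
def flip1 {A X : Type*} [DecidableEq A] (s : X → X) (a : A) (φ : A → X) : A → X :=
  Function.update φ a (s (φ a))

lemma flip1_flip1 {A X : Type*} [DecidableEq A] {s : X → X} (h : ∀ x, s (s x) = x) (a : A)
    (φ : A → X) : flip1 s a (flip1 s a φ) = φ := by
  funext b
  by_cases hb : b = a
  · subst hb; simp [flip1, h]
  · simp [flip1, hb]

/-- reflecting at one vertex, as a permutation of the configurations -/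
def flipEquiv {A X : Type*} [DecidableEq A] {s : X → X} (h : ∀ x, s (s x) = x) (a : A) :
    (A → X) ≃ (A → X) where
  toFun := flip1 s a
  invFun := flip1 s a
  left_inv := flip1_flip1 h a
  right_inv := flip1_flip1 h a

lemma prod_sgn_flip {A X : Type*} [Fintype A] [DecidableEq A] {s : X → X} {P : Set X}
    (h1 : ∀ x, s (s x) = x)
    (h2 : ∀ x, x ∈ P → s x ∉ P) (m : A → ℕ) (a : A) (hm : Odd (m a)) (φ : A → X) :
    ∏ b, sgn s P (flip1 s a φ b) ^ m b = - ∏ b, sgn s P (φ b) ^ m b := by
  rw [← Finset.mul_prod_erase univ _ (mem_univ a), ← Finset.mul_prod_erase univ _ (mem_univ a)]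
  have e1 : sgn s P (flip1 s a φ a) ^ m a = - sgn s P (φ a) ^ m a := by
    simp only [flip1, Function.update_self]
    rw [sgn_flip h1 h2, hm.neg_pow]
  rw [e1, neg_mul]
  congr 2
  apply Finset.prod_congr rfl
  intro b hb
  have : b ≠ a := (Finset.mem_erase.mp hb).1
  simp [flip1, this]

/-- base case: only even powers of the signs survive -/
lemma base_nonneg {s : X → X} {t : Y → Y} {P : Set X} {Q : Set Y}
    (s1 : ∀ x, s (s x) = x) (t1 : ∀ y, t (t y) = y)
    (s2 : ∀ x, x ∈ P → s x ∉ P) (t2 : ∀ y, y ∈ Q → t y ∉ Q)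
    (g : (A → X) → (B → Y) → ℝ) (g0 : ∀ φ ψ, 0 ≤ g φ ψ)
    (gA : ∀ φ ψ a, g (flip1 s a φ) ψ = g φ ψ) (gB : ∀ φ ψ b, g φ (flip1 t b ψ) = g φ ψ)
    (m : A → ℕ) (n : B → ℕ) :
    0 ≤ ∑ φ : A → X, ∑ ψ : B → Y,
      g φ ψ * ((∏ a, sgn s P (φ a) ^ m a) * ∏ b, sgn t Q (ψ b) ^ n b) := by
  by_cases hm : ∃ a, Odd (m a)
  · obtain ⟨a, ha⟩ := hm
    have key : ∑ φ : A → X, ∑ ψ : B → Y,
        g φ ψ * ((∏ a, sgn s P (φ a) ^ m a) * ∏ b, sgn t Q (ψ b) ^ n b) =
        - ∑ φ : A → X, ∑ ψ : B → Y,
        g φ ψ * ((∏ a, sgn s P (φ a) ^ m a) * ∏ b, sgn t Q (ψ b) ^ n b) := by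
      conv_lhs => rw [← Equiv.sum_comp (flipEquiv s1 a)]
      rw [← Finset.sum_neg_distrib]
      apply Finset.sum_congr rfl
      intro φ _
      rw [← Finset.sum_neg_distrib]
      apply Finset.sum_congr rfl
      intro ψ _
      change g (flip1 s a φ) ψ * ((∏ b, sgn s P (flip1 s a φ b) ^ m b) * _) = _
      rw [gA, prod_sgn_flip s1 s2 m a ha]
      ring
    linarith only [key]
  by_cases hn : ∃ b, Odd (n b)
  · obtain ⟨b, hb⟩ := hn
    have key : ∑ φ : A → X, ∑ ψ : B → Y,
        g φ ψ * ((∏ a, sgn s P (φ a) ^ m a) * ∏ b, sgn t Q (ψ b) ^ n b) =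
        - ∑ φ : A → X, ∑ ψ : B → Y,
        g φ ψ * ((∏ a, sgn s P (φ a) ^ m a) * ∏ b, sgn t Q (ψ b) ^ n b) := by
      rw [← Finset.sum_neg_distrib]
      apply Finset.sum_congr rfl
      intro φ _
      conv_lhs => rw [← Equiv.sum_comp (flipEquiv t1 b)]
      rw [← Finset.sum_neg_distrib]
      apply Finset.sum_congr rfl
      intro ψ _
      change g φ (flip1 t b ψ) * (_ * (∏ c, sgn t Q (flip1 t b ψ c) ^ n c)) = _
      rw [gB, prod_sgn_flip t1 t2 n b hb]
      ring
    linarith only [key]
  · push Not at hm hn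
    apply Finset.sum_nonneg
    intro φ _
    apply Finset.sum_nonneg
    intro ψ _
    apply mul_nonneg (g0 _ _)
    apply mul_nonneg
    · apply Finset.prod_nonneg
      intro a _
      exact (Nat.not_odd_iff_even.mp (hm a)).pow_nonneg _
    · apply Finset.prod_nonneg
      intro b _
      exact (Nat.not_odd_iff_even.mp (hn b)).pow_nonneg _

/-- first Griffiths inequality -/
lemma griffiths {s : X → X} {t : Y → Y} {P : Set X} {Q : Set Y} {W : X → Y → ℝ}
    (s1 : ∀ x, s (s x) = x) (t1 : ∀ y, t (t y) = y)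
    (s2 : ∀ x, x ∈ P → s x ∉ P) (t2 : ∀ y, y ∈ Q → t y ∉ Q)
    (s3 : ∀ x, x ∉ P → s x ∉ P → s x = x) (t3 : ∀ y, y ∉ Q → t y ∉ Q → t y = y)
    (hW : ∀ x y, 0 ≤ W x y) (sym : ∀ x y, W (s x) (t y) = W x y)
    (mono : ∀ x y, x ∈ P → y ∈ Q → W x (t y) ≤ W x y)
    (E : Finset (A × B)) :
    ∀ (g : (A → X) → (B → Y) → ℝ) (_ : ∀ φ ψ, 0 ≤ g φ ψ)
    (_ : ∀ φ ψ a, g (flip1 s a φ) ψ = g φ ψ) (_ : ∀ φ ψ b, g φ (flip1 t b ψ) = g φ ψ)
    (m : A → ℕ) (n : B → ℕ),
    0 ≤ ∑ φ : A → X, ∑ ψ : B → Y,
      g φ ψ * ((∏ a, sgn s P (φ a) ^ m a) * ∏ b, sgn t Q (ψ b) ^ n b) *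
        ∏ e ∈ E, W (φ e.1) (ψ e.2) := by
  have sym' : ∀ x y, W (s x) y = W x (t y) := by
    intro x y
    have := sym x (t y)
    rwa [t1] at this
  induction E using Finset.induction_on with
  | empty =>
    intro g g0 gA gB m n
    simpa only [prod_empty, mul_one] using base_nonneg s1 t1 s2 t2 g g0 gA gB m n
  | insert e E he ih =>
    intro g g0 gA gB m n
    obtain ⟨a, b⟩ := e
    set c0 : X → Y → ℝ := fun x y => (W x y + W x (t y)) / 2 with hc0
    set c1 : X → Y → ℝ := fun x y => (W x y - W x (t y)) / 2 * (sgn s P x * sgn t Q y) with hc1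
    have c0pos : ∀ x y, 0 ≤ c0 x y := fun x y => by
      have := hW x y; have := hW x (t y); simp only [hc0]; (clear s P Q s1 t1 s2 t2 s3 t3 sym mono sym' E ih g g0 gA gB m n a b he c0 hc0 c1 hc1; linarith)
    have c0s : ∀ x y, c0 (s x) y = c0 x y := fun x y => by
      simp only [hc0, sym', t1]; ring
    have c0t : ∀ x y, c0 x (t y) = c0 x y := fun x y => by
      simp only [hc0, t1]; ring
    have c1s : ∀ x y, c1 (s x) y = c1 x y := fun x y => by
      simp only [hc1, sym', t1, sgn_flip s1 s2]; ring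
    have c1t : ∀ x y, c1 x (t y) = c1 x y := fun x y => by
      simp only [hc1, t1, sgn_flip t1 t2]; ring
    have c1pos : ∀ x y, 0 ≤ c1 x y := by
      intro x y
      simp only [hc1]
      by_cases hx : x ∈ P
      · rw [sgn_pos hx]
        by_cases hy : y ∈ Q
        · rw [sgn_pos hy]
          have := mono x y hx hy
          linarith only [this]
        · by_cases hy' : t y ∈ Q
          · rw [sgn_neg t1 t2 hy']
            have := mono x (t y) hx hy'
            rw [t1] at this
            linarith only [this]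
          · simp [sgn, hy, hy']
      · by_cases hx' : s x ∈ P
        · rw [sgn_neg s1 s2 hx']
          by_cases hy : y ∈ Q
          · rw [sgn_pos hy]
            have := mono (s x) y hx' hy
            rw [sym, sym'] at this
            linarith only [this]
          · by_cases hy' : t y ∈ Q
            · rw [sgn_neg t1 t2 hy']
              have := mono (s x) (t y) hx' hy'
              rw [t1, sym', sym] at this
              linarith only [this]
            · simp [sgn, hy, hy']
        · simp [sgn, hx, hx']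
    have dec : ∀ x y, W x y = c0 x y + c1 x y * (sgn s P x * sgn t Q y) := by
      intro x y
      simp only [hc0, hc1]
      by_cases hx : x ∈ P
      · rw [sgn_pos hx]
        by_cases hy : y ∈ Q
        · rw [sgn_pos hy]; ring
        · by_cases hy' : t y ∈ Q
          · rw [sgn_neg t1 t2 hy']; ring
          · rw [t3 y hy hy']; ring
      · by_cases hx' : s x ∈ P
        · rw [sgn_neg s1 s2 hx']
          by_cases hy : y ∈ Q
          · rw [sgn_pos hy]; ring
          · by_cases hy' : t y ∈ Q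
            · rw [sgn_neg t1 t2 hy']; ring
            · rw [t3 y hy hy']; ring
        · have e1 : W x (t y) = W x y := by
            have := sym x y
            rwa [s3 x hx hx'] at this
          rw [e1]; ring
    have inv : ∀ (c : X → Y → ℝ), (∀ x y, c (s x) y = c x y) → ∀ (φ : A → X) (ψ : B → Y) a',
        c (flip1 s a' φ a) (ψ b) = c (φ a) (ψ b) := by
      intro c hc φ ψ a'
      by_cases h : a = a'
      · subst h; simp [flip1, hc]
      · simp [flip1, h]
    have inv' : ∀ (c : X → Y → ℝ), (∀ x y, c x (t y) = c x y) → ∀ (φ : A → X) (ψ : B → Y) b',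
        c (φ a) (flip1 t b' ψ b) = c (φ a) (ψ b) := by
      intro c hc φ ψ b'
      by_cases h : b = b'
      · subst h; simp [flip1, hc]
      · simp [flip1, h]
    have I0 := ih (fun φ ψ => g φ ψ * c0 (φ a) (ψ b))
      (fun φ ψ => mul_nonneg (g0 _ _) (c0pos _ _))
      (fun φ ψ a' => by rw [gA, inv c0 c0s])
      (fun φ ψ b' => by rw [gB, inv' c0 c0t]) m n
    have I1 := ih (fun φ ψ => g φ ψ * c1 (φ a) (ψ b))
      (fun φ ψ => mul_nonneg (g0 _ _) (c1pos _ _))
      (fun φ ψ a' => by rw [gA, inv c1 c1s])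
      (fun φ ψ b' => by rw [gB, inv' c1 c1t])
      (Function.update m a (m a + 1)) (Function.update n b (n b + 1))
    have upA : ∀ φ : A → X, ∏ a', sgn s P (φ a') ^ (Function.update m a (m a + 1)) a' =
        (∏ a', sgn s P (φ a') ^ m a') * sgn s P (φ a) := by
      intro φ
      rw [← Finset.mul_prod_erase univ _ (mem_univ a), ← Finset.mul_prod_erase univ _ (mem_univ a)]
      rw [Function.update_self, pow_succ]
      have : ∏ x ∈ univ.erase a, sgn s P (φ x) ^ (Function.update m a (m a + 1)) x =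
          ∏ x ∈ univ.erase a, sgn s P (φ x) ^ m x := by
        apply Finset.prod_congr rfl
        intro x hx
        rw [Function.update_of_ne (Finset.mem_erase.mp hx).1]
      rw [this]; ring
    have upB : ∀ ψ : B → Y, ∏ b', sgn t Q (ψ b') ^ (Function.update n b (n b + 1)) b' =
        (∏ b', sgn t Q (ψ b') ^ n b') * sgn t Q (ψ b) := by
      intro ψ
      rw [← Finset.mul_prod_erase univ _ (mem_univ b), ← Finset.mul_prod_erase univ _ (mem_univ b)]
      rw [Function.update_self, pow_succ]
      have : ∏ x ∈ univ.erase b, sgn t Q (ψ x) ^ (Function.update n b (n b + 1)) x =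
          ∏ x ∈ univ.erase b, sgn t Q (ψ x) ^ n x := by
        apply Finset.prod_congr rfl
        intro x hx
        rw [Function.update_of_ne (Finset.mem_erase.mp hx).1]
      rw [this]; ring
    have tot : ∑ φ : A → X, ∑ ψ : B → Y,
        g φ ψ * ((∏ a, sgn s P (φ a) ^ m a) * ∏ b, sgn t Q (ψ b) ^ n b) *
          ∏ e ∈ insert (a, b) E, W (φ e.1) (ψ e.2) =
        (∑ φ : A → X, ∑ ψ : B → Y, (g φ ψ * c0 (φ a) (ψ b)) *
          ((∏ a, sgn s P (φ a) ^ m a) * ∏ b, sgn t Q (ψ b) ^ n b) *
          ∏ e ∈ E, W (φ e.1) (ψ e.2)) +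
        ∑ φ : A → X, ∑ ψ : B → Y, (g φ ψ * c1 (φ a) (ψ b)) *
          ((∏ a', sgn s P (φ a') ^ (Function.update m a (m a + 1)) a') *
            ∏ b', sgn t Q (ψ b') ^ (Function.update n b (n b + 1)) b') *
          ∏ e ∈ E, W (φ e.1) (ψ e.2) := by
      rw [← Finset.sum_add_distrib]
      apply Finset.sum_congr rfl
      intro φ _
      rw [← Finset.sum_add_distrib]
      apply Finset.sum_congr rfl
      intro ψ _
      rw [Finset.prod_insert he, upA, upB]
      simp only
      rw [dec (φ a) (ψ b)]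
      ring
    rw [tot]
    exact add_nonneg I0 I1


section rho

variable {W : X → Y → ℝ} [DecidableEq X] [DecidableEq Y]

/-- rooted count: `a` is mapped to `x` and `b` to `y` -/
noncomputable def rho (W : X → Y → ℝ) (E : Finset (A × B)) (a : A) (b : B) (x : X) (y : Y) : ℝ :=
  ∑ φ : A → X, ∑ ψ : B → Y,
    (if φ a = x then (1 : ℝ) else 0) * (if ψ b = y then (1 : ℝ) else 0) *
      ∏ e ∈ E, W (φ e.1) (ψ e.2)

lemma rho_symm {s : X → X} {t : Y → Y} (s1 : ∀ x, s (s x) = x) (t1 : ∀ y, t (t y) = y)
    (sym : ∀ x y, W (s x) (t y) = W x y) (E : Finset (A × B)) (a : A) (b : B) (x : X) (y : Y) :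
    rho W E a b (s x) (t y) = rho W E a b x y := by
  unfold rho
  have eA : Function.Involutive (fun φ : A → X => fun c => s (φ c)) := by
    intro φ; funext c; simp [s1]
  have eB : Function.Involutive (fun ψ : B → Y => fun c => t (ψ c)) := by
    intro ψ; funext c; simp [t1]
  rw [← Equiv.sum_comp (eA.toPerm _)]
  apply Finset.sum_congr rfl
  intro φ _
  rw [← Equiv.sum_comp (eB.toPerm _)]
  apply Finset.sum_congr rfl
  intro ψ _
  have h1 : ∀ u v : X, (s u = s v) ↔ u = v := fun u v =>
    ⟨fun h => by rw [← s1 u, h, s1], fun h => by rw [h]⟩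
  have h2 : ∀ u v : Y, (t u = t v) ↔ u = v := fun u v =>
    ⟨fun h => by rw [← t1 u, h, t1], fun h => by rw [h]⟩
  simp only [Function.Involutive.coe_toPerm, h1, h2, sym]

lemma rho_mono {s : X → X} {t : Y → Y} {P : Set X} {Q : Set Y}
    (s1 : ∀ x, s (s x) = x) (t1 : ∀ y, t (t y) = y)
    (s2 : ∀ x, x ∈ P → s x ∉ P) (t2 : ∀ y, y ∈ Q → t y ∉ Q)
    (s3 : ∀ x, x ∉ P → s x ∉ P → s x = x) (t3 : ∀ y, y ∉ Q → t y ∉ Q → t y = y)
    (hW : ∀ x y, 0 ≤ W x y) (sym : ∀ x y, W (s x) (t y) = W x y)
    (mono : ∀ x y, x ∈ P → y ∈ Q → W x (t y) ≤ W x y)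
    (E : Finset (A × B)) (a : A) (b : B) (x : X) (y : Y) (hx : x ∈ P) (hy : y ∈ Q) :
    rho W E a b x (t y) ≤ rho W E a b x y := by
  have hsx : s x ≠ x := fun h => s2 x hx (by rw [h]; exact hx)
  have hty : t y ≠ y := fun h => t2 y hy (by rw [h]; exact hy)
  have inj1 : ∀ u, s u = x ↔ u = s x := fun u =>
    ⟨fun h => by rw [← h, s1], fun h => by rw [h, s1]⟩
  have inj1' : ∀ u, s u = s x ↔ u = x := fun u =>
    ⟨fun h => by rw [← s1 u, h, s1], fun h => by rw [h]⟩
  have inj2 : ∀ u, t u = y ↔ u = t y := fun u =>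
    ⟨fun h => by rw [← h, t1], fun h => by rw [h, t1]⟩
  have inj2' : ∀ u, t u = t y ↔ u = y := fun u =>
    ⟨fun h => by rw [← t1 u, h, t1], fun h => by rw [h]⟩
  have G := griffiths (A := A) (B := B) s1 t1 s2 t2 s3 t3 hW sym mono E
    (fun φ ψ => ((if φ a = x then (1 : ℝ) else 0) + (if φ a = s x then (1 : ℝ) else 0)) *
      ((if ψ b = y then (1 : ℝ) else 0) + (if ψ b = t y then (1 : ℝ) else 0)))
    (fun φ ψ => by (clear * -; positivity))
    (fun φ ψ a' => by
      by_cases h : a = a'
      · subst h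
        simp only [flip1, Function.update_self, inj1, inj1']
        rw [add_comm (if φ a = s x then (1 : ℝ) else 0)]
      · simp [flip1, h])
    (fun φ ψ b' => by
      by_cases h : b = b'
      · subst h
        simp only [flip1, Function.update_self, inj2, inj2']
        rw [add_comm (if ψ b = t y then (1 : ℝ) else 0)]
      · simp [flip1, h])
    (Pi.single a 1) (Pi.single b 1)
  have pA : ∀ φ : A → X, ∏ c, sgn s P (φ c) ^ (Pi.single a 1 : A → ℕ) c = sgn s P (φ a) := by
    intro φ
    rw [Finset.prod_eq_single a]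
    · simp
    · intro c _ hc; simp [hc]
    · simp only [mem_univ, not_true_eq_false, Pi.single_eq_same, pow_one, IsEmpty.forall_iff]
  have pB : ∀ ψ : B → Y, ∏ c, sgn t Q (ψ c) ^ (Pi.single b 1 : B → ℕ) c = sgn t Q (ψ b) := by
    intro ψ
    rw [Finset.prod_eq_single b]
    · simp
    · intro c _ hc; simp [hc]
    · simp only [mem_univ, not_true_eq_false, Pi.single_eq_same, pow_one, IsEmpty.forall_iff]
  have hsgx : sgn s P x = 1 := sgn_pos hx
  have hsgsx : sgn s P (s x) = -1 := by rw [sgn_flip s1 s2, hsgx]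
  have hsgy : sgn t Q y = 1 := sgn_pos hy
  have hsgty : sgn t Q (t y) = -1 := by rw [sgn_flip t1 t2, hsgy]
  have ptA : ∀ φ : A → X,
      ((if φ a = x then (1 : ℝ) else 0) + (if φ a = s x then (1 : ℝ) else 0)) * sgn s P (φ a) =
      (if φ a = x then (1 : ℝ) else 0) - (if φ a = s x then (1 : ℝ) else 0) := by
    intro φ
    by_cases h : φ a = x
    · rw [h, hsgx]; simp [Ne.symm hsx]
    · by_cases h' : φ a = s x
      · rw [h', hsgsx]; simp [hsx]
      · simp [h, h']
  have ptB : ∀ ψ : B → Y,
      ((if ψ b = y then (1 : ℝ) else 0) + (if ψ b = t y then (1 : ℝ) else 0)) * sgn t Q (ψ b) =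
      (if ψ b = y then (1 : ℝ) else 0) - (if ψ b = t y then (1 : ℝ) else 0) := by
    intro ψ
    by_cases h : ψ b = y
    · rw [h, hsgy]; simp [Ne.symm hty]
    · by_cases h' : ψ b = t y
      · rw [h', hsgty]; simp [hty]
      · simp [h, h']
  have E1 : rho W E a b (s x) y = rho W E a b x (t y) := by
    have := rho_symm s1 t1 sym E a b x (t y)
    rwa [t1] at this
  have E2 : rho W E a b (s x) (t y) = rho W E a b x y := rho_symm s1 t1 sym E a b x y
  have tot : ∑ φ : A → X, ∑ ψ : B → Y,
      ((if φ a = x then (1 : ℝ) else 0) + (if φ a = s x then (1 : ℝ) else 0)) *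
      ((if ψ b = y then (1 : ℝ) else 0) + (if ψ b = t y then (1 : ℝ) else 0)) *
      ((∏ c, sgn s P (φ c) ^ (Pi.single a 1 : A → ℕ) c) *
        ∏ c, sgn t Q (ψ c) ^ (Pi.single b 1 : B → ℕ) c) *
      ∏ e ∈ E, W (φ e.1) (ψ e.2) =
      rho W E a b x y - rho W E a b (s x) y - rho W E a b x (t y) + rho W E a b (s x) (t y) := by
    unfold rho
    rw [← Finset.sum_sub_distrib, ← Finset.sum_sub_distrib, ← Finset.sum_add_distrib]
    apply Finset.sum_congr rfl
    intro φ _
    rw [← Finset.sum_sub_distrib, ← Finset.sum_sub_distrib, ← Finset.sum_add_distrib]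
    apply Finset.sum_congr rfl
    intro ψ _
    rw [pA, pB]
    have hA := ptA φ
    have hB := ptB ψ
    calc _ = (((if φ a = x then (1 : ℝ) else 0) + (if φ a = s x then (1 : ℝ) else 0)) *
          sgn s P (φ a)) * (((if ψ b = y then (1 : ℝ) else 0) +
          (if ψ b = t y then (1 : ℝ) else 0)) * sgn t Q (ψ b)) *
          ∏ e ∈ E, W (φ e.1) (ψ e.2) := by ring
      _ = _ := by rw [hA, hB]; ring
  rw [tot, E1, E2] at G
  linarith only [G]

lemma rho_nonneg (hW : ∀ x y, 0 ≤ W x y) (E : Finset (A × B)) (a : A) (b : B) (x : X) (y : Y) :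
    0 ≤ rho W E a b x y := by
  unfold rho
  apply Finset.sum_nonneg; intro φ _
  apply Finset.sum_nonneg; intro ψ _
  apply mul_nonneg (by (clear * -; positivity))
  exact Finset.prod_nonneg (fun e _ => hW _ _)

lemma sum_rho_mul (E : Finset (A × B)) (a : A) (b : B) (f : X → Y → ℝ) :
    ∑ x, ∑ y, rho W E a b x y * f x y =
      ∑ φ : A → X, ∑ ψ : B → Y, f (φ a) (ψ b) * ∏ e ∈ E, W (φ e.1) (ψ e.2) := by
  unfold rho
  calc _ = ∑ x, ∑ y, ∑ φ : A → X, ∑ ψ : B → Y,
        (if φ a = x then (1 : ℝ) else 0) * (if ψ b = y then (1 : ℝ) else 0) *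
        (∏ e ∈ E, W (φ e.1) (ψ e.2)) * f x y := by
        apply Finset.sum_congr rfl; intro x _
        apply Finset.sum_congr rfl; intro y _
        rw [Finset.sum_mul]
        apply Finset.sum_congr rfl; intro φ _
        rw [Finset.sum_mul]
    _ = ∑ φ : A → X, ∑ x, ∑ ψ : B → Y, ∑ y,
        (if φ a = x then (1 : ℝ) else 0) * (if ψ b = y then (1 : ℝ) else 0) *
        (∏ e ∈ E, W (φ e.1) (ψ e.2)) * f x y := by
        rw [Finset.sum_comm]
        rw [Finset.sum_comm (s := (univ : Finset (A → X)))]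
        rw [Finset.sum_comm]
        apply Finset.sum_congr rfl; intro x _
        rw [Finset.sum_comm]
        apply Finset.sum_congr rfl; intro φ _
        rw [Finset.sum_comm]
    _ = _ := by
        apply Finset.sum_congr rfl; intro φ _
        rw [Finset.sum_eq_single (φ a)]
        · apply Finset.sum_congr rfl; intro ψ _
          rw [Finset.sum_eq_single (ψ b)]
          · simp; ring
          · intro y _ hy; simp [Ne.symm hy]
          · simp only [mem_univ, not_true_eq_false, ↓reduceIte, mul_one, one_mul, mul_eq_zero, IsEmpty.forall_iff]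
        · intro x _ hx
          apply Finset.sum_eq_zero; intro ψ _
          apply Finset.sum_eq_zero; intro y _
          simp [Ne.symm hx]
        · simp only [mem_univ, not_true_eq_false, ↓reduceIte, mul_ite, mul_one, mul_zero, ite_mul, one_mul, zero_mul, sum_ite_eq, IsEmpty.forall_iff]

end rho

/-- adding one edge -/
theorem bihom_insert {W : X → Y → ℝ} {sX : ι → X → X} {sY : ι → Y → Y}
    {PX : ι → Set X} {PY : ι → Set Y} (R : Reflections W sX sY PX PY)
    (hW : ∀ x y, 0 ≤ W x y)
    (conn : ∀ x z : X, Relation.ReflTransGen (Step sX PX x) x z)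
    (c : ℝ) (hc : ∀ y, ∑ x, W x y = c)
    (E : Finset (A × B)) (e : A × B) (he : e ∉ E) :
    c * bihom W E ≤ Fintype.card X * bihom W (insert e E) := by
  classical
  obtain ⟨a, b⟩ := e
  -- the potential
  set F : X → X → ℝ := fun x z => ∑ y, rho W E a b x y * W z y with hF
  have sym' : ∀ i x y, W (sX i x) y = W x (sY i y) := by
    intro i x y
    have := R.symm i x (sY i y)
    rwa [R.invY] at this
  have rmono : ∀ i x y, x ∈ PX i → y ∈ PY i → rho W E a b x (sY i y) ≤ rho W E a b x y :=
    fun i x y hx hy => rho_mono (R.invX i) (R.invY i) (R.sideX i) (R.sideY i) (R.fixX i)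
      (R.fixY i) hW (R.symm i) (R.mono i) E a b x y hx hy
  have rsym : ∀ i x y, rho W E a b (sX i x) (sY i y) = rho W E a b x y :=
    fun i x y => rho_symm (R.invX i) (R.invY i) (R.symm i) E a b x y
  have rsym' : ∀ i x y, rho W E a b (sX i x) y = rho W E a b x (sY i y) := by
    intro i x y
    have := rsym i x (sY i y)
    rwa [R.invY] at this
  have step : ∀ x u v, Step sX PX x u v → F x v ≤ F x u := by
    rintro x u v ⟨i, hside, rfl⟩
    have two : 2 * (F x u - F x (sX i u)) =
        ∑ y, (rho W E a b x y - rho W E a b x (sY i y)) * (W u y - W (sX i u) y) := by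
      have h1 : F x u - F x (sX i u) = ∑ y, rho W E a b x y * (W u y - W (sX i u) y) := by
        simp only [hF]
        rw [← Finset.sum_sub_distrib]
        apply Finset.sum_congr rfl; intro y _; ring
      have inv : Function.Involutive (sY i) := R.invY i
      have h2 : F x u - F x (sX i u) = ∑ y, rho W E a b x (sY i y) * (W (sX i u) y - W u y) := by
        rw [h1, ← Equiv.sum_comp (inv.toPerm _)]
        apply Finset.sum_congr rfl; intro y _
        simp only [Function.Involutive.coe_toPerm, sym', R.invY]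
      rw [two_mul]
      nth_rewrite 2 [h2]
      rw [h1, ← Finset.sum_add_distrib]
      apply Finset.sum_congr rfl; intro y _; ring
    have nn : 0 ≤ ∑ y, (rho W E a b x y - rho W E a b x (sY i y)) * (W u y - W (sX i u) y) := by
      apply Finset.sum_nonneg
      intro y _
      rw [sym']
      rcases hside with ⟨hx, hu⟩ | ⟨hx, hu⟩
      · by_cases hy : y ∈ PY i
        · have h1 := rmono i x y hx hy
          have h2 := R.mono i u y hu hy
          exact mul_nonneg (by linarith only [h1]) (by linarith)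
        · by_cases hy' : sY i y ∈ PY i
          · have h1 := rmono i x (sY i y) hx hy'
            have h2 := R.mono i u (sY i y) hu hy'
            rw [R.invY] at h1 h2
            exact mul_nonneg_of_nonpos_of_nonpos (by linarith) (by linarith)
          · rw [R.fixY i y hy hy']; simp
      · by_cases hy : y ∈ PY i
        · have h1 := rmono i (sX i x) y hx hy
          have h2 := R.mono i (sX i u) y hu hy
          rw [rsym, rsym'] at h1
          rw [R.symm, sym'] at h2
          exact mul_nonneg_of_nonpos_of_nonpos (by linarith) (by linarith)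
        · by_cases hy' : sY i y ∈ PY i
          · have h1 := rmono i (sX i x) (sY i y) hx hy'
            have h2 := R.mono i (sX i u) (sY i y) hu hy'
            rw [rsym, rsym', R.invY] at h1
            rw [R.symm, sym', R.invY] at h2
            exact mul_nonneg (by linarith only [h1]) (by linarith)
          · rw [R.fixY i y hy hy']; simp
    linarith
  have top : ∀ x z, F x z ≤ F x x := by
    intro x z
    induction conn x z with
    | refl => exact le_refl _
    | tail _ h ih => exact le_trans (step _ _ _ h) ih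
  have avg : ∀ x, c * ∑ y, rho W E a b x y ≤ Fintype.card X * F x x := by
    intro x
    calc c * ∑ y, rho W E a b x y = ∑ z, F x z := by
          simp only [hF]
          rw [Finset.sum_comm, Finset.mul_sum]
          apply Finset.sum_congr rfl; intro y _
          rw [← Finset.mul_sum, hc]; ring
      _ ≤ ∑ _z : X, F x x := Finset.sum_le_sum (fun z _ => top x z)
      _ = _ := by simp only [sum_const, card_univ, nsmul_eq_mul]
  have t1 : bihom W E = ∑ x, ∑ y, rho W E a b x y := by
    have := sum_rho_mul (W := W) E a b (fun _ _ => 1)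
    simp only [mul_one, one_mul] at this
    rw [this]; rfl
  have t2 : bihom W (insert (a, b) E) = ∑ x, F x x := by
    simp only [hF]
    rw [sum_rho_mul]
    unfold bihom
    apply Finset.sum_congr rfl; intro φ _
    apply Finset.sum_congr rfl; intro ψ _
    rw [Finset.prod_insert he]
  rw [t1, t2, Finset.mul_sum, Finset.mul_sum]
  exact Finset.sum_le_sum (fun x _ => avg x)

/-- all edges -/
theorem bihom_ge {W : X → Y → ℝ} {sX : ι → X → X} {sY : ι → Y → Y}
    {PX : ι → Set X} {PY : ι → Set Y} (R : Reflections W sX sY PX PY)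
    (hW : ∀ x y, 0 ≤ W x y)
    (conn : ∀ x z : X, Relation.ReflTransGen (Step sX PX x) x z)
    (c : ℝ) (hc0 : 0 ≤ c) (hc : ∀ y, ∑ x, W x y = c)
    (E : Finset (A × B)) :
    c ^ E.card * ((Fintype.card X : ℝ) ^ Fintype.card A * (Fintype.card Y : ℝ) ^ Fintype.card B)
      ≤ (Fintype.card X : ℝ) ^ E.card * bihom W E := by
  induction E using Finset.induction_on with
  | empty => simp only [card_empty, pow_zero, one_mul, bihom, prod_empty, sum_const, card_univ, Fintype.card_pi, prod_const, nsmul_eq_mul, Nat.cast_pow, mul_one, Std.le_refl]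
  | insert e E he ih =>
    rw [Finset.card_insert_of_notMem he, pow_succ, pow_succ]
    have h := bihom_insert R hW conn c hc E e he
    calc _ = c * (c ^ E.card * ((Fintype.card X : ℝ) ^ Fintype.card A *
          (Fintype.card Y : ℝ) ^ Fintype.card B)) := by ring
      _ ≤ c * ((Fintype.card X : ℝ) ^ E.card * bihom W E) := mul_le_mul_of_nonneg_left ih hc0
      _ = (Fintype.card X : ℝ) ^ E.card * (c * bihom W E) := by ring
      _ ≤ (Fintype.card X : ℝ) ^ E.card * (Fintype.card X * bihom W (insert e E)) :=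
          mul_le_mul_of_nonneg_left h (by (clear * -; positivity))
      _ = _ := by ring

end Vale.Agent.P050
end
end

section

section

/-!
Families of targets with a monotone reflection system.
-/

open Finset

namespace Vale.Agent.P050

/-! ### general: both sides connected -/

section general

variable {A B X Y ι : Type*} [Fintype A] [Fintype B] [Fintype X] [Fintype Y]
  [DecidableEq A] [DecidableEq B]

theorem colsum_const {W : X → Y → ℝ} {sX : ι → X → X} {sY : ι → Y → Y}
    {PX : ι → Set X} {PY : ι → Set Y} (R : Reflections W sX sY PX PY)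
    (connY : ∀ y z : Y, Relation.ReflTransGen (fun u v => ∃ i, v = sY i u) y z) (y z : Y) :
    ∑ x, W x z = ∑ x, W x y := by
  induction connY y z with
  | refl => rfl
  | tail _ h ih =>
    obtain ⟨i, rfl⟩ := h
    rw [← ih]
    have inv : Function.Involutive (sX i) := R.invX i
    rw [← Equiv.sum_comp (inv.toPerm _)]
    apply Finset.sum_congr rfl; intro x _
    simp only [Function.Involutive.coe_toPerm, R.symm]

/-- Sidorenko inequality for a weighted bigraph target -/
def SidIneq {A B X Y : Type*} [Fintype A] [Fintype B] [Fintype X] [Fintype Y]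
    [DecidableEq A] [DecidableEq B] (W : X → Y → ℝ) (E : Finset (A × B)) : Prop :=
  ((∑ x, ∑ y, W x y) / (Fintype.card X * Fintype.card Y)) ^ E.card ≤
    bihom W E / ((Fintype.card X : ℝ) ^ Fintype.card A * (Fintype.card Y : ℝ) ^ Fintype.card B)

theorem sidIneq_of_reflections [Nonempty X] [Nonempty Y]
    {W : X → Y → ℝ} {sX : ι → X → X} {sY : ι → Y → Y}
    {PX : ι → Set X} {PY : ι → Set Y} (R : Reflections W sX sY PX PY)
    (hW : ∀ x y, 0 ≤ W x y)
    (conn : ∀ x z : X, Relation.ReflTransGen (Step sX PX x) x z)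
    (connY : ∀ y z : Y, Relation.ReflTransGen (fun u v => ∃ i, v = sY i u) y z)
    (E : Finset (A × B)) : SidIneq W E := by
  obtain ⟨y0⟩ := ‹Nonempty Y›
  have hc : ∀ y, ∑ x, W x y = ∑ x, W x y0 := fun y => colsum_const R connY y0 y
  have hX : (0 : ℝ) < Fintype.card X := by exact_mod_cast Fintype.card_pos
  have hY : (0 : ℝ) < Fintype.card Y := by
    have : Nonempty Y := ⟨y0⟩
    exact_mod_cast Fintype.card_pos
  have hc0 : 0 ≤ ∑ x, W x y0 := Finset.sum_nonneg (fun x _ => hW x y0)
  have h := bihom_ge R hW conn (∑ x, W x y0) hc0 hc E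
  unfold SidIneq
  have tot : ∑ x, ∑ y, W x y = Fintype.card Y * ∑ x, W x y0 := by
    rw [Finset.sum_comm]
    simp only [hc, sum_const, card_univ, nsmul_eq_mul]
  rw [tot]
  have e1 : (Fintype.card Y * ∑ x, W x y0) / (Fintype.card X * Fintype.card Y : ℝ) =
      (∑ x, W x y0) / Fintype.card X := by
    field_simp
  rw [e1, div_pow, div_le_div_iff₀ (by positivity) (by positivity)]
  linarith only [h]

end general

/-! ### words -/

section words

variable {n q : ℕ}

/-- exchange the letters `p.2.1` and `p.2.2` at position `p.1` -/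
def sw (p : Fin n × Fin q × Fin q) (x : Fin n → Fin q) : Fin n → Fin q :=
  Function.update x p.1 (Equiv.swap p.2.1 p.2.2 (x p.1))

/-- words with letter `p.2.1` at position `p.1` -/
def wP (p : Fin n × Fin q × Fin q) : Set (Fin n → Fin q) := {x | p.2.1 ≠ p.2.2 ∧ x p.1 = p.2.1}

/-- words with letter `p.2.2` at position `p.1` -/
def wQ (p : Fin n × Fin q × Fin q) : Set (Fin n → Fin q) := {x | p.2.1 ≠ p.2.2 ∧ x p.1 = p.2.2}

lemma sw_at (p : Fin n × Fin q × Fin q) (x : Fin n → Fin q) :
    sw p x p.1 = Equiv.swap p.2.1 p.2.2 (x p.1) := by simp [sw]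

lemma sw_ne (p : Fin n × Fin q × Fin q) (x : Fin n → Fin q) {i : Fin n} (h : i ≠ p.1) :
    sw p x i = x i := by simp [sw, h]

lemma sw_sw (p : Fin n × Fin q × Fin q) (x : Fin n → Fin q) : sw p (sw p x) = x := by
  funext i
  by_cases h : i = p.1
  · subst h; rw [sw_at, sw_at, Equiv.swap_apply_self]
  · rw [sw_ne p _ h, sw_ne p _ h]

lemma sw_wP (p : Fin n × Fin q × Fin q) (x : Fin n → Fin q) : sw p x ∈ wP p ↔ x ∈ wQ p := by
  simp only [wP, wQ, Set.mem_ofPred_eq, sw_at]
  constructor
  · rintro ⟨h1, h2⟩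
    refine ⟨h1, ?_⟩
    rw [Equiv.swap_apply_eq_iff, Equiv.swap_apply_left] at h2
    exact h2
  · rintro ⟨h1, h2⟩
    refine ⟨h1, ?_⟩
    rw [h2, Equiv.swap_apply_right]

lemma sw_wQ (p : Fin n × Fin q × Fin q) (x : Fin n → Fin q) : sw p x ∈ wQ p ↔ x ∈ wP p := by
  rw [← sw_wP, sw_sw]

lemma w_disj (p : Fin n × Fin q × Fin q) (x : Fin n → Fin q) (h : x ∈ wP p) (h' : x ∈ wQ p) :
    False := by
  simp only [wP, wQ, Set.mem_ofPred_eq] at h h'
  exact h.1 (h.2.symm.trans h'.2)

lemma sw_fix (p : Fin n × Fin q × Fin q) (x : Fin n → Fin q) (h : x ∉ wP p) (h' : x ∉ wQ p) :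
    sw p x = x := by
  simp only [wP, wQ, Set.mem_ofPred_eq] at h h'
  funext i
  by_cases hi : i = p.1
  · subst hi
    rw [sw_at]
    by_cases hne : p.2.1 = p.2.2
    · rw [hne, Equiv.swap_self]; rfl
    · rw [Equiv.swap_apply_of_ne_of_ne]
      · intro h1; exact h ⟨hne, h1⟩
      · intro h1; exact h' ⟨hne, h1⟩
  · rw [sw_ne p _ hi]

/-- positions where two words differ -/
def df (x y : Fin n → Fin q) : Finset (Fin n) := univ.filter (fun i => x i ≠ y i)

lemma mem_df (x y : Fin n → Fin q) (i : Fin n) : i ∈ df x y ↔ x i ≠ y i := by simp only [df, ne_eq, mem_filter, mem_univ, true_and]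

lemma words_conn (x z : Fin n → Fin q) : Relation.ReflTransGen (Step sw wP x) x z := by
  have key : ∀ m : ℕ, ∀ z : Fin n → Fin q, (df x z).card = m →
      Relation.ReflTransGen (Step sw wP x) x z := by
    intro m
    induction m with
    | zero =>
      intro z hz
      rw [Finset.card_eq_zero] at hz
      have : x = z := by
        funext i
        by_contra h
        have : i ∈ df x z := (mem_df _ _ _).mpr h
        rw [hz] at this
        simp at this
      subst this
      exact Relation.ReflTransGen.refl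
    | succ m ih =>
      intro z hz
      obtain ⟨i, hi⟩ : (df x z).Nonempty := by rw [← Finset.card_pos]; omega
      rw [mem_df] at hi
      set p : Fin n × Fin q × Fin q := (i, x i, z i) with hp
      have h1 : df x (sw p z) = (df x z).erase i := by
        ext j
        rw [mem_df, Finset.mem_erase, mem_df]
        by_cases hj : j = i
        · subst hj
          have : sw p z j = x j := by
            have := sw_at p z
            simp only [hp, Equiv.swap_apply_right] at this
            exact this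
          simp [this]
        · rw [sw_ne p z hj]; simp [hj]
      have h2 : (df x (sw p z)).card = m := by
        rw [h1, Finset.card_erase_of_mem ((mem_df _ _ _).mpr hi)]; omega
      refine Relation.ReflTransGen.tail (ih _ h2) ⟨p, Or.inl ⟨⟨hi, rfl⟩, ?_⟩, (sw_sw p z).symm⟩
      rw [sw_wP]
      exact ⟨hi, rfl⟩
  exact key _ z rfl

lemma words_refl (f : Finset (Fin n) → ℝ) (hf : Monotone f) :
    Reflections (fun x y : Fin n → Fin q => f (df x y)) sw sw wP wQ where
  invX := sw_sw
  invY := sw_sw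
  sideX := by intro p x hx h; rw [sw_wP] at h; exact w_disj p x hx h
  sideY := by intro p x hx h; rw [sw_wQ] at h; exact w_disj p x h hx
  fixX := by intro p x hx h; rw [sw_wP] at h; exact sw_fix p x hx h
  fixY := by intro p x hx h; rw [sw_wQ] at h; exact sw_fix p x h hx
  symm := by
    intro p x y
    congr 1
    ext i
    rw [mem_df, mem_df]
    by_cases hi : i = p.1
    · subst hi
      rw [sw_at, sw_at]
      simp
    · rw [sw_ne p _ hi, sw_ne p _ hi]
  mono := by
    intro p x y hx hy
    apply hf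
    intro i hi
    rw [mem_df] at *
    by_cases h : i = p.1
    · subst h
      intro h'
      have h1 : x p.1 = p.2.1 := hx.2
      have h2 : y p.1 = p.2.2 := hy.2
      exact hx.1 (by rw [← h1, ← h2, h'])
    · rw [sw_ne p _ h] at hi; exact hi

end words

/-! ### Johnson scheme -/

section johnson

variable {α : Type*} [Fintype α] [DecidableEq α]

/-- apply the transposition `(i j)` to a `k`-set -/
def tr {k : ℕ} (p : α × α) (x : {s : Finset α // s.card = k}) : {s : Finset α // s.card = k} :=
  ⟨x.1.map (Equiv.swap p.1 p.2).toEmbedding, by rw [Finset.card_map]; exact x.2⟩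

lemma mem_tr {k : ℕ} (p : α × α) (x : {s : Finset α // s.card = k}) (b : α) :
    b ∈ (tr p x).1 ↔ Equiv.swap p.1 p.2 b ∈ x.1 := by
  simp only [tr, Finset.mem_map_equiv, Equiv.symm_swap]

lemma tr_tr {k : ℕ} (p : α × α) (x : {s : Finset α // s.card = k}) : tr p (tr p x) = x := by
  apply Subtype.ext
  ext b
  rw [mem_tr, mem_tr, Equiv.swap_apply_self]

/-- the positive side of the transposition `(i j)` -/
def side (k : ℕ) (p : α × α) : Set {s : Finset α // s.card = k} := {x | p.1 ∈ x.1 ∧ p.2 ∉ x.1}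

/-- the other side -/
def side' (k : ℕ) (p : α × α) : Set {s : Finset α // s.card = k} := {x | p.2 ∈ x.1 ∧ p.1 ∉ x.1}

lemma tr_mem_side {k : ℕ} (p : α × α) (x : {s : Finset α // s.card = k}) :
    tr p x ∈ side k p ↔ x ∈ side' k p := by
  simp only [side, side', Set.mem_ofPred_eq, mem_tr, Equiv.swap_apply_left,
    Equiv.swap_apply_right]

lemma tr_mem_side' {k : ℕ} (p : α × α) (x : {s : Finset α // s.card = k}) :
    tr p x ∈ side' k p ↔ x ∈ side k p := by
  simp only [side, side', Set.mem_ofPred_eq, mem_tr, Equiv.swap_apply_left,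
    Equiv.swap_apply_right]

lemma not_both {k : ℕ} (p : α × α) (x : {s : Finset α // s.card = k}) (h : x ∈ side k p)
    (h' : x ∈ side' k p) : False := h.2 h'.1

lemma tr_fix {k : ℕ} (p : α × α) (x : {s : Finset α // s.card = k}) (h : x ∉ side k p)
    (h' : x ∉ side' k p) : tr p x = x := by
  apply Subtype.ext
  ext b
  rw [mem_tr]
  simp only [side, side', Set.mem_ofPred_eq] at h h'
  by_cases h1 : b = p.1
  · subst h1; rw [Equiv.swap_apply_left]; tauto
  · by_cases h2 : b = p.2
    · subst h2; rw [Equiv.swap_apply_right]; (clear * - h h'; tauto)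
    · rw [Equiv.swap_apply_of_ne_of_ne h1 h2]

lemma johnson_conn {k : ℕ} (x z : {s : Finset α // s.card = k}) :
    Relation.ReflTransGen (Step tr (side k) x) x z := by
  have key : ∀ n : ℕ, ∀ z : {s : Finset α // s.card = k}, (z.1 \ x.1).card = n →
      Relation.ReflTransGen (Step tr (side k) x) x z := by
    intro n
    induction n with
    | zero =>
      intro z hz
      rw [Finset.card_eq_zero, Finset.sdiff_eq_empty_iff_subset] at hz
      have : z.1 = x.1 := Finset.eq_of_subset_of_card_le hz (by rw [z.2, x.2])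
      have : z = x := Subtype.ext this
      subst this
      exact Relation.ReflTransGen.refl
    | succ n ih =>
      intro z hz
      obtain ⟨j, hj⟩ : (z.1 \ x.1).Nonempty := by rw [← Finset.card_pos]; omega
      have hcard : (x.1 \ z.1).card = (z.1 \ x.1).card := by
        have h1 := Finset.card_sdiff_add_card_inter x.1 z.1
        have h2 := Finset.card_sdiff_add_card_inter z.1 x.1
        rw [Finset.inter_comm] at h2
        have := x.2; have := z.2
        omega
      obtain ⟨i, hi⟩ : (x.1 \ z.1).Nonempty := by rw [← Finset.card_pos, hcard]; omega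
      rw [Finset.mem_sdiff] at hi hj
      have hij : i ≠ j := fun h => hi.2 (h ▸ hj.1)
      have h1 : (tr (i, j) z).1 \ x.1 = (z.1 \ x.1).erase j := by
        ext b
        rw [Finset.mem_sdiff, mem_tr, Finset.mem_erase, Finset.mem_sdiff]
        by_cases hb : b = i
        · subst hb
          have := hi.1
          have := hi.2
          (clear * - hj hi this; tauto)
        · by_cases hb' : b = j
          · subst hb'
            simp only [Equiv.swap_apply_right]
            have := hi.2
            (clear * - hi hj this; tauto)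
          · rw [Equiv.swap_apply_of_ne_of_ne hb hb']
            (clear * - hj hi hb'; tauto)
      have h2 : ((tr (i, j) z).1 \ x.1).card = n := by
        rw [h1, Finset.card_erase_of_mem (Finset.mem_sdiff.mpr hj)]; omega
      refine Relation.ReflTransGen.tail (ih _ h2) ⟨(i, j), Or.inl ⟨⟨hi.1, hj.2⟩, ?_⟩,
        (tr_tr (i, j) z).symm⟩
      rw [tr_mem_side]
      exact ⟨hj.1, hi.2⟩
  exact key _ z rfl

lemma johnson_connY {k : ℕ} (y z : {s : Finset α // s.card = k}) :
    Relation.ReflTransGen (fun u v => ∃ p, v = tr p u) y z := by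
  induction johnson_conn y z with
  | refl => exact Relation.ReflTransGen.refl
  | tail _ h ih =>
    obtain ⟨a, _, h⟩ := h
    exact ih.tail ⟨a, h⟩

lemma inter_tr {k l : ℕ} (p : α × α) (x : {s : Finset α // s.card = k})
    (y : {s : Finset α // s.card = l}) :
    ((tr p x).1 ∩ (tr p y).1).card = (x.1 ∩ y.1).card := by
  have : (tr p x).1 ∩ (tr p y).1 = (x.1 ∩ y.1).map (Equiv.swap p.1 p.2).toEmbedding := by
    simp only [tr, Finset.map_inter]
  rw [this, Finset.card_map]

lemma inter_lt {k l : ℕ} (p : α × α) (x : {s : Finset α // s.card = k})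
    (y : {s : Finset α // s.card = l}) (hx : x ∈ side k p) (hy : y ∈ side l p) :
    (x.1 ∩ (tr p y).1).card ≤ (x.1 ∩ y.1).card := by
  apply Finset.card_le_card
  intro b hb
  rw [Finset.mem_inter, mem_tr] at hb
  rw [Finset.mem_inter]
  refine ⟨hb.1, ?_⟩
  by_cases h1 : b = p.1
  · subst h1; exact hy.1
  · by_cases h2 : b = p.2
    · subst h2; exact absurd hb.1 hx.2
    · rw [Equiv.swap_apply_of_ne_of_ne h1 h2] at hb; exact hb.2

lemma johnson_refl_mono {k l : ℕ} (f : ℕ → ℝ) (hf : Monotone f) :
    Reflections (fun (x : {s : Finset α // s.card = k}) (y : {s : Finset α // s.card = l}) =>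
      f (x.1 ∩ y.1).card) tr tr (side k) (side l) where
  invX := tr_tr
  invY := tr_tr
  sideX := by intro p x hx h; rw [tr_mem_side] at h; exact not_both p x hx h
  sideY := by intro p x hx h; rw [tr_mem_side] at h; exact not_both p x hx h
  fixX := by intro p x hx h; rw [tr_mem_side] at h; exact tr_fix p x hx h
  fixY := by intro p x hx h; rw [tr_mem_side] at h; exact tr_fix p x hx h
  symm := by intro p x y; simp only [inter_tr]
  mono := by intro p x y hx hy; exact hf (inter_lt p x y hx hy)

lemma johnson_refl_anti {k l : ℕ} (f : ℕ → ℝ) (hf : Antitone f) :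
    Reflections (fun (x : {s : Finset α // s.card = k}) (y : {s : Finset α // s.card = l}) =>
      f (x.1 ∩ y.1).card) tr tr (side k) (side' l) where
  invX := tr_tr
  invY := tr_tr
  sideX := by intro p x hx h; rw [tr_mem_side] at h; exact not_both p x hx h
  sideY := by intro p x hx h; rw [tr_mem_side'] at h; exact not_both p x h hx
  fixX := by intro p x hx h; rw [tr_mem_side] at h; exact tr_fix p x hx h
  fixY := by intro p x hx h; rw [tr_mem_side'] at h; exact tr_fix p x h hx
  symm := by intro p x y; simp only [inter_tr]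
  mono := by
    intro p x y hx hy
    have := inter_lt p x (tr p y) hx ((tr_mem_side p y).mpr hy)
    rw [tr_tr] at this
    exact hf this

end johnson

end Vale.Agent.P050
end
end

section

section

/-!
Circular targets.
-/

open Finset

namespace Vale.Agent.P050

/-- the reflection `i ↦ c - i` modulo `n` -/
def rfl1 {n : ℕ} (c x : Fin n) : Fin n :=
  ⟨if x.1 ≤ c.1 then c.1 - x.1 else c.1 + n - x.1, by
    have := c.2; have := x.2; split <;> omega⟩

lemma rfl1_val {n : ℕ} (c x : Fin n) :
    (rfl1 c x).1 = if x.1 ≤ c.1 then c.1 - x.1 else c.1 + n - x.1 := rfl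

/-- half circle -/
def half (n : ℕ) (c : Fin n) : Set (Fin n) := {i | c.1 < 2 * i.1 ∧ 2 * i.1 < c.1 + n}

/-- the other half circle -/
def half' (n : ℕ) (c : Fin n) : Set (Fin n) := {i | 2 * i.1 < c.1 ∨ c.1 + n < 2 * i.1}

lemma rfl1_rfl1 {n : ℕ} (c x : Fin n) : rfl1 c (rfl1 c x) = x := by
  apply Fin.ext
  have := c.2; have := x.2
  rw [rfl1_val, rfl1_val]
  split_ifs <;> omega

lemma rfl1_half {n : ℕ} (c x : Fin n) : rfl1 c x ∈ half n c ↔ x ∈ half' n c := by
  have := c.2; have := x.2
  simp only [half, half', Set.mem_ofPred_eq, rfl1_val]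
  split_ifs <;> omega

lemma rfl1_half' {n : ℕ} (c x : Fin n) : rfl1 c x ∈ half' n c ↔ x ∈ half n c := by
  rw [← rfl1_half, rfl1_rfl1]

lemma half_disj {n : ℕ} (c x : Fin n) (h : x ∈ half n c) (h' : x ∈ half' n c) : False := by
  have := c.2; have := x.2
  simp only [half, half', Set.mem_ofPred_eq] at h h'
  omega

lemma rfl1_fix {n : ℕ} (c x : Fin n) (h : x ∉ half n c) (h' : x ∉ half' n c) :
    rfl1 c x = x := by
  have := c.2; have := x.2
  simp only [half, half', Set.mem_ofPred_eq] at h h'
  apply Fin.ext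
  rw [rfl1_val]
  split_ifs <;> omega

lemma cdist_rfl1 {n : ℕ} (c x y : Fin n) :
    cdist n (rfl1 c x).1 (rfl1 c y).1 = cdist n x.1 y.1 := by
  have := c.2; have := x.2; have := y.2
  simp only [cdist, rfl1_val]
  split_ifs <;> omega

lemma cdist_half {n : ℕ} (c x y : Fin n) (hx : x ∈ half n c) (hy : y ∈ half n c) :
    cdist n x.1 y.1 ≤ cdist n x.1 (rfl1 c y).1 := by
  have := c.2; have := x.2; have := y.2
  simp only [half, Set.mem_ofPred_eq] at hx hy
  simp only [cdist, rfl1_val]
  split_ifs <;> omega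

lemma circ_step {n : ℕ} (x z : Fin n) (h : x ≠ z) : Step rfl1 (half n) x x z := by
  have h1 := x.2; have h2 := z.2
  have hne : x.1 ≠ z.1 := fun h' => h (Fin.ext h')
  refine ⟨⟨if x.1 + z.1 < n then x.1 + z.1 else x.1 + z.1 - n, by split_ifs <;> omega⟩, ?_, ?_⟩
  · simp only [rfl1_half]
    simp only [half, half', Set.mem_ofPred_eq]
    split_ifs <;> omega
  · apply Fin.ext
    simp only [rfl1_val]
    split_ifs <;> omega

lemma circ_conn {n : ℕ} (x z : Fin n) : Relation.ReflTransGen (Step rfl1 (half n) x) x z := by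
  by_cases h : x = z
  · subst h; exact Relation.ReflTransGen.refl
  · exact Relation.ReflTransGen.single (circ_step x z h)

lemma circ_connY {n : ℕ} (y z : Fin n) :
    Relation.ReflTransGen (fun u v => ∃ c, v = rfl1 c u) y z := by
  by_cases h : y = z
  · subst h; exact Relation.ReflTransGen.refl
  · obtain ⟨i, _, hi⟩ := circ_step y z h
    exact Relation.ReflTransGen.single ⟨i, hi⟩

lemma circ_refl_anti {n : ℕ} (f : ℕ → ℝ) (hf : Antitone f) :
    Reflections (fun x y : Fin n => f (cdist n x.1 y.1)) rfl1 rfl1 (half n) (half n) where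
  invX := rfl1_rfl1
  invY := rfl1_rfl1
  sideX := by intro p x hx h; rw [rfl1_half] at h; exact half_disj p x hx h
  sideY := by intro p x hx h; rw [rfl1_half] at h; exact half_disj p x hx h
  fixX := by intro p x hx h; rw [rfl1_half] at h; exact rfl1_fix p x hx h
  fixY := by intro p x hx h; rw [rfl1_half] at h; exact rfl1_fix p x hx h
  symm := by intro p x y; simp only [cdist_rfl1]
  mono := by intro p x y hx hy; exact hf (cdist_half p x y hx hy)

lemma circ_refl_mono {n : ℕ} (f : ℕ → ℝ) (hf : Monotone f) :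
    Reflections (fun x y : Fin n => f (cdist n x.1 y.1)) rfl1 rfl1 (half n) (half' n) where
  invX := rfl1_rfl1
  invY := rfl1_rfl1
  sideX := by intro p x hx h; rw [rfl1_half] at h; exact half_disj p x hx h
  sideY := by intro p x hx h; rw [rfl1_half'] at h; exact half_disj p x h hx
  fixX := by intro p x hx h; rw [rfl1_half] at h; exact rfl1_fix p x hx h
  fixY := by intro p x hx h; rw [rfl1_half'] at h; exact rfl1_fix p x h hx
  symm := by intro p x y; simp only [cdist_rfl1]
  mono := by
    intro p x y hx hy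
    have := cdist_half p x (rfl1 p y) hx ((rfl1_half p y).mpr hy)
    rw [rfl1_rfl1] at this
    exact hf this

end Vale.Agent.P050
end
end

section

section

/-!
From weighted bigraphs to homomorphism counts of simple graphs.
-/

open Finset

namespace Vale.Agent.P050

section conv

variable {V U : Type*} [Fintype V] [DecidableEq V] [Fintype U]

open Classical in
/-- adjacency weights -/
noncomputable def adjW {U : Type*} (G : SimpleGraph U) (x y : U) : ℝ := if G.Adj x y then 1 else 0

/-- edges from the side `p` to the other side -/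
def sideEdges (H : SimpleGraph V) [DecidableRel H.Adj] (p : V → Prop) [DecidablePred p] :
    Finset ({v // p v} × {v // ¬ p v}) :=
  univ.filter (fun e => H.Adj e.1.1 e.2.1)

lemma card_hom_eq (H : SimpleGraph V) [DecidableRel H.Adj] (G : SimpleGraph U) (p : V → Prop)
    [DecidablePred p] (hp : ∀ u v, H.Adj u v → (p u ↔ ¬ p v)) :
    (Nat.card (H →g G) : ℝ) = bihom (adjW G) (sideEdges H p) := by
  classical
  have e1 : (H →g G) ≃ {f : V → U // ∀ u v, H.Adj u v → G.Adj (f u) (f v)} :=
    { toFun := fun f => ⟨f, fun u v h => f.map_rel h⟩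
      invFun := fun f => ⟨f.1, fun {u v} h => f.2 u v h⟩
      left_inv := fun f => rfl
      right_inv := fun f => rfl }
  rw [Nat.card_congr e1, Nat.card_eq_fintype_card, Fintype.card_subtype]
  rw [Finset.card_filter]
  push_cast
  unfold bihom
  rw [← Fintype.sum_prod_type']
  rw [← Equiv.sum_comp (Equiv.piEquivPiSubtypeProd p (fun _ => U))]
  apply Finset.sum_congr rfl
  intro f _
  unfold adjW
  rw [Finset.prod_ite_zero]
  simp only [Finset.prod_const_one]
  congr 1
  apply propext
  constructor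
  · intro h e he
    unfold sideEdges at he
    rw [Finset.mem_filter] at he
    exact h _ _ he.2
  · intro h u v huv
    by_cases hu : p u
    · have hv : ¬ p v := (hp u v huv).mp hu
      have := h (⟨u, hu⟩, ⟨v, hv⟩) (by simp only [sideEdges, mem_filter, mem_univ, huv, and_self])
      exact this
    · have hv : p v := by
        by_contra hv
        exact hu ((hp u v huv).mpr hv)
      have := h (⟨v, hv⟩, ⟨u, hu⟩) (by simp only [sideEdges, mem_filter, mem_univ, huv.symm, and_self])
      exact this.symm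

lemma card_edges_eq (H : SimpleGraph V) [DecidableRel H.Adj] (p : V → Prop)
    [DecidablePred p] (hp : ∀ u v, H.Adj u v → (p u ↔ ¬ p v)) :
    Nat.card H.edgeSet = (sideEdges H p).card := by
  rw [Nat.card_eq_fintype_card, ← SimpleGraph.edgeFinset_card]
  symm
  apply Finset.card_bij (fun e _ => s(e.1.1, e.2.1))
  · intro e he
    unfold sideEdges at he
    rw [Finset.mem_filter] at he
    rw [SimpleGraph.mem_edgeFinset, SimpleGraph.mem_edgeSet]
    exact he.2
  · rintro ⟨⟨a, ha⟩, ⟨b, hb⟩⟩ _ ⟨⟨c, hc⟩, ⟨d, hd⟩⟩ _ h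
    simp only [Sym2.eq_iff] at h
    rcases h with ⟨h1, h2⟩ | ⟨h1, h2⟩
    · subst h1 h2; rfl
    · subst h1; exact absurd ha hd
  · intro e he
    induction e using Sym2.ind with
    | _ u v =>
      rw [SimpleGraph.mem_edgeFinset, SimpleGraph.mem_edgeSet] at he
      by_cases hu : p u
      · have hv : ¬ p v := (hp u v he).mp hu
        exact ⟨(⟨u, hu⟩, ⟨v, hv⟩), by simp only [sideEdges, mem_filter, mem_univ, he, and_self], rfl⟩
      · have hv : p v := by
          by_contra hv
          exact hu ((hp u v he).mpr hv)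
        exact ⟨(⟨v, hv⟩, ⟨u, hu⟩), by simp only [sideEdges, mem_filter, mem_univ, he.symm, and_self], Sym2.eq_swap⟩

end conv

section main

variable {U ι : Type*}

lemma refl_of_graph {G : SimpleGraph U} {s : ι → U → U} {P Q : ι → Set U}
    (R : MonotoneReflections G s P Q) : Reflections (adjW G) s s P Q where
  invX := R.invol
  invY := R.invol
  sideX := R.sideP
  sideY := R.sideQ
  fixX := R.fixP
  fixY := R.fixQ
  symm := by
    intro i x y
    unfold adjW
    by_cases h : G.Adj x y
    · rw [if_pos h, if_pos ((R.auto i x y).mpr h)]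
    · rw [if_neg h, if_neg (fun h' => h ((R.auto i x y).mp h'))]
  mono := by
    intro i x y hx hy
    unfold adjW
    by_cases h : G.Adj x (s i y)
    · rw [if_pos h, if_pos (R.mono i x y hx hy h)]
    · rw [if_neg h]; positivity

/-- several edges -/
theorem bihom_mono {A B X Y ι : Type*} [Fintype A] [Fintype B] [Fintype X] [Fintype Y]
    [DecidableEq A] [DecidableEq B] {W : X → Y → ℝ} {sX : ι → X → X} {sY : ι → Y → Y}
    {PX : ι → Set X} {PY : ι → Set Y} (R : Reflections W sX sY PX PY)
    (hW : ∀ x y, 0 ≤ W x y)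
    (conn : ∀ x z : X, Relation.ReflTransGen (Step sX PX x) x z)
    (c : ℝ) (hc0 : 0 ≤ c) (hc : ∀ y, ∑ x, W x y = c)
    (E E' : Finset (A × B)) (h : E ⊆ E') :
    c ^ (E'.card - E.card) * bihom W E ≤
      (Fintype.card X : ℝ) ^ (E'.card - E.card) * bihom W E' := by
  have key : ∀ D : Finset (A × B), Disjoint E D →
      c ^ D.card * bihom W E ≤ (Fintype.card X : ℝ) ^ D.card * bihom W (E ∪ D) := by
    intro D
    induction D using Finset.induction_on with
    | empty => intro _; simp only [card_empty, pow_zero, one_mul, union_empty, Std.le_refl]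
    | insert e D he ih =>
      intro hd
      rw [Finset.disjoint_insert_right] at hd
      have ih := ih hd.2
      have hne : e ∉ E ∪ D := by
        rw [Finset.mem_union]; rintro (h | h)
        · exact hd.1 h
        · exact he h
      have h1 := bihom_insert R hW conn c hc (E ∪ D) e hne
      rw [Finset.card_insert_of_notMem he, pow_succ, pow_succ, Finset.union_insert]
      calc _ = c * (c ^ D.card * bihom W E) := by ring
        _ ≤ c * ((Fintype.card X : ℝ) ^ D.card * bihom W (E ∪ D)) :=
            mul_le_mul_of_nonneg_left ih hc0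
        _ = (Fintype.card X : ℝ) ^ D.card * (c * bihom W (E ∪ D)) := by ring
        _ ≤ (Fintype.card X : ℝ) ^ D.card * (Fintype.card X * bihom W (insert e (E ∪ D))) :=
            mul_le_mul_of_nonneg_left h1 (by positivity)
        _ = _ := by ring
  have := key (E' \ E) Finset.disjoint_sdiff
  rwa [Finset.union_sdiff_of_subset h, Finset.card_sdiff_of_subset h] at this

theorem edgewise_of_reflections [Finite U] [Nonempty U] {G : SimpleGraph U}
    {X ι : Type*} {s : ι → U → U} {P Q : ι → Set U}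
    (R : Reflections (adjW G) s s P Q)
    (conn : ∀ x z, Relation.ReflTransGen (Step s P x) x z) : EdgewiseSidorenkoAgainst G := by
  classical
  intro V _ H H' hH' hle
  have := Fintype.ofFinite V
  have := Fintype.ofFinite U
  obtain ⟨c⟩ := hH'
  set p : V → Prop := fun v => c v = 0 with hpdef
  have hp' : ∀ u v, H'.Adj u v → (p u ↔ ¬ p v) := by
    intro u v h
    have := c.valid h
    simp only [hpdef]
    have h2 : ∀ x : Fin 2, x = 0 ∨ x = 1 := by decide
    rcases h2 (c u) with h1 | h1 <;> rcases h2 (c v) with h3 | h3 <;> simp_all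
  have hp : ∀ u v, H.Adj u v → (p u ↔ ¬ p v) := fun u v h => hp' u v (hle h)
  have hW : ∀ x y, 0 ≤ adjW G x y := by intro x y; unfold adjW; positivity
  obtain ⟨u0⟩ := ‹Nonempty U›
  have connY : ∀ y z : U, Relation.ReflTransGen (fun u v => ∃ i, v = s i u) y z := by
    intro y z
    induction conn y z with
    | refl => exact Relation.ReflTransGen.refl
    | tail _ h ih =>
      obtain ⟨a, _, h⟩ := h
      exact ih.tail ⟨a, h⟩
  have hc : ∀ y, ∑ x, adjW G x y = ∑ x, adjW G x u0 := fun y => colsum_const R connY u0 y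
  set d := ∑ x, adjW G x u0 with hd
  have hc0 : 0 ≤ d := Finset.sum_nonneg (fun x _ => hW x u0)
  have hU : (0 : ℝ) < Fintype.card U := by
    have : Nonempty U := ⟨u0⟩
    exact_mod_cast Fintype.card_pos
  have hsub : sideEdges H p ⊆ sideEdges H' p := by
    intro e he
    unfold sideEdges at *
    rw [Finset.mem_filter] at *
    exact ⟨he.1, hle he.2⟩
  have main := bihom_mono R hW conn d hc0 hc _ _ hsub
  have hdens : edgeDensity G = d / Fintype.card U := by
    unfold edgeDensity
    have h1 : (2 * (Nat.card G.edgeSet : ℝ)) = ∑ y, ∑ x, adjW G x y := by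
      rw [Nat.card_eq_fintype_card, ← SimpleGraph.edgeFinset_card]
      have := G.sum_degrees_eq_twice_card_edges
      have h2 : ((2 * G.edgeFinset.card : ℕ) : ℝ) = ((∑ v, G.degree v : ℕ) : ℝ) := by rw [this]
      push_cast at h2
      rw [h2]
      apply Finset.sum_congr rfl
      intro y _
      unfold adjW
      rw [Finset.sum_boole]
      congr 1
      rw [← SimpleGraph.card_neighborFinset_eq_degree]
      congr 1
      ext x
      simp only [SimpleGraph.mem_neighborFinset, SimpleGraph.adj_comm, mem_filter, mem_univ, true_and]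
    rw [h1, Nat.card_eq_fintype_card]
    simp only [hc, Finset.sum_const, Finset.card_univ, nsmul_eq_mul]
    (clear X ι s P Q R conn H H' hle c p hpdef hp' hp hW connY hc hd hc0 hU hsub main h1; field_simp)
  unfold homDensity
  rw [card_hom_eq H G p hp, card_hom_eq H' G p hp', card_edges_eq H p hp, card_edges_eq H' p hp',
    hdens, div_pow, Nat.card_eq_fintype_card (α := U), Nat.card_eq_fintype_card (α := V)]
  rw [div_mul_div_comm, div_le_div_iff₀ (by positivity) (by positivity)]
  set k := (sideEdges H' p).card - (sideEdges H p).card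
  have hpos : (0 : ℝ) ≤ (Fintype.card U : ℝ) ^ Fintype.card V := by positivity
  calc _ = (d ^ k * bihom (adjW G) (sideEdges H p)) * (Fintype.card U : ℝ) ^ Fintype.card V := by
        ring
    _ ≤ ((Fintype.card U : ℝ) ^ k * bihom (adjW G) (sideEdges H' p)) *
        (Fintype.card U : ℝ) ^ Fintype.card V := mul_le_mul_of_nonneg_right main hpos
    _ = _ := by ring

theorem sidorenko_of_edgewise [Finite U] [Nonempty U] {G : SimpleGraph U}
    (h : EdgewiseSidorenkoAgainst G) : SidorenkoAgainst G := by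
  intro V _ H hH
  have := h V ⊥ H hH bot_le
  have e1 : Nat.card (⊥ : SimpleGraph V).edgeSet = 0 := by simp only [SimpleGraph.edgeSet_bot, Nat.card_eq_fintype_card, Fintype.card_eq_zero]
  have e2 : homDensity (⊥ : SimpleGraph V) G = 1 := by
    classical
    have := Fintype.ofFinite V
    have := Fintype.ofFinite U
    unfold homDensity
    have e : ((⊥ : SimpleGraph V) →g G) ≃ (V → U) :=
      { toFun := fun f => f
        invFun := fun f => ⟨f, fun {u v} h => absurd h (by simp only [SimpleGraph.bot_adj, not_false_eq_true])⟩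
        left_inv := fun f => rfl
        right_inv := fun f => rfl }
    rw [Nat.card_congr e, Nat.card_fun]
    push_cast
    have : (0 : ℝ) < Nat.card U := by exact_mod_cast Nat.card_pos
    field_simp
  rw [e1, e2, Nat.sub_zero, one_mul] at this
  exact this

end main

end Vale.Agent.P050
end
end

section

section

/-!
The graph families.
-/

open Finset

namespace Vale.Agent.P050

theorem edgewise_of_monotoneReflections {U ι : Type*} [Finite U] [Nonempty U]
    (G : SimpleGraph U) (s : ι → U → U) (P Q : ι → Set U) (R : MonotoneReflections G s P Q) :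
    EdgewiseSidorenkoAgainst G :=
  edgewise_of_reflections (X := U) (refl_of_graph R) R.reach

theorem edgewise_hamming (n q : ℕ) (hq : 0 < q) (S : Set (Finset (Fin n)))
    (hS : IsUpperSet S) : EdgewiseSidorenkoAgainst (hammingGraph n q S) := by
  classical
  have hne : Nonempty (Fin n → Fin q) := ⟨fun _ => ⟨0, hq⟩⟩
  have hf : Monotone (fun T : Finset (Fin n) => if T ≠ ∅ ∧ T ∈ S then (1 : ℝ) else 0) := by
    intro T T' h
    by_cases h1 : T ≠ ∅ ∧ T ∈ S
    · have h2 : T' ≠ ∅ := by
        rintro rfl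
        exact h1.1 (Finset.subset_empty.mp h)
      simp only [if_pos h1, if_pos (And.intro h2 (hS h h1.2))]
      exact le_refl _
    · simp only [if_neg h1]; positivity
  have e : adjW (hammingGraph n q S) =
      fun x y : Fin n → Fin q => (fun T : Finset (Fin n) => if T ≠ ∅ ∧ T ∈ S then (1 : ℝ) else 0)
        (df x y) := by
    funext x y
    unfold adjW hammingGraph
    simp only
    have : x ≠ y ↔ df x y ≠ ∅ := by
      rw [not_iff_not]
      constructor
      · rintro rfl
        simp [df]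
      · intro h
        funext i
        by_contra h'
        have : i ∈ df x y := (mem_df _ _ _).mpr h'
        rw [h] at this
        simp at this
    simp only [this]
    rfl
  have R := words_refl (q := q) _ hf
  rw [← e] at R
  exact edgewise_of_reflections (X := Fin n) R words_conn

theorem edgewise_kneser (n k t : ℕ) (hk : k ≤ n) : EdgewiseSidorenkoAgainst (kneserGraph n k t) := by
  classical
  have hne : Nonempty {s : Finset (Fin n) // s.card = k} := by
    obtain ⟨s, hs⟩ := Finset.exists_subset_card_eq (s := (univ : Finset (Fin n))) (n := k)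
      (by simpa only [card_univ, Fintype.card_fin] using hk)
    exact ⟨⟨s, hs.2⟩⟩
  have hf : Antitone (fun m : ℕ => if m < k ∧ m ≤ t then (1 : ℝ) else 0) := by
    intro m m' h
    by_cases h1 : m' < k ∧ m' ≤ t
    · have h2 : m < k ∧ m ≤ t := by omega
      simp only [if_pos h1, if_pos h2]
      exact le_refl _
    · simp only [if_neg h1]; positivity
  have e : adjW (kneserGraph n k t) =
      fun x y : {s : Finset (Fin n) // s.card = k} =>
        (fun m : ℕ => if m < k ∧ m ≤ t then (1 : ℝ) else 0) (x.1 ∩ y.1).card := by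
    funext x y
    unfold adjW kneserGraph
    simp only
    have : x ≠ y ↔ (x.1 ∩ y.1).card < k := by
      constructor
      · intro h
        by_contra hlt
        have h1 : (x.1 ∩ y.1).card = k := by
          have := Finset.card_le_card (Finset.inter_subset_left (s₁ := x.1) (s₂ := y.1))
          rw [x.2] at this
          omega
        have h2 : x.1 ∩ y.1 = x.1 :=
          Finset.eq_of_subset_of_card_le Finset.inter_subset_left (by rw [h1, x.2])
        have h3 : x.1 ∩ y.1 = y.1 :=
          Finset.eq_of_subset_of_card_le Finset.inter_subset_right (by rw [h1, y.2])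
        exact h (Subtype.ext (h2.symm.trans h3))
      · rintro h rfl
        rw [Finset.inter_self, x.2] at h
        omega
    simp only [this]
  have R := johnson_refl_anti (α := Fin n) (k := k) (l := k) _ hf
  rw [← e] at R
  exact edgewise_of_reflections (X := Fin n) R johnson_conn

theorem edgewise_circular (n r : ℕ) (hn : 0 < n) :
    EdgewiseSidorenkoAgainst (circularGraph n r) := by
  classical
  have hne : Nonempty (Fin n) := ⟨⟨0, hn⟩⟩
  have hf : Monotone (fun m : ℕ => if 0 < m ∧ r ≤ m then (1 : ℝ) else 0) := by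
    intro m m' h
    by_cases h1 : 0 < m ∧ r ≤ m
    · have h2 : 0 < m' ∧ r ≤ m' := by omega
      simp only [if_pos h1, if_pos h2]
      exact le_refl _
    · simp only [if_neg h1]; positivity
  have e : adjW (circularGraph n r) =
      fun x y : Fin n => (fun m : ℕ => if 0 < m ∧ r ≤ m then (1 : ℝ) else 0)
        (cdist n x.1 y.1) := by
    funext x y
    unfold adjW circularGraph
    simp only
    have : x ≠ y ↔ 0 < cdist n x.1 y.1 := by
      rw [Ne, Fin.ext_iff]
      have := x.2; have := y.2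
      unfold cdist
      omega
    simp only [this]
  have R := circ_refl_mono (n := n) _ hf
  rw [← e] at R
  exact edgewise_of_reflections (X := Fin n) R circ_conn

end Vale.Agent.P050
end
end
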